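import Vale.Agent.P147.Regen.PairChain

/-!
# The law of pairs: probability, heights, lengths, overlaps, downward marginal
-/

namespace Vale.Agent.P147.Regen

open MeasureTheory Set Filter
open scoped ENNReal

variable {d : ℕ} [NeZero d] (μ : Measure (Step d → ℝ)) [IsProbabilityMeasure μ]
  (φ : Site d →+ ℤ)

omit [NeZero d] [IsProbabilityMeasure μ] in
theorem pairLaw_singleton {φ : Site d →+ ℤ} {p : PairW d} (h : IsPair φ p) :
    pairLaw μ φ {p} = wt μ p.1 * wt μ p.2 := by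
  rw [pairLaw, Measure.sum_apply _ (measurableSet_singleton p),
    tsum_eq_single (⟨p, h⟩ : {p : PairW d // IsPair φ p}) fun q hq => ?_]
  · simp
  · have : q.1 ≠ p := fun e => hq (Subtype.ext e)
    simp [this]

omit [NeZero d] [IsProbabilityMeasure μ] in
theorem ae_isPair : ∀ᵐ p ∂pairLaw μ φ, IsPair φ p := by
  rw [pairLaw, Measure.ae_sum_iff' (MeasurableSet.of_discrete (s := {p : PairW d | IsPair φ p}))]
  intro q
  refine Measure.ae_smul_measure ?_ _
  rw [ae_dirac_eq, Filter.eventually_pure]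
  exact q.2

omit [NeZero d] [IsProbabilityMeasure μ] in
theorem lintegral_pairLaw (f : PairW d → ℝ≥0∞) :
    ∫⁻ p, f p ∂pairLaw μ φ =
      ∑' p : {p : PairW d // IsPair φ p}, wt μ p.1.1 * wt μ p.1.2 * f p.1 := by
  rw [pairLaw, lintegral_sum_measure]
  simp

theorem isProbabilityMeasure_pairLaw (h : Hyp μ φ) : IsProbabilityMeasure (pairLaw μ φ) := by
  refine ⟨?_⟩
  rw [← lintegral_one, lintegral_pairLaw]
  simpa [qTot] using qTot_eq_one h

theorem pairsLaw_Beg (h : Hyp μ φ) {P : List (PairW d)} (hP : AllPairs φ P) :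
    pairsLaw μ φ (Beg P) = wtP μ P := by
  have := isProbabilityMeasure_pairLaw μ φ h
  rw [pairsLaw, infinitePi_Beg, wtP]
  exact congrArg List.prod (List.map_congr_left fun p hp => pairLaw_singleton μ (hP p hp))

theorem ae_allPairs (h : Hyp μ φ) : ∀ᵐ ω ∂pairsLaw μ φ, ∀ i, IsPair φ (ω i) := by
  have := isProbabilityMeasure_pairLaw μ φ h
  exact ae_all_iff.2 fun i =>
    (measurePreserving_eval_infinitePi (fun _ : ℕ => pairLaw μ φ) i).quasiMeasurePreserving.ae
      (ae_isPair μ φ)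

omit [NeZero d] in
theorem height_eq_htL (ω : ℕ → PairW d) (n : ℕ) :
    height φ ω n = htL φ ((List.range n).map ω) := by
  induction n with
  | zero => simp [height, htL]
  | succ n ih => rw [height_succ, ih]; simp [htL, List.range_succ]

omit [NeZero d] in
theorem xWord_eq_xw (ω : ℕ → PairW d) (n : ℕ) : xWord ω n = xw ((List.range n).map ω) := by
  simp [xWord, xw, List.map_reverse, Function.comp_def]

omit [NeZero d] in
theorem yWord_eq_yw (ω : ℕ → PairW d) (n : ℕ) : yWord ω n = yw ((List.range n).map ω) := by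
  simp [yWord, yw, Function.comp_def]

/-- A function of the first `n` pairs. -/
theorem lintegral_pairs (h : Hyp μ φ) (n : ℕ) {G : (ℕ → PairW d) → ℝ≥0∞}
    (F : List (PairW d) → ℝ≥0∞) (hG : ∀ P : PLn φ n, ∀ ω ∈ Beg P.1, G ω = F P.1) :
    ∫⁻ ω, G ω ∂pairsLaw μ φ = ∑' P : PLn φ n, wtP μ P.1 * F P.1 := by
  have hmem : ∀ᵐ ω ∂pairsLaw μ φ, ω ∈ ⋃ P : PLn φ n, Beg P.1 :=
    (ae_allPairs μ φ h).mono fun ω hω => mem_iUnion.2
      ⟨⟨(List.range n).map ω, fun p hp => by
          obtain ⟨i, -, rfl⟩ := List.mem_map.1 hp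
          exact hω i, by simp⟩, mem_Beg_iff.2 (by simp)⟩
  rw [← Measure.restrict_eq_self_of_ae_mem hmem,
    lintegral_iUnion (fun P => measurableSet_Beg P.1) (fun P Q hPQ => Set.disjoint_left.2
      fun z hi hj => hPQ (PLn_inj (compat_of_mem_Beg hi hj)))]
  refine tsum_congr fun P => ?_
  rw [setLIntegral_congr_fun (measurableSet_Beg P.1) (hG P), setLIntegral_const,
    pairsLaw_Beg μ φ h P.2.1, mul_comm]

theorem pairs_common (h : Hyp μ φ) (ℓ : ℕ) (hℓ : 1 ≤ ℓ) (S : Set (Word d × Word d)) :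
    pairsLaw μ φ {ω | ∃ n, height φ ω n = (ℓ : ℤ) ∧ (xWord ω n, yWord ω n) ∈ S} =
      ∑' p : {p : Word d × Word d // IsSeg φ p.1 ∧ IsSeg (-φ) p.2 ∧ φ (disp p.1) = (ℓ : ℤ) ∧
        φ (disp p.2) = -(ℓ : ℤ) ∧ p ∈ S}, wt μ p.1.1 * wt μ p.1.2 := by
  rw [← tsum_PLh_segs ℓ hℓ S, ← tsum_congr fun P => pairsLaw_Beg μ φ h P.2.1]
  rw [← measure_iUnion
    (f := fun P : {P : List (PairW d) // AllPairs φ P ∧ htL φ P = (ℓ : ℤ) ∧ (xw P, yw P) ∈ S} =>
      Beg P.1)
    (fun P Q hPQ => Set.disjoint_left.2 fun z hi hj => hPQ (Subtype.ext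
      (Subtype.ext_iff.1 (PLh_inj (P := (⟨P.1, P.2.1, P.2.2.1⟩ : PLh φ (ℓ : ℤ)))
        (Q := ⟨Q.1, Q.2.1, Q.2.2.1⟩) (compat_of_mem_Beg hi hj)) :)))
    fun P => measurableSet_Beg P.1]
  refine measure_congr ((ae_allPairs μ φ h).mono fun ω hω => propext ?_)
  change (∃ n, height φ ω n = (ℓ : ℤ) ∧ (xWord ω n, yWord ω n) ∈ S) ↔ ω ∈ ⋃ i : {P : List (PairW d) // AllPairs φ P ∧ htL φ P = (ℓ : ℤ) ∧ (xw P, yw P) ∈ S}, Beg i.1
  rw [mem_iUnion]
  constructor
  · rintro ⟨n, hn, hS⟩
    rw [height_eq_htL] at hn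
    rw [xWord_eq_xw, yWord_eq_yw] at hS
    refine ⟨⟨(List.range n).map ω, fun p hp => ?_, hn, hS⟩, mem_Beg_iff.2 (by simp)⟩
    obtain ⟨i, -, rfl⟩ := List.mem_map.1 hp
    exact hω i
  · rintro ⟨⟨P, hP, hPh, hPS⟩, hmem⟩
    refine ⟨P.length, ?_⟩
    rw [height_eq_htL, xWord_eq_xw, yWord_eq_yw, mem_Beg_iff.1 hmem]
    exact ⟨hPh, hPS⟩

theorem lintegral_pair_height (h : Hyp μ φ) :
    ∫⁻ p, ((φ (disp p.1)).toNat : ℝ≥0∞) ∂pairLaw μ φ ≤ (aUp μ φ * aUp μ (-φ))⁻¹ := by
  set c := aUp μ φ * aUp μ (-φ) with hc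
  let F : ℕ → ℝ≥0∞ := fun j =>
    ∑' p : {p : PairW d // IsPair φ p ∧ (j : ℤ) < φ (disp p.1)}, wt μ p.1.1 * wt μ p.1.2
  have hF : ∫⁻ p, ((φ (disp p.1)).toNat : ℝ≥0∞) ∂pairLaw μ φ = ∑' j, F j := by
    rw [lintegral_pairLaw]
    have e : ∀ p : {p : PairW d // IsPair φ p},
        wt μ p.1.1 * wt μ p.1.2 * ((φ (disp p.1.1)).toNat : ℝ≥0∞) =
          ∑' j : ℕ, ({q : PairW d | (j : ℤ) < φ (disp q.1)}.indicator
            (fun q => wt μ q.1 * wt μ q.2) p.1) := fun p => by
      rw [tsum_eq_sum (s := Finset.range (φ (disp p.1.1)).toNat) fun j hj => by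
        rw [Set.indicator_of_notMem]
        simp only [Finset.mem_range, mem_ofPred_eq] at hj ⊢
        omega]
      rw [Finset.sum_congr rfl (g := fun _ => wt μ p.1.1 * wt μ p.1.2) fun j hj => by
        rw [Set.indicator_of_mem]
        simp only [Finset.mem_range, mem_ofPred_eq] at hj ⊢
        omega]
      simp [mul_comm]
    simp only [e]
    rw [ENNReal.tsum_comm]
    refine tsum_congr fun j => ?_
    simp only [F]
    rw [show (∑' p : {p : PairW d // IsPair φ p ∧ (j : ℤ) < φ (disp p.1)},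
        wt μ p.1.1 * wt μ p.1.2) =
      ∑' q, {p : PairW d | IsPair φ p ∧ (j : ℤ) < φ (disp p.1)}.indicator
        (fun q => wt μ q.1 * wt μ q.2) q from
      tsum_subtype {p : PairW d | IsPair φ p ∧ (j : ℤ) < φ (disp p.1)}
        fun q => wt μ q.1 * wt μ q.2]
    rw [show (∑' p : {p : PairW d // IsPair φ p},
        {q : PairW d | (j : ℤ) < φ (disp q.1)}.indicator (fun q => wt μ q.1 * wt μ q.2) p.1) =
      ∑' q, {p : PairW d | IsPair φ p}.indicator
        ({q : PairW d | (j : ℤ) < φ (disp q.1)}.indicator fun q => wt μ q.1 * wt μ q.2) q from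
      tsum_subtype {p : PairW d | IsPair φ p} _]
    refine tsum_congr fun q => ?_
    rw [Set.indicator_indicator]
    rfl
  rw [hF, ENNReal.tsum_eq_iSup_nat]
  refine iSup_le fun n => ?_
  rw [ENNReal.le_inv_iff_mul_le]
  -- the last cut up to level `n` and the pair straddling it
  let T := Σ j : Fin n, PLh φ (((n - (j : ℕ) : ℕ)) : ℤ) ×
    {p : PairW d // IsPair φ p ∧ ((j : ℕ) : ℤ) < φ (disp p.1)}
  let L : T → List (PairW d) := fun z => z.2.1.1 ++ [z.2.2.1]
  have hL : ∀ z, AllPairs φ (L z) := fun z p hp => by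
    rcases List.mem_append.1 hp with hp | hp
    · exact z.2.1.2.1 p hp
    · rw [List.mem_singleton.1 hp]; exact z.2.2.2.1
  have hinj : ∀ z z', Compat (L z) (L z') → z = z' := by
    have key : ∀ z z' : T, L z <+: L z' → z = z' := by
      rintro ⟨j, ⟨P, hP, hPh⟩, ⟨p, hp⟩⟩ ⟨j', ⟨P', hP', hPh'⟩, ⟨p', hp'⟩⟩ hpre
      simp only [L] at hpre
      rcases List.prefix_concat_iff.1 hpre with he | hlt
      · obtain ⟨rfl, hpp⟩ := List.append_inj' he rfl
        obtain rfl : p = p' := by simpa using hpp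
        obtain rfl : j = j' := Fin.ext (by
          have := j.2; have := j'.2
          rw [hPh] at hPh'
          omega)
        rfl
      · exfalso
        have h1 := (prefix_htL hP' hlt).1
        have h2 : htL φ (P ++ [p]) = htL φ P + φ (disp p.1) := by simp [htL]
        have := j.2
        have := j'.2
        have := hp.2
        omega
    exact fun z z' hz => hz.elim (key z z') fun h => (key z' z h).symm
  have hone := tsum_wtP_le_one h L hL hinj
  rw [ENNReal.tsum_sigma' fun z : T => wtP μ (L z), tsum_fintype] at hone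
  refine le_trans ?_ hone
  rw [Finset.sum_mul, ← Fin.sum_univ_eq_sum_range]
  refine Finset.sum_le_sum fun j _ => ?_
  rw [ENNReal.tsum_prod', mul_comm]
  refine (mul_le_mul' (mul_le_tsum_PLh h (n - (j : ℕ)) (by have := j.2; omega)) le_rfl).trans ?_
  rw [← ENNReal.tsum_mul_right]
  refine ENNReal.tsum_le_tsum fun P => ?_
  simp only [F]
  rw [← ENNReal.tsum_mul_left]
  refine ENNReal.tsum_le_tsum fun p => le_of_eq ?_
  simp [L, wtP]

omit [NeZero d] in
theorem length_le_toNat_height {L : List (Word d)} (h : ∀ s ∈ L, IsSeg φ s) :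
    (L.length : ℤ) ≤ φ (disp L.flatten) := by
  induction L with
  | nil => simp [disp_nil]
  | cons s L ih =>
    have := ih fun t ht => h t (List.mem_cons_of_mem _ ht)
    have := seg_height_pos (h s (List.mem_cons_self ..))
    simp [disp_append]
    omega

theorem lintegral_pair_len (h : Hyp μ φ) :
    ∫⁻ p, ((p.1.length + p.2.length : ℕ) : ℝ≥0∞) ∂pairLaw μ φ
      ≤ (meanLen μ φ + meanLen μ (-φ)) * (aUp μ φ * aUp μ (-φ))⁻¹ := by
  have := h.probUp
  have := h.probDown
  rw [lintegral_pairLaw]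
  set H := ∑' p : {p : PairW d // IsPair φ p},
    wt μ p.1.1 * wt μ p.1.2 * ((φ (disp p.1.1)).toNat : ℝ≥0∞) with hH
  have hHle : H ≤ (aUp μ φ * aUp μ (-φ))⁻¹ :=
    (lintegral_pairLaw μ φ _).symm.trans_le (lintegral_pair_height μ φ h)
  let La : {p : PairW d // IsPair φ p} → List (Word d) := fun p => (blks φ p.1.1).reverse
  let Lb : {p : PairW d // IsPair φ p} → List (Word d) := fun p => blks (-φ) p.1.2
  have hap : ∀ p : {p : PairW d // IsPair φ p}, AllPairs φ [p.1] := fun p => by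
    simpa [AllPairs] using p.2
  have hw : ∀ p : {p : PairW d // IsPair φ p},
      blocksLaw μ φ (Beg (La p)) * blocksLaw μ (-φ) (Beg (Lb p)) = wt μ p.1.1 * wt μ p.1.2 := by
    intro p
    have := chains_marg h (hap p)
    simpa [xBlocks, yBlocks, wtP, La, Lb] using this
  have hd : ∀ p q, Compat (La p) (La q) → Compat (Lb p) (Lb q) → p = q := fun p q hx hy =>
    Subtype.ext (pair_eq_of_compat p.2 q.2 hx hy)
  have hlen : ∀ {ψ : Site d →+ ℤ} {s : Word d}, IsSeg ψ s →
      ((blks ψ s).map fun b => (b.length : ℝ≥0∞)).sum = s.length := by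
    intro ψ s hs
    have := congrArg List.length (blks_spec hs).2
    rw [List.length_flatten] at this
    rw [← this, Nat.cast_list_sum, List.map_map]
    rfl
  have hnum : ∀ {ψ : Site d →+ ℤ} {s : Word d}, IsSeg ψ s →
      ((blks ψ s).length : ℝ≥0∞) ≤ ((ψ (disp s)).toNat : ℝ≥0∞) := by
    intro ψ s hs
    have := length_le_toNat_height ψ (blks_seg hs)
    rw [(blks_spec hs).2] at this
    exact_mod_cast (show (blks ψ s).length ≤ (ψ (disp s)).toNat by omega)
  have h1 : ∑' p : {p : PairW d // IsPair φ p}, wt μ p.1.1 * wt μ p.1.2 * (p.1.1.length : ℝ≥0∞) ≤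
      meanLen μ φ * H := by
    have := wald_stop (blockLaw μ φ) (blockLaw μ (-φ)) La Lb _ hw hd (qTot_eq_one h)
      fun b => (b.length : ℝ≥0∞)
    refine le_trans (le_of_eq ?_) (this.trans (mul_le_mul' le_rfl ?_))
    · refine tsum_congr fun p => ?_
      rw [← hlen p.2.1, List.map_reverse, List.sum_reverse]
    · refine ENNReal.tsum_le_tsum fun p => mul_le_mul' le_rfl ?_
      simpa [La] using hnum p.2.1
  have h2 : ∑' p : {p : PairW d // IsPair φ p}, wt μ p.1.1 * wt μ p.1.2 * (p.1.2.length : ℝ≥0∞) ≤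
      meanLen μ (-φ) * H := by
    have := wald_stop (blockLaw μ (-φ)) (blockLaw μ φ) Lb La _
      (fun p => (mul_comm _ _).trans (hw p)) (fun p q hy hx => hd p q hx hy) (qTot_eq_one h)
      fun b => (b.length : ℝ≥0∞)
    refine le_trans (le_of_eq ?_) (this.trans (mul_le_mul' le_rfl ?_))
    · refine tsum_congr fun p => ?_
      rw [← hlen p.2.2.1]
    · refine ENNReal.tsum_le_tsum fun p => mul_le_mul' le_rfl ((hnum p.2.2.1).trans ?_)
      have := p.2.2.2.1
      simp only [AddMonoidHom.neg_apply]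
      exact_mod_cast (show (-φ (disp p.1.2)).toNat ≤ (φ (disp p.1.1)).toNat by omega)
  calc ∑' p : {p : PairW d // IsPair φ p},
        wt μ p.1.1 * wt μ p.1.2 * ((p.1.1.length + p.1.2.length : ℕ) : ℝ≥0∞)
      = (∑' p : {p : PairW d // IsPair φ p}, wt μ p.1.1 * wt μ p.1.2 * (p.1.1.length : ℝ≥0∞)) +
          ∑' p : {p : PairW d // IsPair φ p}, wt μ p.1.1 * wt μ p.1.2 * (p.1.2.length : ℝ≥0∞) := by
        rw [← ENNReal.tsum_add]
        exact tsum_congr fun p => by rw [Nat.cast_add, mul_add]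
    _ ≤ meanLen μ φ * H + meanLen μ (-φ) * H := add_le_add h1 h2
    _ ≤ _ := by
        rw [← add_mul]
        exact mul_le_mul' le_rfl hHle

omit [NeZero d] in
theorem xSites_eq_trace (ω : ℕ → PairW d) (n : ℕ) :
    xTop 0 ω n = -disp (xWord ω n) ∧
      xSites 0 ω 0 n = trace (-disp (xWord ω n)) (xWord ω n) := by
  induction n with
  | zero => simp [xSites, xWord, trace, xTop, disp_nil]
  | succ n ih =>
    have e : xWord ω (n + 1) = (ω n).1 ++ xWord ω n := by simp [xWord, List.range_succ]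
    have et : xTop 0 ω (n + 1) = -disp (xWord ω (n + 1)) := by
      rw [xTop_succ, ih.1, e, disp_append]; abel
    refine ⟨et, ?_⟩
    rw [← et, e, trace_append]
    ext z
    rw [Finset.mem_union, mem_xSites,
      show xTop 0 ω (n + 1) + disp (ω n).1 = -disp (xWord ω n) by rw [xTop_succ, ih.1]; abel,
      ← ih.2, mem_xSites]
    constructor
    · rintro ⟨i, hi0, hi, hz⟩
      rcases (Nat.lt_succ_iff.1 hi).lt_or_eq with hi | rfl
      · exact Or.inr ⟨i, hi0, hi, hz⟩
      · exact Or.inl hz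
    · rintro (hz | ⟨i, hi0, hi, hz⟩)
      · exact ⟨n, Nat.zero_le _, Nat.lt_succ_self n, hz⟩
      · exact ⟨i, hi0, by omega, hz⟩

omit [NeZero d] in
theorem ySites_eq_trace (ω : ℕ → PairW d) (n : ℕ) :
    yTop 0 ω n = disp (yWord ω n) ∧ ySites 0 ω 0 n = trace 0 (yWord ω n) := by
  induction n with
  | zero => simp [ySites, yWord, trace, yTop, disp_nil]
  | succ n ih =>
    have e : yWord ω (n + 1) = yWord ω n ++ (ω n).2 := by simp [yWord, List.range_succ]
    refine ⟨by rw [yTop_succ, ih.1, e, disp_append], ?_⟩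
    rw [e, trace_append, zero_add, ← ih.1, ← ih.2]
    ext z
    rw [Finset.mem_union, mem_ySites, mem_ySites]
    constructor
    · rintro ⟨i, hi0, hi, hz⟩
      rcases (Nat.lt_succ_iff.1 hi).lt_or_eq with hi | rfl
      · exact Or.inl ⟨i, hi0, hi, hz⟩
      · exact Or.inr hz
    · rintro (⟨i, hi0, hi, hz⟩ | hz)
      · exact ⟨i, hi0, by omega, hz⟩
      · exact ⟨n, Nat.zero_le _, Nat.lt_succ_self n, hz⟩

theorem vis_flatten_reverse (L : List (Word d)) (ω : ℕ → Word d) (hω : ω ∈ Beg L) (ℓ : ℤ) :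
    vis φ L.reverse.flatten (φ (disp L.flatten) - ℓ) =
      ∑ i ∈ Finset.range L.length,
        vis φ (ω i) ((∑ k ∈ Finset.range i, φ (disp (ω k))) + φ (disp (ω i)) - ℓ) := by
  induction L generalizing ω ℓ with
  | nil => simp [vis]
  | cons b L ih =>
    rw [Beg_cons] at hω
    obtain ⟨h0 : ω 0 = b, h1⟩ := hω
    rw [List.length_cons, Finset.sum_range_succ', List.reverse_cons, List.flatten_append,
      List.flatten_cons, List.flatten_cons, List.flatten_nil, List.append_nil, vis_append,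
      disp_flatten_reverse, disp_append, map_add,
      show φ (disp b) + φ (disp L.flatten) - ℓ = φ (disp L.flatten) - (ℓ - φ (disp b)) by ring,
      ih _ h1]
    refine congrArg₂ (· + ·) (Finset.sum_congr rfl fun i _ => ?_) ?_
    · congr 1
      · simp [Nat.add_comm]
      · rw [Finset.sum_range_succ']
        simp [Nat.add_comm 1, h0]
        ring
    · simp [h0]

theorem vis_flatten (L : List (Word d)) (ω : ℕ → Word d) (hω : ω ∈ Beg L) (m : ℤ) :
    vis φ L.flatten m =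
      ∑ i ∈ Finset.range L.length, vis φ (ω i) (m - ∑ k ∈ Finset.range i, φ (disp (ω k))) := by
  induction L generalizing ω m with
  | nil => simp [vis]
  | cons b L ih =>
    rw [Beg_cons] at hω
    obtain ⟨h0 : ω 0 = b, h1⟩ := hω
    rw [List.length_cons, Finset.sum_range_succ', List.flatten_cons, vis_append, ih _ h1, add_comm]
    refine congrArg₂ (· + ·) (Finset.sum_congr rfl fun i _ => ?_) ?_
    · congr 1
      · simp [Nat.add_comm]
      · rw [Finset.sum_range_succ']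
        simp [Nat.add_comm 1, h0]
        ring
    · simp [h0]

theorem pairs_overlap_le (h : Hyp μ φ) (n N : ℕ) :
    ∫⁻ ω, (((xSites 0 ω 0 n ×ˢ ySites 0 ω 0 n).filter
        fun pq => φ pq.1 = φ pq.2 ∧ -(N : ℤ) ≤ φ pq.1).card : ℝ≥0∞) ∂pairsLaw μ φ
      ≤ (N + 1) * (meanLen μ φ * meanLen μ (-φ)) := by
  classical
  have := h.probUp
  have := h.probDown
  have := h.probBlocks
  have := h.probBlocks'
  let cnt : List (PairW d) → ℝ≥0∞ := fun P =>
    (((trace (-disp (xw P)) (xw P) ×ˢ trace 0 (yw P)).filter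
      fun pq => φ pq.1 = φ pq.2 ∧ -(N : ℤ) ≤ φ pq.1).card : ℝ≥0∞)
  rw [lintegral_pairs μ φ h n cnt fun P ω hω => ?hval]
  case hval =>
    have e : (List.range n).map ω = P.1 := by
      have := mem_Beg_iff.1 hω; rwa [P.2.2] at this
    simp only [cnt]
    rw [(xSites_eq_trace ω n).2, (ySites_eq_trace ω n).2, xWord_eq_xw, yWord_eq_yw, e]
  let NX : ℕ → (ℕ → Word d) → ℝ≥0∞ := fun ℓ X => ∑' i : ℕ,
    (vis φ (X i) ((∑ k ∈ Finset.range i, φ (disp (X k))) + φ (disp (X i)) - ℓ) : ℝ≥0∞)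
  let NY : ℕ → (ℕ → Word d) → ℝ≥0∞ := fun ℓ Y => ∑' i : ℕ,
    (vis (-φ) (Y i) ((ℓ : ℤ) - ∑ k ∈ Finset.range i, (-φ) (disp (Y k))) : ℝ≥0∞)
  have hXm : ∀ ℓ, Measurable (NX ℓ) := fun ℓ => Measurable.tsum fun i =>
    measurable_of_dependsOn (n := i + 1) fun X X' hX => by
      have hi : X i = X' i := hX i (by simp)
      have hs : ∑ k ∈ Finset.range i, φ (disp (X k)) = ∑ k ∈ Finset.range i, φ (disp (X' k)) :=
        Finset.sum_congr rfl fun k hk => by
          rw [hX k (mem_Iio.2 (Nat.lt_succ_of_lt (Finset.mem_range.1 hk)))]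
      simp only [hs, hi]
  have hYm : ∀ ℓ, Measurable (NY ℓ) := fun ℓ => Measurable.tsum fun i =>
    measurable_of_dependsOn (n := i + 1) fun X X' hX => by
      have hi : X i = X' i := hX i (by simp)
      have hs : ∑ k ∈ Finset.range i, (-φ) (disp (X k)) =
          ∑ k ∈ Finset.range i, (-φ) (disp (X' k)) :=
        Finset.sum_congr rfl fun k hk => by
          rw [hX k (mem_Iio.2 (Nat.lt_succ_of_lt (Finset.mem_range.1 hk)))]
      simp only [hs, hi]
  have hXE : ∀ ℓ, ∫⁻ X, NX ℓ X ∂blocksLaw μ φ ≤ meanLen μ φ := fun ℓ =>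
    lintegral_chain_visit (fun m b => (vis φ b (m + φ (disp b) - ℓ) : ℝ≥0∞)) fun b =>
      le_of_eq (((tsum_congr fun m => by simp [add_sub_assoc]).trans
        ((Equiv.addRight (φ (disp b) - (ℓ : ℤ))).tsum_eq fun m => (vis φ b m : ℝ≥0∞))).trans
          (tsum_vis φ b))
  have hYE : ∀ ℓ, ∫⁻ Y, NY ℓ Y ∂blocksLaw μ (-φ) ≤ meanLen μ (-φ) := fun ℓ =>
    lintegral_chain_visit (φ := -φ) (fun m b => (vis (-φ) b ((ℓ : ℤ) - m) : ℝ≥0∞)) fun b =>
      le_of_eq (((Equiv.subLeft (ℓ : ℤ)).tsum_eq fun m => (vis (-φ) b m : ℝ≥0∞)).trans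
        (tsum_vis (-φ) b))
  -- on a cylinder the finite count is below the product of the chain counts
  have hcnt : ∀ P : PLn φ n, ∀ z ∈ Cyl φ P.1,
      cnt P.1 ≤ ∑ ℓ ∈ Finset.range (N + 1), NX ℓ z.1 * NY ℓ z.2 := by
    intro P z hz
    have hneg : ∀ p ∈ trace (-disp (xw P.1)) (xw P.1), φ p ≤ 0 := fun p hp => by
      rcases eq_or_ne P.1 [] with he | hne
      · simp [he, xw, trace] at hp
      · have := seg_level_trace (seg_xw P.2.1 hne).1 hp
        simp only [map_neg] at this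
        omega
    set A := trace (-disp (xw P.1)) (xw P.1)
    set B := trace 0 (yw P.1)
    have hsub : ((A ×ˢ B).filter fun pq => φ pq.1 = φ pq.2 ∧ -(N : ℤ) ≤ φ pq.1) ⊆
        (Finset.range (N + 1)).biUnion fun ℓ : ℕ =>
          (A.filter fun p => φ p = -(ℓ : ℤ)) ×ˢ (B.filter fun p => (-φ) p = (ℓ : ℤ)) := by
      intro pq hpq
      simp only [Finset.mem_filter, Finset.mem_product] at hpq
      obtain ⟨⟨hA, hB⟩, he, hN⟩ := hpq
      have := hneg _ hA
      refine Finset.mem_biUnion.2 ⟨(-φ pq.1).toNat, Finset.mem_range.2 (by omega),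
        Finset.mem_product.2 ⟨Finset.mem_filter.2 ⟨hA, by omega⟩, Finset.mem_filter.2 ⟨hB, ?_⟩⟩⟩
      simp only [AddMonoidHom.neg_apply]
      omega
    obtain ⟨p1, p2⟩ := xBlocks_spec P.2.1
    obtain ⟨q1, q2⟩ := yBlocks_spec P.2.1
    refine (Nat.cast_le.2 ((Finset.card_le_card hsub).trans Finset.card_biUnion_le)).trans ?_
    rw [Nat.cast_sum]
    refine Finset.sum_le_sum fun ℓ _ => ?_
    rw [Finset.card_product, Nat.cast_mul]
    refine mul_le_mul' ?_ ?_
    · refine (Nat.cast_le.2 (card_trace_level_le φ _ _ _)).trans ?_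
      rw [map_neg, sub_neg_eq_add, neg_add_eq_sub, ← p2, disp_flatten_reverse,
        vis_flatten_reverse φ _ z.1 hz.1, Nat.cast_sum]
      exact ENNReal.sum_le_tsum _
    · refine (Nat.cast_le.2 (card_trace_level_le (-φ) _ _ _)).trans ?_
      rw [map_zero, sub_zero, ← q2, vis_flatten (-φ) _ z.2 hz.2, Nat.cast_sum]
      exact ENNReal.sum_le_tsum _
  calc ∑' P : PLn φ n, wtP μ P.1 * cnt P.1
      = ∑' P : PLn φ n, ∫⁻ _z in Cyl φ P.1, cnt P.1 ∂chains μ φ := tsum_congr fun P => by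
        rw [setLIntegral_const, chains_Cyl h P.2.1, mul_comm]
    _ ≤ ∑' P : PLn φ n, ∫⁻ z in Cyl φ P.1,
          ∑ ℓ ∈ Finset.range (N + 1), NX ℓ z.1 * NY ℓ z.2 ∂chains μ φ :=
        ENNReal.tsum_le_tsum fun P => setLIntegral_mono' (measurableSet_Cyl φ P.1) (hcnt P)
    _ = ∫⁻ z in ⋃ P : PLn φ n, Cyl φ P.1,
          ∑ ℓ ∈ Finset.range (N + 1), NX ℓ z.1 * NY ℓ z.2 ∂chains μ φ :=
        (lintegral_iUnion (s := fun P : PLn φ n => Cyl φ P.1) (fun P => measurableSet_Cyl φ P.1)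
          (fun P Q hPQ => Set.disjoint_left.2 fun z hi hj =>
            hPQ (PLn_inj (compat_of_mem_Cyl P.2.1 Q.2.1 hi hj))) _).symm
    _ ≤ ∫⁻ z, ∑ ℓ ∈ Finset.range (N + 1), NX ℓ z.1 * NY ℓ z.2 ∂chains μ φ :=
        setLIntegral_le_lintegral _ _
    _ = ∑ ℓ ∈ Finset.range (N + 1),
          (∫⁻ X, NX ℓ X ∂blocksLaw μ φ) * ∫⁻ Y, NY ℓ Y ∂blocksLaw μ (-φ) := by
        refine (lintegral_finsetSum _ fun ℓ _ =>
          ((hXm ℓ).comp measurable_fst).mul ((hYm ℓ).comp measurable_snd)).trans ?_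
        exact Finset.sum_congr rfl fun ℓ _ =>
          lintegral_prod_mul (hXm ℓ).aemeasurable (hYm ℓ).aemeasurable
    _ ≤ ∑ _ℓ ∈ Finset.range (N + 1), meanLen μ φ * meanLen μ (-φ) :=
        Finset.sum_le_sum fun ℓ _ => mul_le_mul' (hXE ℓ) (hYE ℓ)
    _ = _ := by simp

omit [IsProbabilityMeasure μ] in
theorem measurable_glue : Measurable (glue : (ℕ → Word d) → ℕ → Step d) :=
  measurable_pi_lambda _ fun n => measurable_of_dependsOn (n := n + 1) fun b b' hb => by
    simp only [glue]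
    rw [List.map_congr_left fun i hi => hb i (mem_Iio.2 (List.mem_range.1 hi))]

theorem ann_Up_neg_pairs (h : Hyp μ φ) {A : Set (ℕ → Step d)} (hA : MeasurableSet A) :
    ann μ 0 (Up (-φ) ∩ A) =
      aUp μ (-φ) * pairsLaw μ φ ((fun ω => glue fun i => (ω i).2) ⁻¹' A) := by
  classical
  have := h.probBlocks
  have := h.probBlocks'
  have := isProbabilityMeasure_pairLaw μ φ h
  rw [ann_Up_inter μ (-φ) h.ell (isLevel_neg h.lev) h.down hA]
  congr 1
  have hg : Measurable fun ω : ℕ → PairW d => glue fun i => (ω i).2 :=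
    measurable_glue.comp (measurable_pi_lambda _ fun i => (measurable_pi_apply i).snd)
  rw [← Measure.map_apply measurable_glue hA, ← Measure.map_apply hg hA]
  congr 1
  refine ext_cyls fun n p => ?_
  rw [Measure.map_apply measurable_glue (measurableSet_cyl n p),
    Measure.map_apply hg (measurableSet_cyl n p)]
  let F : List (PairW d) → ℝ≥0∞ := fun P =>
    if ∀ k < n, (yw P).getD k (0, true) = p k then 1 else 0
  have hyne : ∀ {P : PLn φ n}, ∀ k < n, k < (yw P.1).length := fun {P} k hk => by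
    refine lt_of_lt_of_le hk ?_
    have := le_length_flatten (L := P.1.map Prod.snd) fun s hs => by
      obtain ⟨q, hq, rfl⟩ := List.mem_map.1 hs
      exact seg_ne_nil (P.2.1 q hq).2.1
    rw [List.length_map, P.2.2] at this
    exact this
  have key : ∀ {P : PLn φ n} {b : ℕ → Word d} {m : ℕ},
      ((List.range m).map b).flatten = yw P.1 → (∀ s ∈ (List.range m).map b, s ≠ []) →
      (glue ⁻¹' cyl n p).indicator (1 : (ℕ → Word d) → ℝ≥0∞) b = F P.1 := by
    intro P b m he hb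
    have hk : ∀ k < n, glue b k = (yw P.1).getD k (0, true) := fun k hk => by
      rw [glue_eq b m hb k (by rw [he]; exact hyne k hk), List.getD_eq_getElem _ _ (hyne k hk)]
      exact List.getElem_of_eq he _
    simp only [F, Set.indicator_apply, mem_preimage, cyl, mem_ofPred_eq, Pi.one_apply]
    exact if_congr (forall₂_congr fun k hk' => by rw [hk k hk']) rfl rfl
  have e1 : blocksLaw μ (-φ) (glue ⁻¹' cyl n p) = ∑' P : PLn φ n, wtP μ P.1 * F P.1 := by
    have hs : MeasurableSet (glue ⁻¹' cyl n p : Set (ℕ → Word d)) :=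
      measurable_glue (measurableSet_cyl n p)
    rw [← lintegral_chains h n F (G := fun z => (glue ⁻¹' cyl n p).indicator 1 z.2) fun P z hz =>
      key (m := (yBlocks φ P.1).length)
        (by rw [mem_Beg_iff.1 hz.2]; exact (yBlocks_spec P.2.1).2) fun s hs => by
          rw [mem_Beg_iff.1 hz.2] at hs
          exact seg_ne_nil ((yBlocks_spec P.2.1).1 s hs).1]
    rw [chains, lintegral_prod (fun z : (ℕ → Word d) × (ℕ → Word d) =>
      (glue ⁻¹' cyl n p).indicator (1 : (ℕ → Word d) → ℝ≥0∞) z.2)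
      ((measurable_one.indicator hs).comp measurable_snd).aemeasurable]
    simp [lintegral_indicator_one hs]
  have e2 : pairsLaw μ φ ((fun ω => glue fun i => (ω i).2) ⁻¹' cyl n p) =
      ∑' P : PLn φ n, wtP μ P.1 * F P.1 := by
    rw [← lintegral_pairs μ φ h n F
      (G := fun ω => ((fun ω : ℕ → PairW d => glue fun i => (ω i).2) ⁻¹' cyl n p).indicator 1 ω)
      fun P ω hω => ?_, lintegral_indicator_one (hg (measurableSet_cyl n p))]
    have e : (List.range n).map ω = P.1 := by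
      have := mem_Beg_iff.1 hω; rwa [P.2.2] at this
    refine Eq.trans ?_ (key (b := fun i => (ω i).2) (m := n) (by rw [yw, ← e, List.map_map]; rfl)
      fun s hs => ?_)
    · simp [Set.indicator_apply]
    · obtain ⟨i, hi, rfl⟩ := List.mem_map.1 hs
      exact seg_ne_nil (P.2.1 (ω i) (e ▸ List.mem_map.2 ⟨i, hi, rfl⟩)).2.1
  rw [e1, e2]

theorem wald (h : Hyp μ φ) {f : PairW d → ℝ≥0∞} (N : ℕ) :
    ∫⁻ ω, ∑' i : ℕ, (if height φ ω i < (N : ℤ) then f (ω i) else 0) ∂pairsLaw μ φ =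
      (∫⁻ p, f p ∂pairLaw μ φ) *
        ∫⁻ ω, ∑' i : ℕ, (if height φ ω i < (N : ℤ) then 1 else 0) ∂pairsLaw μ φ := by
  have := isProbabilityMeasure_pairLaw μ φ h
  have hd : ∀ i, DependsOn (fun ω : ℕ → PairW d =>
      if height φ ω i < (N : ℤ) then (1 : ℝ≥0∞) else 0) (Iio i) := fun i ω ω' he => by
    have : height φ ω i = height φ ω' i := Finset.sum_congr rfl fun k hk => by
      rw [he k (mem_Iio.2 (Finset.mem_range.1 hk))]
    simp only [this]
  have hm : ∀ i, Measurable fun ω : ℕ → PairW d =>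
      if height φ ω i < (N : ℤ) then (1 : ℝ≥0∞) else 0 := fun i => measurable_of_dependsOn (hd i)
  have hf : ∀ i, Measurable fun ω : ℕ → PairW d => f (ω i) :=
    fun i => (Measurable.of_discrete (f := f)).comp (measurable_pi_apply i)
  have e : ∀ i (ω : ℕ → PairW d), (if height φ ω i < (N : ℤ) then f (ω i) else 0) =
      (if height φ ω i < (N : ℤ) then (1 : ℝ≥0∞) else 0) * f (ω i) := fun i ω => by
    split_ifs <;> simp
  simp only [e]
  have hmf : ∀ i, Measurable fun ω : ℕ → PairW d =>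
      (if height φ ω i < (N : ℤ) then (1 : ℝ≥0∞) else 0) * f (ω i) := fun i => (hm i).mul (hf i)
  rw [lintegral_tsum fun i => (hmf i).aemeasurable, lintegral_tsum fun i => (hm i).aemeasurable,
    mul_comm, ← ENNReal.tsum_mul_right]
  exact tsum_congr fun i =>
    lintegral_past_mul_eval (pairLaw μ φ) i (hm i) (hd i) Measurable.of_discrete

end Vale.Agent.P147.Regen
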