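import Vale.Agent.P147.Regen.AntiConc

/-!
# Anticoncentration for sums of an iid sequence in a countable space

`V : α → ℤ^k` on a countable probability space whose atoms give, for every axis, two values at
distance one along that axis. Then `P(S_n = x) ≤ C / (n + 1)^(k/2)`, and `o(n^(-k/2))` uniformly
in `x` if `V` has no second moment.
-/

open MeasureTheory Filter Topology Finset Real Matrix

namespace Vale.Agent.P147.Regen

variable {k : ℕ} {α : Type*}

/-- The partial sum of the values of `V` along a sequence. -/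
def seqSum (V : α → Fin k → ℤ) (n : ℕ) (om : ℕ → α) : Fin k → ℤ := ∑ i ∈ range n, V (om i)

section trunc

variable [MeasurableSpace α] (ν : Measure α) (V : α → Fin k → ℤ)

/-- The weight of the values of `V` on the atoms in `T`, normalised. -/
noncomputable def truncWeight (T : Finset α) (y : Fin k → ℤ) : ℝ :=
  (∑ a ∈ T with V a = y, ν.real {a}) / ν.real (T : Set α)

/-- The values of `V` on `T`. -/
noncomputable def truncSupp (T : Finset α) : Finset (Fin k → ℤ) := T.image V

variable [MeasurableSingletonClass α] [IsProbabilityMeasure ν] {ν V}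

omit [MeasurableSingletonClass α] in
theorem mass_pos {T : Finset α} {a : α} (ha : a ∈ T) (hpos : 0 < ν {a}) :
    0 < ν.real (T : Set α) := by
  have h : 0 < ν.real {a} := by
    rw [measureReal_def]; exact ENNReal.toReal_pos hpos.ne' (measure_ne_top _ _)
  exact h.trans_le (measureReal_mono (Set.singleton_subset_iff.2 ha))

omit [MeasurableSingletonClass α] [IsProbabilityMeasure ν] in
theorem sum_truncWeight_mul (T : Finset α) (F : (Fin k → ℤ) → ℝ) :
    ∑ y ∈ truncSupp V T, truncWeight ν V T y * F y =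
      (∑ a ∈ T, ν.real {a} * F (V a)) / ν.real (T : Set α) := by
  rw [truncSupp, ← sum_fiberwise_of_maps_to (fun a ha => mem_image_of_mem V ha)
    (fun a => ν.real {a} * F (V a)), Finset.sum_div]
  refine sum_congr rfl fun y _ => ?_
  rw [truncWeight, div_mul_eq_mul_div, sum_mul]
  exact congrArg (· / _) (sum_congr rfl fun a ha => by rw [(mem_filter.1 ha).2])

theorem isWeight_trunc {T : Finset α} (hT : 0 < ν.real (T : Set α)) :
    IsWeight (truncSupp V T) (truncWeight ν V T) where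
  nonneg y _ := div_nonneg (sum_nonneg fun _ _ => measureReal_nonneg) hT.le
  sum_eq_one := by
    have h := sum_truncWeight_mul (ν := ν) (V := V) T fun _ => 1
    simp only [mul_one, sum_measureReal_singleton, div_self hT.ne'] at h
    exact h

omit [MeasurableSingletonClass α] in
theorem truncWeight_pos {T : Finset α} {a : α} (ha : a ∈ T) (hpos : 0 < ν {a}) :
    0 < truncWeight ν V T (V a) := by
  refine div_pos (sum_pos' (fun _ _ => measureReal_nonneg)
    ⟨a, mem_filter.2 ⟨ha, rfl⟩, ?_⟩) (mass_pos ha hpos)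
  rw [measureReal_def]; exact ENNReal.toReal_pos hpos.ne' (measure_ne_top _ _)

omit [MeasurableSingletonClass α] in
theorem hasSteps_trunc {T : Finset α}
    (hT : ∀ i, ∃ a ∈ T, ∃ b ∈ T, 0 < ν {a} ∧ 0 < ν {b} ∧ V b = V a + Pi.single i 1) :
    HasSteps (truncSupp V T) (truncWeight ν V T) := by
  intro i
  obtain ⟨a, ha, b, hb, hpa, hpb, h⟩ := hT i
  exact ⟨V a, mem_image_of_mem V ha, truncWeight_pos ha hpa,
    h ▸ mem_image_of_mem V hb, h ▸ truncWeight_pos hb hpb⟩

/-! ### The mixture bound -/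

variable [Countable α]

theorem integrable_convPow_sum (s : Finset (Fin k → ℤ)) {p : (Fin k → ℤ) → ℝ} (hp : IsWeight s p)
    (m n : ℕ) (x : Fin k → ℤ) :
    Integrable (fun ω : Fin n → α => convPow s p m (x - ∑ i, V (ω i)))
      (Measure.pi fun _ : Fin n => ν) :=
  Integrable.of_bound (measurable_of_countable _).aestronglyMeasurable 1
    (ae_of_all _ fun ω => by
      rw [Real.norm_eq_abs, abs_of_nonneg (convPow_nonneg hp _ _)]; exact convPow_le_one hp _ _)

theorem sum_mul_convPow (s : Finset (Fin k → ℤ)) (p : (Fin k → ℤ) → ℝ) (m : ℕ) (z : Fin k → ℤ) :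
    ∑ y ∈ s, p y * convPow s p m (z - y) = convPow s p (m + 1) z := by
  simp only [convPow, sum_filter, mul_sum]
  rw [sum_pi_succ]
  refine sum_congr rfl fun y _ => sum_congr rfl fun f _ => ?_
  simp only [Fin.sum_univ_succ, Fin.prod_univ_succ, Fin.cons_zero, Fin.cons_succ, eq_sub_iff_add_eq']
  split_ifs <;> simp

theorem integral_convPow_le {T : Finset α} (hT : 0 < ν.real (T : Set α)) {K L : ℝ}
    (hK : ∀ (j : ℕ) z, convPow (truncSupp V T) (truncWeight ν V T) j z ≤
      K + L * exp (-(1 / 2 : ℝ) * j)) :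
    ∀ (n m : ℕ) (x : Fin k → ℤ),
      ∫ ω, convPow (truncSupp V T) (truncWeight ν V T) m (x - ∑ i, V (ω i))
          ∂Measure.pi (fun _ : Fin n => ν) ≤
        K + L * exp (-(1 / 2 : ℝ) * m) *
          (1 - ν.real (T : Set α) * (1 - exp (-(1 / 2 : ℝ)))) ^ n := by
  set c := ν.real (T : Set α)
  set s := truncSupp V T
  set p := truncWeight ν V T
  have hp : IsWeight s p := isWeight_trunc hT
  set ρ := 1 - c * (1 - exp (-(1 / 2 : ℝ)))
  intro n
  induction n with
  | zero =>
    intro m x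
    simpa [Measure.pi_of_empty, integral_dirac] using hK m x
  | succ n ih =>
    intro m x
    set μ := Measure.pi fun _ : Fin n => ν
    set H : α → ℝ := fun a => ∫ ω, convPow s p m (x - V a - ∑ i, V (ω i)) ∂μ with hH
    have e : ∫ ω, convPow s p m (x - ∑ i, V (ω i)) ∂Measure.pi (fun _ : Fin (n + 1) => ν) =
        ∫ a, H a ∂ν := by
      have hmp := measurePreserving_piFinSuccAbove (fun _ : Fin (n + 1) => ν) 0
      set g : α × (Fin n → α) → ℝ := fun q => convPow s p m (x - V q.1 - ∑ i, V (q.2 i))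
      have hg : Integrable g (ν.prod μ) := Integrable.of_bound
        (measurable_of_countable _).aestronglyMeasurable 1 (ae_of_all _ fun q => by
          rw [Real.norm_eq_abs, abs_of_nonneg (convPow_nonneg hp _ _)]
          exact convPow_le_one hp _ _)
      calc _ = ∫ ω, g (MeasurableEquiv.piFinSuccAbove (fun _ : Fin (n + 1) => α) 0 ω)
            ∂Measure.pi (fun _ : Fin (n + 1) => ν) := by
            refine integral_congr_ae (ae_of_all _ fun ω => ?_)
            simp [g, Fin.sum_univ_succ, sub_sub, Fin.tail]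
        _ = ∫ q, g q ∂ν.prod μ := hmp.integral_comp' g
        _ = _ := integral_prod g hg
    have hHb : ∀ a, |H a| ≤ 1 := fun a => by
      rw [← Real.norm_eq_abs]
      refine (norm_integral_le_of_norm_le_const (C := 1) (ae_of_all _ fun ω => ?_)).trans (by simp)
      rw [Real.norm_eq_abs, abs_of_nonneg (convPow_nonneg hp _ _)]
      exact convPow_le_one hp _ _
    have hHi : Integrable H ν :=
      Integrable.of_bound (measurable_of_countable _).aestronglyMeasurable 1 (ae_of_all _ hHb)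
    have h1 : ∫ a in (T : Set α), H a ∂ν ≤
        c * (K + L * exp (-(1 / 2 : ℝ) * ((m + 1 : ℕ) : ℝ)) * ρ ^ n) := by
      rw [setIntegral_finset T hHi.integrableOn]
      simp only [smul_eq_mul]
      have h2 : ∑ a ∈ T, ν.real {a} * H a =
          c * ∫ ω, convPow s p (m + 1) (x - ∑ i, V (ω i)) ∂μ := by
        have h3 : ∀ ω : Fin n → α, c * convPow s p (m + 1) (x - ∑ i, V (ω i)) =
            ∑ a ∈ T, ν.real {a} * convPow s p m (x - V a - ∑ i, V (ω i)) := fun ω => by
          rw [← sum_mul_convPow, sum_truncWeight_mul T fun y => convPow s p m (x - ∑ i, V (ω i) - y),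
            mul_div_cancel₀ _ hT.ne']
          exact sum_congr rfl fun a _ => by rw [sub_right_comm]
        rw [← integral_const_mul]
        simp only [h3]
        rw [integral_finsetSum _ fun a _ => (integrable_convPow_sum s hp m n _).const_mul _]
        exact sum_congr rfl fun a _ => (integral_const_mul _ _).symm
      rw [h2]
      exact mul_le_mul_of_nonneg_left (ih _ _) hT.le
    have hTm : MeasurableSet (T : Set α) := T.measurableSet
    have h4 : ∫ a in (T : Set α)ᶜ, H a ∂ν ≤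
        (1 - c) * (K + L * exp (-(1 / 2 : ℝ) * m) * ρ ^ n) := by
      refine (setIntegral_mono_on hHi.integrableOn (integrable_const _).integrableOn hTm.compl
        fun a _ => ih m (x - V a)).trans (le_of_eq ?_)
      rw [setIntegral_const, smul_eq_mul, measureReal_compl hTm, probReal_univ]
    have e2 : exp (-(1 / 2 : ℝ) * ((m + 1 : ℕ) : ℝ)) =
        exp (-(1 / 2 : ℝ) * m) * exp (-(1 / 2 : ℝ)) := by
      rw [← exp_add]; push_cast; ring_nf
    rw [e, ← integral_add_compl hTm hHi]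
    refine (add_le_add h1 h4).trans (le_of_eq ?_)
    rw [e2]
    simp only [ρ]
    ring

theorem law_sum_eq (x : Fin k → ℤ) (n : ℕ) :
    (Measure.infinitePi fun _ : ℕ => ν).real {om | seqSum V n om = x} =
      (Measure.pi fun _ : Fin n => ν).real {ω | ∑ i, V (ω i) = x} := by
  classical
  have hfm : Measurable fun (om : ℕ → α) (i : Fin n) => om i :=
    measurable_pi_lambda _ fun i => measurable_pi_apply (i : ℕ)
  have hmap : (Measure.infinitePi fun _ : ℕ => ν).map (fun om (i : Fin n) => om i) =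
      Measure.pi fun _ : Fin n => ν := by
    refine (Measure.pi_eq fun t ht => ?_).symm
    rw [Measure.map_apply hfm (MeasurableSet.univ_pi ht)]
    set t' : ℕ → Set α := fun i => if h : i < n then t ⟨i, h⟩ else Set.univ
    have e : (fun om (i : Fin n) => (om : ℕ → α) i) ⁻¹' Set.univ.pi t =
        Set.pi (range n : Finset ℕ) t' := by
      ext om
      simp only [Set.mem_preimage, Set.mem_pi, Set.mem_univ, forall_const, Finset.coe_range,
        Set.mem_Iio, t']
      exact ⟨fun h i hi => by rw [dif_pos hi]; exact h ⟨i, hi⟩,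
        fun h i => by simpa [i.isLt] using h i i.isLt⟩
    rw [e, Measure.infinitePi_pi _ fun i hi => by
      simp only [t']; split_ifs <;> [exact ht _; exact MeasurableSet.univ]]
    rw [← Fin.prod_univ_eq_prod_range (fun i => ν (t' i)) n]
    exact prod_congr rfl fun i _ => by simp [t']
  rw [← hmap, map_measureReal_apply hfm
    (Set.to_countable _).measurableSet]
  congr 1
  ext om
  simp [seqSum, Fin.sum_univ_eq_sum_range fun i => V (om i)]

/-- The bound by the truncated weight, plus an exponentially small term. -/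
theorem law_le_of_tail {T : Finset α} (hT : 0 < ν.real (T : Set α)) {n : ℕ} {K : ℝ} (hK0 : 0 ≤ K)
    (hK : ∀ j : ℕ, ν.real (T : Set α) * n / 2 ≤ j → ∀ z,
      convPow (truncSupp V T) (truncWeight ν V T) j z ≤ K) (x : Fin k → ℤ) :
    (Measure.infinitePi fun _ : ℕ => ν).real {om | seqSum V n om = x} ≤
      K + exp (-(ν.real (T : Set α)) / 12) ^ n := by
  set c := ν.real (T : Set α) with hc
  have hc1 : c ≤ 1 := measureReal_le_one
  have hp : IsWeight (truncSupp V T) (truncWeight ν V T) := isWeight_trunc hT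
  have hKL : ∀ (j : ℕ) z, convPow (truncSupp V T) (truncWeight ν V T) j z ≤
      K + exp (c * n / 4) * exp (-(1 / 2 : ℝ) * j) := fun j z => by
    rcases le_or_gt (c * n / 2) j with h | h
    · exact (hK j h z).trans (le_add_of_nonneg_right (by positivity))
    · refine (convPow_le_one hp j z).trans (le_add_of_nonneg_of_le hK0 ?_)
      rw [← exp_add]
      exact one_le_exp (by linarith)
  have h := integral_convPow_le hT hKL n 0 x
  have e : ∫ ω, convPow (truncSupp V T) (truncWeight ν V T) 0 (x - ∑ i, V (ω i))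
      ∂Measure.pi (fun _ : Fin n => ν) =
      (Measure.pi fun _ : Fin n => ν).real {ω | ∑ i, V (ω i) = x} := by
    rw [← integral_indicator_one (Set.to_countable _).measurableSet]
    refine integral_congr_ae (ae_of_all _ fun ω => ?_)
    by_cases hx : ∑ i, V (ω i) = x
    · simp [convPow, hx]
    · simp [convPow, hx, Ne.symm (sub_ne_zero.2 (Ne.symm hx))]
  rw [e, ← law_sum_eq] at h
  refine h.trans (add_le_add le_rfl ?_)
  rw [Nat.cast_zero, mul_zero, exp_zero, mul_one,
    show exp (c * n / 4) = exp (c / 4) ^ n by rw [← exp_nat_mul]; ring_nf, ← mul_pow]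
  have he : exp (-(1 / 2 : ℝ)) ≤ 2 / 3 := by
    rw [exp_neg, inv_le_iff_one_le_mul₀ (exp_pos _)]
    linarith [add_one_le_exp (1 / 2 : ℝ)]
  have hρ0 : 0 ≤ 1 - c * (1 - exp (-(1 / 2 : ℝ))) := by nlinarith [exp_pos (-(1 / 2 : ℝ))]
  refine pow_le_pow_left₀ (by positivity) ((mul_le_mul_of_nonneg_left
    ((le_of_eq (by ring)).trans (add_one_le_exp (-(c * (1 - exp (-(1 / 2 : ℝ)))))))
    (exp_pos _).le).trans ?_) n
  rw [← exp_add]
  exact exp_le_exp.2 (by nlinarith)

/-! ### Growth of the covariance -/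

omit [Countable α] in
theorem mass_mul_varDir_mono {T₀ T : Finset α} (h0 : 0 < ν.real (T₀ : Set α)) (hsub : T₀ ⊆ T)
    (t : Fin k → ℝ) :
    ν.real (T₀ : Set α) * varDir (truncSupp V T₀) (truncWeight ν V T₀) t ≤
      varDir (truncSupp V T) (truncWeight ν V T) t := by
  set s₀ := truncSupp V T₀
  set p₀ := truncWeight ν V T₀
  set c₀ := ν.real (T₀ : Set α)
  set c := ν.real (T : Set α)
  have hc : 0 < c := h0.trans_le (measureReal_mono (Finset.coe_subset.2 hsub))
  have hp := isWeight_trunc (V := V) h0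
  set m₀ := t ⬝ᵥ meanVec s₀ p₀
  set m := t ⬝ᵥ meanVec (truncSupp V T) (truncWeight ν V T)
  have hz := sum_mul_dotZ_sub_mean hp t
  have h1 : varDir s₀ p₀ t ≤ ∑ y ∈ s₀, p₀ y * (dotZ t y - m) ^ 2 := by
    have e : ∀ y, p₀ y * (dotZ t y - m) ^ 2 = p₀ y * (dotZ t y - m₀) ^ 2 +
        2 * (m₀ - m) * (p₀ y * (dotZ t y - m₀)) + (m₀ - m) ^ 2 * p₀ y := fun y => by ring
    simp only [e, sum_add_distrib, ← mul_sum]
    rw [hz, hp.sum_eq_one]
    simp only [mul_zero, add_zero, mul_one]
    exact le_add_of_le_of_nonneg (le_of_eq rfl) (sq_nonneg _)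
  refine (mul_le_mul_of_nonneg_left h1 h0.le).trans ?_
  rw [sum_truncWeight_mul, mul_div_cancel₀ _ h0.ne', varDir, sum_truncWeight_mul, le_div_iff₀ hc]
  have h2 : ∑ a ∈ T₀, ν.real {a} * (dotZ t (V a) - m) ^ 2 ≤
      ∑ a ∈ T, ν.real {a} * (dotZ t (V a) - m) ^ 2 :=
    sum_le_sum_of_subset_of_nonneg hsub fun a _ _ => mul_nonneg measureReal_nonneg (sq_nonneg _)
  exact (mul_le_of_le_one_right (sum_nonneg fun a _ => mul_nonneg measureReal_nonneg (sq_nonneg _))
    measureReal_le_one).trans h2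

theorem exists_lower_form {C : Matrix (Fin k) (Fin k) ℝ} (hC : C.PosDef) :
    ∃ δ > 0, ∀ t, δ * (t ⬝ᵥ t) ≤ t ⬝ᵥ (C *ᵥ t) := by
  set S := {t : Fin k → ℝ | t ⬝ᵥ t = 1}
  have hScl : IsClosed S := isClosed_eq (by simp only [dotProduct]; fun_prop) continuous_const
  have hSb : S ⊆ Metric.closedBall 0 1 := fun t (ht : t ⬝ᵥ t = 1) => by
    rw [mem_closedBall_zero_iff, pi_norm_le_iff_of_nonneg zero_le_one]
    intro i
    rw [Real.norm_eq_abs, abs_le_one_iff_mul_self_le_one, ← ht]
    exact single_le_sum (f := fun i => t i * t i) (fun j _ => mul_self_nonneg _) (mem_univ i)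
  have hSc : IsCompact S := (isCompact_closedBall 0 1).of_isClosed_subset hScl hSb
  obtain ⟨δ, hδ, hmin⟩ : ∃ δ > 0, ∀ t ∈ S, δ ≤ t ⬝ᵥ (C *ᵥ t) := by
    rcases S.eq_empty_or_nonempty with h | h
    · exact ⟨1, one_pos, by simp [h]⟩
    · obtain ⟨t₀, ht₀, hmin⟩ := hSc.exists_isMinOn h
        (f := fun t => t ⬝ᵥ (C *ᵥ t)) (by simp only [dotProduct, mulVec]; fun_prop)
      refine ⟨_, ?_, fun t ht => hmin ht⟩
      have hne : t₀ ≠ 0 := by rintro rfl; simp [S] at ht₀
      simpa using hC.dotProduct_mulVec_pos hne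
  refine ⟨δ, hδ, fun t => ?_⟩
  rcases eq_or_ne t 0 with rfl | ht
  · simp
  have hpos : 0 < t ⬝ᵥ t := by simpa using dotProduct_star_self_pos_iff.2 ht
  set r := √(t ⬝ᵥ t)
  have hr : 0 < r := sqrt_pos.2 hpos
  have hr2 : r * r = t ⬝ᵥ t := mul_self_sqrt hpos.le
  have h := hmin (r⁻¹ • t) (show _ = (1 : ℝ) by
    simp only [smul_dotProduct, dotProduct_smul, smul_eq_mul]
    rw [← hr2]; field_simp)
  simp only [mulVec_smul, smul_dotProduct, dotProduct_smul, smul_eq_mul] at h
  rw [← hr2]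
  calc δ * (r * r) ≤ r⁻¹ * (r⁻¹ * (t ⬝ᵥ (C *ᵥ t))) * (r * r) :=
        mul_le_mul_of_nonneg_right h (by positivity)
    _ = _ := by field_simp

theorem pow_mul_le_det {C : Matrix (Fin k) (Fin k) ℝ} (hC : C.IsHermitian) {δ : ℝ} (hδ : 0 < δ)
    (h : ∀ t, δ * (t ⬝ᵥ t) ≤ t ⬝ᵥ (C *ᵥ t)) (i : Fin k) :
    δ ^ (k - 1) * (C i i / k) ≤ C.det := by
  have hk : 0 < k := i.pos
  have hev : ∀ j, δ ≤ hC.eigenvalues j := fun j => by
    rw [hC.eigenvalues_eq]
    have hv : (⇑(hC.eigenvectorBasis j) : Fin k → ℝ) ⬝ᵥ ⇑(hC.eigenvectorBasis j) = 1 := by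
      have h1 := hC.eigenvectorBasis.orthonormal.1 j
      rw [EuclideanSpace.norm_eq, sqrt_eq_one] at h1
      simpa [dotProduct, sq] using h1
    simpa [hv] using h (⇑(hC.eigenvectorBasis j))
  have hdiag : ∀ j, 0 ≤ C j j := fun j => by
    have h1 := h (Pi.single j 1)
    simp only [single_dotProduct, Pi.single_eq_same, one_mul, mulVec_single_one, col_apply,
      mul_one] at h1
    exact hδ.le.trans h1
  have htr : C i i ≤ ∑ j, hC.eigenvalues j := by
    have h1 := hC.trace_eq_sum_eigenvalues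
    simp only [RCLike.ofReal_real_eq_id, id_eq] at h1
    rw [← h1, Matrix.trace]
    exact single_le_sum (f := fun j => C j j) (fun j _ => hdiag j) (mem_univ i)
  obtain ⟨j, -, hj⟩ := exists_max_image univ hC.eigenvalues ⟨i, mem_univ i⟩
  have hmax : C i i / k ≤ hC.eigenvalues j := by
    rw [div_le_iff₀' (by exact_mod_cast hk)]
    refine htr.trans ((sum_le_card_nsmul _ _ _ hj).trans (le_of_eq ?_))
    simp
  rw [hC.det_eq_prod_eigenvalues]
  simp only [RCLike.ofReal_real_eq_id, id_eq]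
  rw [← mul_prod_erase univ _ (mem_univ j), mul_comm (δ ^ (k - 1))]
  refine mul_le_mul hmax ?_ (by positivity) (hδ.le.trans (hev j))
  calc δ ^ (k - 1) = ∏ _l ∈ univ.erase j, δ := by simp
    _ ≤ _ := prod_le_prod (fun _ _ => hδ.le) fun l _ => hev l

theorem varDir_single_eq (s : Finset (Fin k → ℤ)) (p : (Fin k → ℤ) → ℝ) (i : Fin k) :
    covMat s p i i = varDir s p (Pi.single i 1) := by
  rw [← dotProduct_covMat_mulVec]
  simp

theorem summable_of_varDir_le {a₀ : α} (ha₀ : 0 < ν {a₀}) {i : Fin k} {R : ℝ} {T₁ : Finset α}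
    (ha₁ : a₀ ∈ T₁)
    (h : ∀ T : Finset α, T₁ ⊆ T → varDir (truncSupp V T) (truncWeight ν V T) (Pi.single i 1) ≤ R) :
    ∫⁻ a, ENNReal.ofReal ((V a i : ℝ) ^ 2) ∂ν < ⊤ := by
  classical
  have hν0 : 0 < ν.real {a₀} := by
    rw [measureReal_def]; exact ENNReal.toReal_pos ha₀.ne' (measure_ne_top _ _)
  set B := 2 * R + 2 * (2 * (R / ν.real {a₀}) + 2 * (V a₀ i : ℝ) ^ 2) with hB
  rw [lintegral_countable', ENNReal.tsum_eq_iSup_sum]
  refine lt_of_le_of_lt (iSup_le fun T => ?_) (ENNReal.ofReal_lt_top (r := B))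
  refine (sum_le_sum_of_subset (subset_union_left (s₂ := T₁))).trans ?_
  set U := T ∪ T₁
  set m := Pi.single i 1 ⬝ᵥ meanVec (truncSupp V U) (truncWeight ν V U)
  have hU : 0 < ν.real (U : Set α) := mass_pos (mem_union_right _ ha₁) ha₀
  have hR := h U subset_union_right
  rw [varDir, sum_truncWeight_mul, div_le_iff₀ hU] at hR
  simp only [dotZ, Pi.single_apply, ite_mul, one_mul, zero_mul, sum_ite_eq', mem_univ,
    if_true] at hR
  have hR0 : ∑ a ∈ U, ν.real {a} * ((V a i : ℝ) - m) ^ 2 ≤ R := by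
    have hs : 0 ≤ ∑ a ∈ U, ν.real {a} * ((V a i : ℝ) - m) ^ 2 :=
      sum_nonneg fun a _ => mul_nonneg measureReal_nonneg (sq_nonneg _)
    have hR' : 0 ≤ R := by
      rcases le_or_gt 0 R with h' | h'
      · exact h'
      · nlinarith
    exact hR.trans (mul_le_of_le_one_right hR' measureReal_le_one)
  have hm : m ^ 2 ≤ 2 * (R / ν.real {a₀}) + 2 * (V a₀ i : ℝ) ^ 2 := by
    have h1 : ((V a₀ i : ℝ) - m) ^ 2 ≤ R / ν.real {a₀} := by
      rw [le_div_iff₀' hν0]
      exact (single_le_sum (f := fun a => ν.real {a} * ((V a i : ℝ) - m) ^ 2)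
        (fun a _ => mul_nonneg measureReal_nonneg (sq_nonneg _))
        (mem_union_right _ ha₁)).trans hR0
    nlinarith [sq_nonneg ((V a₀ i : ℝ) * 2 - m)]
  calc ∑ a ∈ U, ENNReal.ofReal ((V a i : ℝ) ^ 2) * ν {a}
      = ENNReal.ofReal (∑ a ∈ U, (V a i : ℝ) ^ 2 * ν.real {a}) := by
        rw [ENNReal.ofReal_sum_of_nonneg fun a _ => mul_nonneg (sq_nonneg _) measureReal_nonneg]
        exact sum_congr rfl fun a _ => by
          rw [ENNReal.ofReal_mul (sq_nonneg _), ofReal_measureReal]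
    _ ≤ _ := by
        refine ENNReal.ofReal_le_ofReal ?_
        calc ∑ a ∈ U, (V a i : ℝ) ^ 2 * ν.real {a}
            ≤ ∑ a ∈ U, (2 * (ν.real {a} * ((V a i : ℝ) - m) ^ 2) + 2 * m ^ 2 * ν.real {a}) :=
              sum_le_sum fun a _ => by
                have h2 := mul_le_mul_of_nonneg_right
                  (show (V a i : ℝ) ^ 2 ≤ 2 * ((V a i : ℝ) - m) ^ 2 + 2 * m ^ 2 by
                    nlinarith [sq_nonneg ((V a i : ℝ) - 2 * m)])
                  (measureReal_nonneg (μ := ν) (s := {a}))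
                linarith
          _ ≤ 2 * R + 2 * m ^ 2 * 1 := by
              rw [sum_add_distrib, ← mul_sum, ← mul_sum, sum_measureReal_singleton]
              gcongr
              exact measureReal_le_one
          _ ≤ B := by rw [hB]; linarith

end trunc

/-! ### The two bounds -/

variable [Countable α] [MeasurableSpace α] [DiscreteMeasurableSpace α]
  {ν : Measure α} [IsProbabilityMeasure ν] {V : α → Fin k → ℤ}

theorem exists_finset_mass (T₀ : Finset α) :
    ∃ T : Finset α, T₀ ⊆ T ∧ 1 / 2 ≤ ν.real (T : Set α) := by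
  classical
  have h : (1 / 2 : ENNReal) < ⨆ T : Finset α, ∑ a ∈ T, ν {a} := by
    rw [← ENNReal.tsum_eq_iSup_sum]
    have h1 : ∑' a, ν {a} = 1 := by
      have := lintegral_countable' (μ := ν) (fun _ => (1 : ENNReal))
      simpa using this.symm
    rw [h1]
    norm_num
  obtain ⟨T, hT⟩ := lt_iSup_iff.1 h
  refine ⟨T₀ ∪ T, subset_union_left, ?_⟩
  have h2 : (1 / 2 : ENNReal) ≤ ν (↑(T₀ ∪ T) : Set α) := by
    refine hT.le.trans ?_
    rw [sum_measure_singleton]
    exact measure_mono (Finset.coe_subset.2 subset_union_right)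
  have := ENNReal.toReal_mono (measure_ne_top _ _) h2
  simpa [measureReal_def] using this

theorem tendsto_sqrt_mul_exp {c : ℝ} (hc : 0 < c) :
    Tendsto (fun n : ℕ => √((n : ℝ) + 1) ^ k * exp (-c / 12) ^ n) atTop (𝓝 0) :=
  tendsto_rpow_mul_geom (exp_pos _).le (exp_lt_one_iff.2 (by linarith))

/-- (a): anticoncentration of the partial sums. -/
theorem exists_law_le (hstar : ∀ i, ∃ a b, 0 < ν {a} ∧ 0 < ν {b} ∧ V b = V a + Pi.single i 1) :
    ∃ C : ℝ, 0 ≤ C ∧ ∀ (n : ℕ) x, (Measure.infinitePi fun _ : ℕ => ν) {om | seqSum V n om = x} ≤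
      ENNReal.ofReal (C / ((n : ℝ) + 1) ^ ((k : ℝ) / 2)) := by
  classical
  choose a b hpa hpb hab using hstar
  obtain ⟨T, hT0, hTc⟩ := exists_finset_mass (ν := ν) (univ.image a ∪ univ.image b)
  have hc : 0 < ν.real (T : Set α) := by linarith
  have hsteps : HasSteps (truncSupp V T) (truncWeight ν V T) := hasSteps_trunc fun i =>
    ⟨a i, hT0 (mem_union_left _ (mem_image_of_mem a (mem_univ i))), b i,
      hT0 (mem_union_right _ (mem_image_of_mem b (mem_univ i))), hpa i, hpb i, hab i⟩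
  obtain ⟨C, hC0, hC⟩ := exists_convPow_le (isWeight_trunc hc) hsteps
  obtain ⟨M, hM⟩ := (tendsto_sqrt_mul_exp (k := k) hc).bddAbove_range
  have hM0 : 0 ≤ M := le_trans (by positivity) (hM ⟨0, rfl⟩)
  refine ⟨C * √4 ^ k + M, by positivity, fun n x => ?_⟩
  rw [← ofReal_measureReal]
  refine ENNReal.ofReal_le_ofReal ((law_le_of_tail hc (n := n)
    (K := C * √4 ^ k / √((n : ℝ) + 1) ^ k) (by positivity) (fun j hj z => ?_) x).trans ?_)
  · refine (hC j z).trans ?_
    rw [Real.rpow_div_two_eq_sqrt _ (by positivity), Real.rpow_natCast, mul_div_assoc,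
      ← div_pow, div_eq_mul_inv C, ← inv_pow]
    refine mul_le_mul_of_nonneg_left (pow_le_pow_left₀ (by positivity) ?_ k) hC0
    rw [← sqrt_div (by norm_num : (0 : ℝ) ≤ 4), ← sqrt_inv]
    refine sqrt_le_sqrt ?_
    rw [← one_div, div_le_div_iff₀ (by positivity) (by positivity)]
    nlinarith [mul_le_mul_of_nonneg_right hTc (n.cast_nonneg (α := ℝ))]
  · rw [Real.rpow_div_two_eq_sqrt _ (by positivity), Real.rpow_natCast, add_div]
    refine add_le_add le_rfl ?_
    rw [le_div_iff₀ (by positivity), mul_comm]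
    exact hM ⟨n, rfl⟩

/-- (b): without a second moment the sums anticoncentrate faster. -/
theorem eventually_law_le (hk : 1 ≤ k)
    (hstar : ∀ i, ∃ a b, 0 < ν {a} ∧ 0 < ν {b} ∧ V b = V a + Pi.single i 1)
    (hinf : ¬ Integrable (fun a => ∑ i, ((V a i : ℝ)) ^ 2) ν) {η : ℝ} (hη : 0 < η) :
    ∀ᶠ n : ℕ in atTop, ∀ x, (Measure.infinitePi fun _ : ℕ => ν) {om | seqSum V n om = x} ≤
      ENNReal.ofReal (η / (n : ℝ) ^ ((k : ℝ) / 2)) := by
  classical
  choose a b hpa hpb hab using hstar
  obtain ⟨T₀, hT0, hTc⟩ := exists_finset_mass (ν := ν) (univ.image a ∪ univ.image b)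
  have hc₀ : 0 < ν.real (T₀ : Set α) := by linarith
  have hsteps : ∀ T, T₀ ⊆ T → HasSteps (truncSupp V T) (truncWeight ν V T) := fun T hT =>
    hasSteps_trunc fun i =>
      ⟨a i, hT (hT0 (mem_union_left _ (mem_image_of_mem a (mem_univ i)))), b i,
        hT (hT0 (mem_union_right _ (mem_image_of_mem b (mem_univ i)))), hpa i, hpb i, hab i⟩
  obtain ⟨δ₀, hδ₀, hlow⟩ :=
    exists_lower_form (covMat_posDef (isWeight_trunc hc₀) (hsteps T₀ subset_rfl))
  set δ := ν.real (T₀ : Set α) * δ₀
  have hδ : 0 < δ := by positivity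
  set A := antiConcConst k * √4 ^ k
  have hA : 0 < A := mul_pos antiConcConst_pos (by positivity)
  obtain ⟨R, hR0, hR⟩ : ∃ R > 0, A / √(δ ^ (k - 1) * (R / k)) ≤ η / 2 := by
    refine ⟨(2 * A / η) ^ 2 * k / δ ^ (k - 1), by positivity, le_of_eq ?_⟩
    rw [show δ ^ (k - 1) * ((2 * A / η) ^ 2 * k / δ ^ (k - 1) / k) = (2 * A / η) ^ 2 by
      field_simp, sqrt_sq (by positivity)]
    field_simp
  obtain ⟨i₀⟩ : Nonempty (Fin k) := ⟨⟨0, hk⟩⟩
  obtain ⟨i, hi⟩ : ∃ i, ¬ ∫⁻ a, ENNReal.ofReal ((V a i : ℝ) ^ 2) ∂ν < ⊤ := by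
    by_contra! hne
    refine hinf (integrable_finsetSum _ fun i _ => ⟨(measurable_of_countable _).aestronglyMeasurable, ?_⟩)
    rw [hasFiniteIntegral_iff_ofReal (ae_of_all _ fun a => sq_nonneg _)]
    exact hne i
  obtain ⟨T, hT, hTR⟩ : ∃ T, T₀ ⊆ T ∧
      R < varDir (truncSupp V T) (truncWeight ν V T) (Pi.single i 1) := by
    by_contra! hne
    exact hi (summable_of_varDir_le (hpa i₀) (hT0 (mem_union_left _ (mem_image_of_mem a (mem_univ i₀))))
      hne)
  have hTc' : 1 / 2 ≤ ν.real (T : Set α) :=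
    hTc.trans (measureReal_mono (Finset.coe_subset.2 hT))
  have hc : 0 < ν.real (T : Set α) := by linarith
  have hpd := covMat_posDef (isWeight_trunc (V := V) hc) (hsteps T hT)
  have hdet : δ ^ (k - 1) * (R / k) ≤ (covMat (truncSupp V T) (truncWeight ν V T)).det := by
    refine le_trans ?_ (pow_mul_le_det hpd.isHermitian hδ (fun t => ?_) i)
    · rw [varDir_single_eq]; gcongr
    · rw [dotProduct_covMat_mulVec]
      refine le_trans ?_ (mass_mul_varDir_mono hc₀ hT t)
      rw [← dotProduct_covMat_mulVec, mul_assoc]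
      exact mul_le_mul_of_nonneg_left (hlow t) hc₀.le
  obtain ⟨n₀, hn₀⟩ := eventually_atTop.1 (eventually_convPow_le (isWeight_trunc hc) (hsteps T hT))
  have htend := (tendsto_sqrt_mul_exp (k := k) hc).eventually_le_const (half_pos hη)
  filter_upwards [htend, eventually_ge_atTop (4 * n₀), eventually_ge_atTop 1] with n hn hn4 hn1 x
  have hnr : (1 : ℝ) ≤ n := by exact_mod_cast hn1
  rw [← ofReal_measureReal, Real.rpow_div_two_eq_sqrt _ (by positivity), Real.rpow_natCast]
  refine ENNReal.ofReal_le_ofReal ((law_le_of_tail hc (n := n) (K := η / 2 / √(n : ℝ) ^ k)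
    (by positivity) (fun j hj z => ?_) x).trans ?_)
  · have hj4 : (n : ℝ) / 4 ≤ j :=
      le_trans (by nlinarith [mul_le_mul_of_nonneg_right hTc' (n.cast_nonneg (α := ℝ))]) hj
    have hjn : n₀ ≤ j := by
      have h4 : ((4 * n₀ : ℕ) : ℝ) ≤ n := by exact_mod_cast hn4
      push_cast at h4
      exact_mod_cast (by linarith : (n₀ : ℝ) ≤ j)
    refine (hn₀ j hjn z).trans ?_
    rw [Real.rpow_div_two_eq_sqrt _ (by positivity), Real.rpow_natCast]
    refine le_trans ?_ (div_le_div_of_nonneg_right hR (by positivity))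
    rw [div_div]
    have hden : √(δ ^ (k - 1) * (R / k)) * √(n : ℝ) ^ k ≤
        √4 ^ k * (√(j : ℝ) ^ k * √(covMat (truncSupp V T) (truncWeight ν V T)).det) := by
      rw [← mul_assoc, ← mul_pow, ← sqrt_mul (by norm_num : (0 : ℝ) ≤ 4), mul_comm]
      exact mul_le_mul (pow_le_pow_left₀ (sqrt_nonneg _) (sqrt_le_sqrt (by linarith)) k)
        (sqrt_le_sqrt hdet) (sqrt_nonneg _) (by positivity)
    refine le_trans ?_ (div_le_div_of_nonneg_left hA.le (by positivity) hden)
    simp only [A]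
    rw [mul_comm (antiConcConst k), mul_div_mul_left _ _ (by positivity)]
  · have h4 : √(n : ℝ) ^ k * exp (-(ν.real (T : Set α)) / 12) ^ n ≤ η / 2 :=
      le_trans (mul_le_mul_of_nonneg_right (pow_le_pow_left₀ (sqrt_nonneg _)
        (sqrt_le_sqrt (by linarith)) k) (by positivity)) hn
    rw [show η / √(n : ℝ) ^ k = η / 2 / √(n : ℝ) ^ k + η / 2 / √(n : ℝ) ^ k by ring]
    refine add_le_add le_rfl ?_
    rw [le_div_iff₀ (by positivity), mul_comm]
    exact h4

end Vale.Agent.P147.Regen
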