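import Vale.Agent.P147.Regen.Sites
import Vale.Agent.P147.Regen.Pair
import Vale.Agent.P147.Regen.AntiConcLaw

/-!
# Meetings in a band when the lateral increment has no second moment

After a buffer of `n` pairs the relative offset is spread out at scale beyond `√n`, so a meeting
in the next `3n` pairs needs a contact between two sets with `O(n)` expected contacts in total,
each of probability `o(n^(-k/2))`, and `k ≥ 2`.
-/

namespace Vale.Agent.P147.Regen

open MeasureTheory Set Filter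
open scoped ENNReal

section steps

variable {k : ℕ} {φ : Site (k + 1) →+ ℤ}

theorem stp_neg_step (e : Step (k + 1)) : stp (e.1, !e.2) = -stp e := by
  obtain ⟨i, b⟩ := e
  cases b <;> simp [stp, ← Pi.single_neg]

theorem isSeg_step {e : Step (k + 1)} (h : φ (stp e) = 1) : IsSeg φ [e] := by
  refine ⟨by simp, fun j hj => ?_⟩
  simp only [List.length_singleton, Nat.lt_one_iff] at hj
  subst hj
  simp [disp, h]

theorem isSeg_flat_step {e f : Step (k + 1)} (hf : φ (stp f) = 0) (h : φ (stp e) = 1) :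
    IsSeg φ [f, e] := by
  refine ⟨by simp, fun j hj => ?_⟩
  simp only [List.length_cons, List.length_nil] at hj
  interval_cases j <;> simp [disp, hf, h]

/-- Two segments of height one form a pair. -/
theorem isPair_of_height_one {p : PairW (k + 1)} (h1 : IsSeg φ p.1) (h2 : IsSeg (-φ) p.2)
    (e1 : φ (disp p.1) = 1) (e2 : φ (disp p.2) = -1) : IsPair φ p := by
  refine ⟨h1, h2, by omega, fun a₁ a₂ b₁ b₂ ha₁ ha₂ _ _ hp _ => absurd e1 ?_⟩
  have := seg_height_pos ha₁
  have := seg_height_pos ha₂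
  rw [hp, disp_append, map_add]
  omega

/-- Along every lateral axis two pairs differ by one unit. -/
theorem exists_pairs_axis (hl : IsLevel φ) {i₀ : Fin (k + 1)} (hi : φ (stp (i₀, true)) ≠ 0)
    (j : Fin k) : ∃ a b : PairW (k + 1), IsPair φ a ∧ IsPair φ b ∧
      vlat i₀ b = vlat i₀ a + Pi.single j 1 := by
  obtain ⟨b₀, hb₀⟩ : ∃ b, φ (stp (i₀, b)) = 1 := by
    have h1 := hl.1 (i₀, true)
    rw [abs_le] at h1
    rcases (show φ (stp (i₀, true)) = 1 ∨ φ (stp (i₀, true)) = -1 by omega) with h | h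
    · exact ⟨true, h⟩
    · exact ⟨false, by have e := stp_neg_step (i₀, true); simp only [Bool.not_true] at e
                       rw [e, map_neg, h]; rfl⟩
  have hdown : (-φ) (stp (i₀, !b₀)) = 1 := by
    rw [stp_neg_step (i₀, b₀), AddMonoidHom.neg_apply, map_neg, hb₀]; rfl
  set e : Step (k + 1) := (i₀, b₀)
  set e' : Step (k + 1) := (i₀, !b₀)
  have he' : φ (stp e') = -1 := by rw [AddMonoidHom.neg_apply] at hdown; omega
  have hlat : lat i₀ (stp e') = 0 := by
    funext m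
    simp [lat, stp, e', Fin.succAbove_ne]
  have hlat0 : lat i₀ (stp e) = 0 := by
    funext m
    simp [lat, stp, e, Fin.succAbove_ne]
  have hlatj : ∀ b : Bool, lat i₀ (stp (i₀.succAbove j, b)) =
      Pi.single j (if b then 1 else -1) := fun b => by
    funext m
    simp [lat, stp, Pi.single_apply]
  have hbase : IsPair φ ([e], [e']) :=
    isPair_of_height_one (isSeg_step hb₀) (isSeg_step hdown) (by simp [disp, hb₀])
      (by simp [disp, he'])
  have hbase0 : vlat i₀ (([e], [e']) : PairW (k + 1)) = 0 := by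
    simp [vlat, disp, hlat, hlat0]
  have h1 := hl.1 (i₀.succAbove j, true)
  rw [abs_le] at h1
  rcases (show φ (stp (i₀.succAbove j, true)) = 0 ∨ φ (stp (i₀.succAbove j, true)) = 1 ∨
    φ (stp (i₀.succAbove j, true)) = -1 by omega) with h | h | h
  · refine ⟨([e], [e']), ([(i₀.succAbove j, true), e], [e']), hbase,
      isPair_of_height_one (isSeg_flat_step h hb₀) (isSeg_step hdown) (by simp [disp, h, hb₀])
        (by simp [disp, he']), ?_⟩
    rw [hbase0, zero_add]
    simp [vlat, disp, hlat, hlat0, hlatj]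
  · refine ⟨([e], [e']), ([(i₀.succAbove j, true)], [e']), hbase,
      isPair_of_height_one (isSeg_step h) (isSeg_step hdown) (by simp [disp, h])
        (by simp [disp, he']), ?_⟩
    rw [hbase0, zero_add]
    simp [vlat, disp, hlat, hlatj]
  · have h' : φ (stp (i₀.succAbove j, false)) = 1 := by
      have e1 := stp_neg_step (i₀.succAbove j, true)
      simp only [Bool.not_true] at e1
      rw [e1, map_neg, h]; rfl
    refine ⟨([(i₀.succAbove j, false)], [e']), ([e], [e']),
      isPair_of_height_one (isSeg_step h') (isSeg_step hdown) (by simp [disp, h'])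
        (by simp [disp, he']), hbase, ?_⟩
    rw [hbase0]
    simp [vlat, disp, hlat, hlatj, ← Pi.single_add]

end steps

section band

variable {k : ℕ} (μ' : Measure (Step (k + 1) → ℝ)) [IsProbabilityMeasure μ']
  (ψ : Site (k + 1) →+ ℤ)

/-- The contacts of the first `n` pairs at equal levels, at most `L` below the top. -/
def contacts (n L : ℕ) (ω : ℕ → PairW (k + 1)) : Finset (Site (k + 1) × Site (k + 1)) :=
  (xSites 0 ω 0 n ×ˢ ySites 0 ω 0 n).filter fun pq => ψ pq.1 = ψ pq.2 ∧ -(L : ℤ) ≤ ψ pq.1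

theorem dependsOn_contacts (n L : ℕ) (pq : Site (k + 1) × Site (k + 1)) :
    DependsOn (fun ω => pq ∈ contacts ψ n L ω) (Iio n) := by
  intro ω ω' h
  simp only [contacts, xSites_congr (a := 0) (fun j hj => h j (mem_Iio.2 hj)) (0 : Site (k + 1)),
    ySites_congr (a := 0) (fun j hj => h j (mem_Iio.2 hj)) (0 : Site (k + 1))]

variable {μ' ψ}

theorem ae_forall_isPair [IsProbabilityMeasure (pairLaw μ' ψ)] :
    ∀ᵐ ω ∂pairsLaw μ' ψ, ∀ i, IsPair ψ (ω i) := by
  refine ae_all_iff.2 fun i => ?_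
  have h := Measure.infinitePi_map_eval (fun _ : ℕ => pairLaw μ' ψ) i
  exact ae_of_ae_map (f := fun ω : ℕ → PairW (k + 1) => ω i) (measurable_pi_apply i).aemeasurable
    (h.symm ▸ ae_isPair μ' ψ)

theorem meet_subset (i₀ : Fin (k + 1)) {o : Site (k + 1)} (ho : ψ o = 0) {n L : ℕ}
    {ω : ℕ → PairW (k + 1)} (hω : ∀ i, IsPair ψ (ω i)) (hM : ω ∈ Meet o n (4 * n))
    (hH : height ψ (shiftSeq n ω) (3 * n + 1) ≤ L) :
    ∃ pq ∈ contacts ψ (3 * n + 1) L (shiftSeq n ω),
      seqSum (vlat i₀) n ω = lat i₀ o - lat i₀ (pq.2 - pq.1) := by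
  set ω' := shiftSeq n ω
  have hω' : ∀ i, IsPair ψ (ω' i) := fun i => hω _
  set off := offAfter o ω n
  have hoff : ψ off = 0 := level_offAfter ho hω n
  have hM' : ω' ∈ Meet off 0 (3 * n) := by
    have h := (meet_shift o ω n 0 (3 * n)).1
    simp only [add_zero, show n + 3 * n = 4 * n by omega] at h
    exact h hM
  simp only [Meet, mem_ofPred_eq, Finset.not_disjoint_iff] at hM'
  obtain ⟨q, hx, hy⟩ := hM'
  rw [show off = off + 0 from (add_zero off).symm, xSites_translate, Finset.mem_image] at hx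
  obtain ⟨p, hp, hpq⟩ := hx
  refine ⟨(p, q), ?_, ?_⟩
  · simp only [contacts, Finset.mem_filter, Finset.mem_product]
    obtain ⟨i, -, hi, hiz⟩ := mem_xSites.1 hp
    obtain ⟨j, -, hj, hjz⟩ := mem_ySites.1 hy
    have hlev : ψ p = ψ q := by rw [← hpq, map_add, hoff, zero_add]
    refine ⟨⟨mem_xSites.2 ⟨i, Nat.zero_le _, by omega, hiz⟩, hy⟩, hlev, ?_⟩
    have h2 := level_yPair hω' hjz
    have h3 := height_mono hω' (show j + 1 ≤ 3 * n + 1 by omega)
    simp only [map_zero] at h2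
    omega
  · have e : lat i₀ (q - p) = lat i₀ off := by rw [← hpq, add_sub_cancel_right]
    rw [e, show off = offAfter o ω n from rfl, offAfter_eq, map_sub, map_sum, sub_sub_cancel]
    rfl

theorem height_eq_sum_toNat {ω : ℕ → PairW (k + 1)} (hω : ∀ i, IsPair ψ (ω i)) (m : ℕ) :
    height ψ ω m = ((∑ i ∈ Finset.range m, (ψ (disp (ω i).1)).toNat : ℕ) : ℤ) := by
  rw [height, Nat.cast_sum]
  exact Finset.sum_congr rfl fun i _ => (Int.toNat_of_nonneg (seg_height_pos (hω i).1).le).symm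

omit [IsProbabilityMeasure μ'] in
theorem contact_le [IsProbabilityMeasure (pairLaw μ' ψ)] (i₀ : Fin (k + 1)) (o : Site (k + 1))
    (n m L : ℕ) {s : ℝ≥0∞} (hs : ∀ x, pairsLaw μ' ψ {ω | seqSum (vlat i₀) n ω = x} ≤ s) :
    pairsLaw μ' ψ {ω | ∃ pq ∈ contacts ψ m L (shiftSeq n ω),
        seqSum (vlat i₀) n ω = lat i₀ o - lat i₀ (pq.2 - pq.1)} ≤
      s * ∫⁻ ω, ((contacts ψ m L ω).card : ℝ≥0∞) ∂pairsLaw μ' ψ := by
  classical
  set A : Site (k + 1) × Site (k + 1) → Set (ℕ → PairW (k + 1)) := fun pq =>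
    {ω | seqSum (vlat i₀) n ω = lat i₀ o - lat i₀ (pq.2 - pq.1)}
  set B : Site (k + 1) × Site (k + 1) → Set (ℕ → PairW (k + 1)) := fun pq =>
    {ω | pq ∈ contacts ψ m L ω}
  have hAd : ∀ pq, DependsOn (· ∈ A pq) (Iio n) := fun pq ω ω' h => by
    simp only [A, mem_ofPred_eq, seqSum]
    rw [Finset.sum_congr rfl fun i hi => by rw [h i (mem_Iio.2 (Finset.mem_range.1 hi))]]
  have hBm : ∀ pq, MeasurableSet (B pq) := fun pq =>
    measurableSet_of_dependsOn (dependsOn_contacts ψ m L pq)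
  calc _ ≤ pairsLaw μ' ψ (⋃ pq, A pq ∩ shiftSeq n ⁻¹' B pq) :=
        measure_mono fun ω (hω : ∃ pq ∈ _, _) => by
          obtain ⟨pq, h1, h2⟩ := hω
          exact mem_iUnion.2 ⟨pq, h2, h1⟩
    _ ≤ ∑' pq, pairsLaw μ' ψ (A pq ∩ shiftSeq n ⁻¹' B pq) := measure_iUnion_le _
    _ = ∑' pq, pairsLaw μ' ψ (A pq) * pairsLaw μ' ψ (B pq) := tsum_congr fun pq =>
        measure_past_inter_future (pairLaw μ' ψ) n (measurableSet_of_dependsOn (hAd pq)) (hAd pq)
          (hBm pq)
    _ ≤ ∑' pq, s * pairsLaw μ' ψ (B pq) :=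
        ENNReal.tsum_le_tsum fun pq => mul_le_mul' (hs _) le_rfl
    _ = s * ∫⁻ ω, ∑' pq, (B pq).indicator 1 ω ∂pairsLaw μ' ψ := by
        rw [ENNReal.tsum_mul_left,
          lintegral_tsum fun pq => (measurable_one.indicator (hBm pq)).aemeasurable]
        simp only [lintegral_indicator_one (hBm _)]
    _ = _ := by
        congr 1
        refine lintegral_congr fun ω => ?_
        rw [tsum_eq_sum (s := contacts ψ m L ω) fun pq hpq => indicator_of_notMem (by exact hpq) _,
          Finset.sum_congr rfl fun pq hpq => indicator_of_mem (show ω ∈ B pq from hpq) _]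
        simp

omit [IsProbabilityMeasure μ'] in
theorem height_tail [IsProbabilityMeasure (pairLaw μ' ψ)] (m n L : ℕ) :
    ((L : ℝ≥0∞) + 1) * pairsLaw μ' ψ
        {ω | L < ∑ i ∈ Finset.range m, (ψ (disp (shiftSeq n ω i).1)).toNat} ≤
      m * ∫⁻ p, ((ψ (disp p.1)).toNat : ℝ≥0∞) ∂pairLaw μ' ψ := by
  set f : PairW (k + 1) → ℝ≥0∞ := fun p => ((ψ (disp p.1)).toNat : ℝ≥0∞)
  have hf : Measurable f := measurable_of_countable _
  set F : (ℕ → PairW (k + 1)) → ℝ≥0∞ := fun ω => ∑ i ∈ Finset.range m, f (ω (n + i))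
  have hF : Measurable F :=
    Finset.measurable_sum _ fun i _ => hf.comp (measurable_pi_apply (n + i))
  calc _ ≤ ((L : ℝ≥0∞) + 1) * pairsLaw μ' ψ {ω | (L : ℝ≥0∞) + 1 ≤ F ω} := by
        refine mul_le_mul' le_rfl (measure_mono fun ω hω => ?_)
        simp only [F, f, mem_ofPred_eq, ← Nat.cast_sum] at hω ⊢
        exact_mod_cast hω
    _ ≤ ∫⁻ ω, F ω ∂pairsLaw μ' ψ := mul_meas_ge_le_lintegral hF _
    _ = _ := by
        simp only [F]
        rw [lintegral_finsetSum (f := fun i (ω : ℕ → PairW (k + 1)) => f (ω (n + i))) _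
          fun i _ => hf.comp (measurable_pi_apply (n + i))]
        have h : ∀ i, ∫⁻ ω, f (ω (n + i)) ∂pairsLaw μ' ψ = ∫⁻ p, f p ∂pairLaw μ' ψ := fun i => by
          rw [← lintegral_map hf (measurable_pi_apply (n + i)), pairsLaw,
            Measure.infinitePi_map_eval]
        simp [h, f]

variable (μ' ψ) in
/-- Without a second moment of the lateral increment meetings in far bands are unlikely. -/
theorem bandSmall_of_infinite_variance (i₀ : Fin (k + 1)) (hk : 2 ≤ k) (h : Hyp μ' ψ)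
    (hi : ψ (stp (i₀, true)) ≠ 0) (hp : meanLen μ' ψ ≠ ∞) (hm : meanLen μ' (-ψ) ≠ ∞)
    (hv : ¬ Integrable (fun p => ∑ i, ((vlat i₀ p i : ℝ)) ^ 2) (pairLaw μ' ψ)) :
    BandSmall μ' ψ := by
  have := isProbabilityMeasure_pairLaw μ' ψ h
  have hsteps : ∀ j, ∃ a b, 0 < pairLaw μ' ψ {a} ∧ 0 < pairLaw μ' ψ {b} ∧
      vlat i₀ b = vlat i₀ a + Pi.single j 1 := fun j => by
    obtain ⟨a, b, ha, hb, hab⟩ := exists_pairs_axis h.lev hi j
    refine ⟨a, b, ?_, ?_, hab⟩
    · rw [pairLaw_singleton μ' ha]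
      exact ENNReal.mul_pos (wt_pos μ' h.ell _).ne' (wt_pos μ' h.ell _).ne'
    · rw [pairLaw_singleton μ' hb]
      exact ENNReal.mul_pos (wt_pos μ' h.ell _).ne' (wt_pos μ' h.ell _).ne'
  intro η hη
  set H := (aUp μ' ψ * aUp μ' (-ψ))⁻¹
  have hH : H ≠ ∞ := ENNReal.inv_ne_top.2 (ENNReal.mul_pos h.up.ne' h.down.ne').ne'
  set C : ℕ := ⌈8 * H.toReal / η⌉₊ + 1
  set M := (meanLen μ' ψ * meanLen μ' (-ψ)).toReal
  set η' := η / (2 * (((C : ℝ) + 1) * M + 1))
  have hM0 : 0 ≤ M := ENNReal.toReal_nonneg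
  have hη' : 0 < η' := by positivity
  obtain ⟨N, hN⟩ := eventually_atTop.1
    (eventually_law_le (ν := pairLaw μ' ψ) (V := vlat i₀) (by omega) hsteps hv hη')
  refine ⟨max N 1, fun n hn o ho => ?_⟩
  have hn1 : 1 ≤ n := (le_max_right _ _).trans hn
  set L := C * n
  set G₁ : Set (ℕ → PairW (k + 1)) :=
    {ω | L < ∑ i ∈ Finset.range (3 * n + 1), (ψ (disp (shiftSeq n ω i).1)).toNat}
  set G₂ : Set (ℕ → PairW (k + 1)) := {ω | ∃ pq ∈ contacts ψ (3 * n + 1) L (shiftSeq n ω),
    seqSum (vlat i₀) n ω = lat i₀ o - lat i₀ (pq.2 - pq.1)}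
  have hsub : pairsLaw μ' ψ (Meet o n (4 * n)) ≤ pairsLaw μ' ψ (G₁ ∪ G₂) := by
    refine measure_mono_ae ?_
    filter_upwards [ae_forall_isPair] with ω hω hM'
    by_cases h1 : ω ∈ G₁
    · exact Or.inl h1
    · refine Or.inr (meet_subset i₀ ho hω hM' ?_)
      rw [height_eq_sum_toNat fun i => by exact hω (n + i)]
      exact Int.ofNat_le.2 (not_lt.1 h1)
  have hnR : (1 : ℝ) ≤ n := by exact_mod_cast hn1
  have hG₁ : pairsLaw μ' ψ G₁ ≤ ENNReal.ofReal (η / 2) := by
    have h1 := (height_tail (3 * n + 1) n L).trans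
      (mul_le_mul' le_rfl (lintegral_pair_height μ' ψ h))
    rw [mul_comm, ← ENNReal.le_div_iff_mul_le (Or.inl (by simp)) (Or.inl (by simp))] at h1
    refine h1.trans ?_
    rw [show (aUp μ' ψ * aUp μ' (-ψ))⁻¹ = ENNReal.ofReal H.toReal from
        (ENNReal.ofReal_toReal hH).symm, ← ENNReal.ofReal_natCast (3 * n + 1),
      ← ENNReal.ofReal_natCast L, ← ENNReal.ofReal_one,
      ← ENNReal.ofReal_add (by positivity) zero_le_one, ← ENNReal.ofReal_mul (by positivity),
      ← ENNReal.ofReal_div_of_pos (by positivity)]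
    refine ENNReal.ofReal_le_ofReal ?_
    rw [div_le_iff₀ (by positivity)]
    have hC : 8 * H.toReal / η ≤ (C : ℝ) := by
      simp only [C]; push_cast
      exact (Nat.le_ceil _).trans (by linarith)
    rw [div_le_iff₀ hη] at hC
    simp only [L, H]; push_cast
    have h4 := mul_le_mul_of_nonneg_right hC (n.cast_nonneg (α := ℝ))
    have h5 : 0 ≤ H.toReal := ENNReal.toReal_nonneg
    simp only [H] at h4 h5
    nlinarith [mul_le_mul_of_nonneg_right hnR h5]
  have hG₂ : pairsLaw μ' ψ G₂ ≤ ENNReal.ofReal (η / 2) := by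
    refine (contact_le i₀ o n (3 * n + 1) L (hN n ((le_max_left _ _).trans hn))).trans ?_
    refine (mul_le_mul' le_rfl (pairs_overlap_le μ' ψ h (3 * n + 1) L)).trans ?_
    rw [← ENNReal.ofReal_toReal (ENNReal.mul_ne_top hp hm), ← ENNReal.ofReal_natCast L,
      ← ENNReal.ofReal_one, ← ENNReal.ofReal_add (by positivity) zero_le_one,
      ← ENNReal.ofReal_mul (by positivity), ← ENNReal.ofReal_mul (by positivity)]
    refine ENNReal.ofReal_le_ofReal ?_
    have hpow : (n : ℝ) ≤ (n : ℝ) ^ ((k : ℝ) / 2) := by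
      refine Real.self_le_rpow_of_one_le hnR ?_
      have : (2 : ℝ) ≤ k := by exact_mod_cast hk
      linarith
    simp only [L]; push_cast
    calc η' / (n : ℝ) ^ ((k : ℝ) / 2) * (((C : ℝ) * n + 1) * M)
        ≤ η' / n * (((C : ℝ) + 1) * n * M) := by
          gcongr
          nlinarith
      _ = η' * (((C : ℝ) + 1) * M) := by field_simp
      _ ≤ η / 2 := by
          simp only [η']
          rw [div_mul_eq_mul_div, div_le_iff₀ (by positivity)]
          nlinarith [mul_nonneg (Nat.cast_nonneg (α := ℝ) C) hM0]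
  refine hsub.trans ((measure_union_le _ _).trans ((add_le_add hG₁ hG₂).trans (le_of_eq ?_)))
  rw [← ENNReal.ofReal_add (by positivity) (by positivity), add_halves]

end band

end Vale.Agent.P147.Regen
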