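import Vale.Agent.P147.Regen.Sites

/-!
# Lateral connectors
-/

namespace Vale.Agent.P147.Regen

open MeasureTheory Set Filter

variable {d : ℕ} {φ : Site d →+ ℤ}

theorem stp_neg (e : Step d) : stp (e.1, !e.2) = -stp e := by
  obtain ⟨i, b⟩ := e
  cases b <;> simp [stp, ← Pi.single_neg]

/-- All prefixes stay at nonnegative levels. -/
def NonnegWord (φ : Site d →+ ℤ) (s : Word d) : Prop := ∀ k, 0 ≤ φ (disp (s.take k))

theorem NonnegWord.append {s t : Word d} (hs : NonnegWord φ s) (ht : NonnegWord φ t) :
    NonnegWord φ (s ++ t) := by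
  intro k
  rcases Nat.le_total k s.length with h | h
  · rw [List.take_append_of_le_length h]; exact hs k
  · obtain ⟨j, rfl⟩ : ∃ j, k = s.length + j := ⟨k - s.length, by omega⟩
    rw [List.take_length_add_append, disp_append, map_add]
    have h0 : 0 ≤ φ (disp s) := by simpa using hs s.length
    exact add_nonneg h0 (ht j)

theorem nonnegWord_replicate {z : Word d} (hz : NonnegWord φ z) (m : ℕ) :
    NonnegWord φ (List.replicate m z).flatten := by
  induction m with
  | zero => intro k; simp [disp]
  | succ m ih => rw [List.replicate_succ, List.flatten_cons]; exact hz.append ih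

theorem disp_replicate (z : Word d) (m : ℕ) :
    disp (List.replicate m z).flatten = m • disp z := by
  induction m with
  | zero => simp [disp]
  | succ m ih => rw [List.replicate_succ, List.flatten_cons, disp_append, ih, succ_nsmul']

/-- A lateral vector all whose multiples are reached by paths staying strictly above the start. -/
theorem exists_connector (hd : 2 ≤ d) (hl : IsLevel φ) :
    ∃ v : Site d, v ≠ 0 ∧ φ v = 0 ∧ ∀ m : ℤ, ∃ c : Word d, disp c = m • v ∧
      ∀ k, 0 < k → k < c.length → 1 ≤ φ (disp (c.take k)) := by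
  obtain ⟨up, hup⟩ := hl.2
  obtain ⟨i, b⟩ := up
  obtain ⟨j, hij⟩ : ∃ j : Fin d, j ≠ i := by
    obtain ⟨j, hj⟩ := Fintype.exists_ne_of_one_lt_card (by simp; omega) i
    exact ⟨j, hj⟩
  have hdown : φ (stp (i, !b)) = -1 := by rw [stp_neg (i, b), map_neg, hup]
  have hneg : stp (j, false) = -stp (j, true) := stp_neg (j, true)
  obtain ⟨zp, zn, v, hv, hv0, hzp, hzn, hp, hn⟩ :
      ∃ zp zn : Word d, ∃ v : Site d, v ≠ 0 ∧ φ v = 0 ∧ disp zp = v ∧ disp zn = -v ∧
        NonnegWord φ zp ∧ NonnegWord φ zn := by
    by_cases h0 : φ (stp (j, true)) = 0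
    · refine ⟨[(j, true)], [(j, false)], stp (j, true), ?_, h0, by simp [disp], ?_, ?_, ?_⟩
      · intro h; have := congrFun h j; simp [stp] at this
      · simpa [disp] using stp_neg (j, true)
      · intro k; rcases k with _ | k <;> simp [disp, h0]
      · intro k
        rcases k with _ | k
        · simp [disp]
        · simp [disp, show φ (stp (j, false)) = 0 by rw [hneg, map_neg, h0, neg_zero]]
    · obtain ⟨c, hc⟩ : ∃ c : Bool, φ (stp (j, c)) = -1 := by
        have h1 := hl.1 (j, true)
        rw [abs_le] at h1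
        rcases (by omega : φ (stp (j, true)) = 1 ∨ φ (stp (j, true)) = -1) with h | h
        · exact ⟨false, by rw [hneg, map_neg, h]⟩
        · exact ⟨true, h⟩
      refine ⟨[(i, b), (j, c)], [(j, !c), (i, !b)], stp (i, b) + stp (j, c), ?_, ?_,
        by simp [disp], ?_, ?_, ?_⟩
      · intro h
        have := congrFun h j
        cases c <;> simp [stp, hij, Pi.add_apply] at this
      · rw [map_add, hup, hc]; rfl
      · simp [disp, stp_neg (i, b), stp_neg (j, c), add_comm]
      · intro k; rcases k with _ | _ | k <;> simp [disp, map_add, hup, hc]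
      · have hc' : φ (stp (j, !c)) = 1 := by rw [stp_neg (j, c), map_neg, hc]; rfl
        intro k; rcases k with _ | _ | k <;> simp [disp, map_add, hc', hdown]
  refine ⟨v, hv, hv0, fun m => ?_⟩
  rcases eq_or_ne m 0 with rfl | hm
  · exact ⟨[], by simp [disp], by simp⟩
  obtain ⟨w, hw, hwn⟩ : ∃ w : Word d, disp w = m • v ∧ NonnegWord φ w := by
    rcases Int.natAbs_eq m with h | h
    · exact ⟨_, by rw [disp_replicate, hzp, h, natCast_zsmul]; simp,
        nonnegWord_replicate hp m.natAbs⟩
    · refine ⟨_, ?_, nonnegWord_replicate hn m.natAbs⟩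
      conv_rhs => rw [h]
      rw [disp_replicate, hzn, neg_smul, natCast_zsmul, neg_nsmul]
  refine ⟨(i, b) :: (w ++ [(i, !b)]), ?_, fun k h0 hk => ?_⟩
  · rw [disp_cons, disp_append, hw]
    simp [disp, stp_neg (i, b)]
  · obtain ⟨k, rfl⟩ : ∃ k', k = k' + 1 := ⟨k - 1, by omega⟩
    rw [List.take_succ_cons, disp_cons, map_add, hup]
    have hk' : k ≤ w.length := by simp at hk; omega
    rw [List.take_append_of_le_length hk']
    linarith [hwn k]

end Vale.Agent.P147.Regen
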