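import Vale.Agent.P147.Regen.Budget
import Vale.Agent.P147.Regen.Connector

/-!
# Uniformly small bands contradict escape in both directions
-/

namespace Vale.Agent.P147.Regen

open MeasureTheory Set Filter
open scoped ENNReal Topology

variable {d : ℕ} [NeZero d] {μ : Measure (Step d → ℝ)} [IsProbabilityMeasure μ]
  {φ : Site d →+ ℤ}

theorem ae_all_isPair (h : Hyp μ φ) : ∀ᵐ ω ∂pairsLaw μ φ, ∀ i, IsPair φ (ω i) := by
  have := isProbabilityMeasure_pairLaw μ φ h
  have : IsProbabilityMeasure (pairsLaw μ φ) := by rw [pairsLaw]; infer_instance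
  exact ae_all_iff.2 fun i =>
    (measurePreserving_eval_infinitePi (fun _ : ℕ => pairLaw μ φ) i).quasiMeasurePreserving.ae
      (ae_isPair μ φ)

omit [NeZero d] in
theorem avoidTop_anti (o : Site d) {n m : ℕ} (hnm : n ≤ m) : AvoidTop o m ⊆ AvoidTop o n := by
  have hx : ∀ ω, xSites o ω 0 n ⊆ xSites o ω 0 m := fun ω z hz => by
    obtain ⟨i, h1, h2, h3⟩ := mem_xSites.1 hz
    exact mem_xSites.2 ⟨i, h1, by omega, h3⟩
  have hy : ∀ ω, ySites 0 ω 0 (n + 1) ⊆ ySites (0 : Site d) ω 0 (m + 1) := fun ω z hz => by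
    obtain ⟨i, h1, h2, h3⟩ := mem_ySites.1 hz
    exact mem_ySites.2 ⟨i, h1, by omega, h3⟩
  exact fun ω hω => ⟨(hω.1.mono_left (hx ω)).mono_right (hy ω), fun hz => hω.2 (hy ω hz)⟩

omit [NeZero d] in
theorem meet_mono (o : Site d) {a a' b b' : ℕ} (ha : a' ≤ a) (hb : b ≤ b') :
    Meet o a b ⊆ Meet o a' b' := by
  intro ω hω hd
  refine hω ((hd.mono_left fun z hz => ?_).mono_right fun z hz => ?_)
  · obtain ⟨i, h1, h2, h3⟩ := mem_xSites.1 hz
    exact mem_xSites.2 ⟨i, by omega, by omega, h3⟩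
  · obtain ⟨i, h1, h2, h3⟩ := mem_ySites.1 hz
    exact mem_ySites.2 ⟨i, by omega, by omega, h3⟩

omit [NeZero d] in
theorem zsmul_nat_injective {v : Site d} (hv : v ≠ 0) :
    Function.Injective fun m : ℕ => (m : ℤ) • v := by
  obtain ⟨i, hi⟩ := Function.ne_iff.1 hv
  intro a b hab
  have := congrFun hab i
  simp only [Pi.smul_apply, smul_eq_mul] at this
  exact_mod_cast mul_right_cancel₀ hi this

/-- Far lateral starts avoid each other for any fixed number of pairs. -/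
theorem avoidTop_far (h : Hyp μ φ) (v : Site d) (hv : v ≠ 0) (n : ℕ) :
    Tendsto (fun m : ℕ => pairsLaw μ φ (AvoidTop ((m : ℤ) • v) n)) atTop (𝓝 1) := by
  classical
  have := isProbabilityMeasure_pairLaw μ φ h
  have : IsProbabilityMeasure (pairsLaw μ φ) := by rw [pairsLaw]; infer_instance
  have hev : ∀ ω : ℕ → PairW d, ∀ᶠ m : ℕ in atTop, ω ∈ AvoidTop ((m : ℤ) • v) n := by
    intro ω
    let Y := ySites (0 : Site d) ω 0 (n + 1)
    let F := (Finset.product Y (xSites (0 : Site d) ω 0 n)).image (fun p => p.1 - p.2) ∪ Y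
    have hfin : ({m : ℕ | (m : ℤ) • v ∈ F} : Set ℕ).Finite :=
      (F.finite_toSet.preimage (zsmul_nat_injective hv).injOn)
    obtain ⟨M, hM⟩ := hfin.bddAbove
    refine eventually_atTop.2 ⟨M + 1, fun m hm => ?_⟩
    have hmF : (m : ℤ) • v ∉ F := fun hF => by have := hM hF; omega
    simp only [F, Finset.mem_union, not_or] at hmF
    refine ⟨?_, hmF.2⟩
    rw [show (m : ℤ) • v = (m : ℤ) • v + 0 from (add_zero _).symm, xSites_translate,
      Finset.disjoint_left]
    intro z hz hzy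
    obtain ⟨q, hq, rfl⟩ := Finset.mem_image.1 hz
    exact hmF.1 (Finset.mem_image.2 ⟨((m : ℤ) • v + q, q), Finset.mem_product.2 ⟨hzy, hq⟩,
      add_sub_cancel_right _ _⟩)
  have := tendsto_measure_of_tendsto_indicator (μ := pairsLaw μ φ) atTop
    (A := univ) (As := fun m : ℕ => AvoidTop ((m : ℤ) • v) n)
    (fun m => measurableSet_avoidTop _ _) MeasurableSet.univ (measure_ne_top _ _)
    (Eventually.of_forall fun m => subset_univ _)
    (fun ω => (hev ω).mono fun m hm => ⟨fun _ => trivial, fun _ => hm⟩)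
  simpa [pairsLaw] using this

theorem loss_le (h : Hyp μ φ) {o : Site d} (ho : φ o = 0) {k : ℕ} {η : ℝ≥0∞}
    (hk : 3 ≤ 2 ^ k)
    (hη : ∀ o' : Site d, φ o' = 0 →
      pairsLaw μ φ (Meet o' (2 ^ k - 1) (4 * (2 ^ k - 1))) ≤ η) :
    pairsLaw μ φ (AvoidTop o (2 ^ (k + 1) - 1)) ≤
      pairsLaw μ φ (AvoidTop o (2 ^ (k + 2) - 1)) + pairsLaw μ φ (AvoidTop o (2 ^ k - 1)) * η := by
  classical
  have := isProbabilityMeasure_pairLaw μ φ h
  have : IsProbabilityMeasure (pairsLaw μ φ) := by rw [pairsLaw]; infer_instance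
  set P := pairsLaw μ φ with hP
  set N := 2 ^ k with hN
  have e1 : 2 ^ (k + 1) - 1 = N + (N - 1) := by rw [pow_succ]; omega
  have e2 : 2 ^ (k + 2) - 1 = N + (3 * N - 1) := by rw [pow_succ, pow_succ]; omega
  set A := AvoidTop o (N - 1) with hA
  have hAd : ∀ v, DependsOn (· ∈ A ∩ {ω | offAfter o ω N = v}) (Iio N) := by
    intro v x y hxy
    have h1 := dependsOn_avoidTop o (N - 1) (x := x) (y := y) fun i hi =>
      hxy i (mem_Iio.2 (by have := mem_Iio.1 hi; omega))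
    have h2 : offAfter o x N = offAfter o y N := by
      simp only [offAfter, xTop_congr (fun i hi => hxy i (mem_Iio.2 hi)) o,
        yTop_congr (fun i hi => hxy i (mem_Iio.2 hi)) 0]
    simp only [mem_inter_iff, mem_ofPred_eq, h2] at h1 ⊢
    rw [show (x ∈ A) = (y ∈ A) from h1]
  have hAm : ∀ v, MeasurableSet (A ∩ {ω | offAfter o ω N = v}) := fun v =>
    measurableSet_of_dependsOn (hAd v)
  let T : Site d → Set (ℕ → PairW d) := fun v =>
    (A ∩ {ω | offAfter o ω N = v}) ∩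
      (fun (ω : ℕ → PairW d) i => ω (N + i)) ⁻¹' Meet v (N - 1) (3 * N - 1)
  have hsub : ∀ᵐ ω ∂P, ω ∈ AvoidTop o (2 ^ (k + 1) - 1) →
      ω ∈ AvoidTop o (2 ^ (k + 2) - 1) ∪ ⋃ v, T v := by
    filter_upwards [ae_all_isPair h] with ω hω
    intro hmem
    by_cases hM : ω ∈ Meet o (2 ^ (k + 1) - 1) (2 ^ (k + 2) - 1)
    · right
      rw [e1, e2, meet_shift] at hM
      refine mem_iUnion.2 ⟨offAfter o ω N, ⟨?_, rfl⟩, hM⟩
      exact avoidTop_anti o (by omega) hmem
    · exact Or.inl (avoidTop_extend ho hω hmem hM)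
  refine le_trans (measure_mono_ae hsub) (le_trans (measure_union_le _ _) ?_)
  gcongr
  calc P (⋃ v, T v) ≤ ∑' v, P (T v) := measure_iUnion_le _
    _ ≤ ∑' v, P (A ∩ {ω | offAfter o ω N = v}) * η := by
        refine ENNReal.tsum_le_tsum fun v => ?_
        rw [show P (T v) = P (A ∩ {ω | offAfter o ω N = v}) * P (Meet v (N - 1) (3 * N - 1)) from
          measure_past_inter_future (pairLaw μ φ) N (hAm v) (hAd v) (measurableSet_meet _ _ _)]
        by_cases hv : φ v = 0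
        · gcongr
          exact le_trans (measure_mono (meet_mono v le_rfl (by omega))) (hη v hv)
        · have h0 : P (A ∩ {ω | offAfter o ω N = v}) = 0 := by
            refine measure_mono_null (fun ω hω => ?_) (ae_iff.1 (ae_all_isPair h))
            intro hall
            exact hv (hω.2 ▸ level_offAfter ho hall N)
          simp [h0]
    _ = P A * η := by
        rw [ENNReal.tsum_mul_right, ← measure_iUnion (fun v w hvw => ?_) hAm]
        · congr 2
          ext ω; simp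
        · exact Set.disjoint_left.2 fun ω h1 h2 => hvw (h1.2.symm.trans h2.2)

/-- Uniformly small bands are incompatible with escape in both directions. -/
theorem false_of_bandSmall (hd : 2 ≤ d) (h : Hyp μ φ) (hb : BandSmall μ φ) : False := by
  classical
  have := isProbabilityMeasure_pairLaw μ φ h
  have : IsProbabilityMeasure (pairsLaw μ φ) := by rw [pairsLaw]; infer_instance
  obtain ⟨N, hN⟩ := hb (1 / 8) (by norm_num)
  obtain ⟨v, hv, hv0, hc⟩ := exists_connector hd h.lev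
  set k₀ := N + 2 with hk₀
  have h2 : ∀ k, N + 2 ≤ k → 3 ≤ 2 ^ k ∧ N ≤ 2 ^ k - 1 := fun k hk => by
    have h1 : k < 2 ^ k := k.lt_two_pow_self
    have h4 : 2 ^ 2 ≤ 2 ^ k := Nat.pow_le_pow_right (by norm_num) (by omega)
    omega
  -- a far start
  obtain ⟨m, hm⟩ := ((avoidTop_far h v hv (2 ^ (k₀ + 1) - 1)).eventually
    (lt_mem_nhds (show ENNReal.ofReal (3 / 4) < 1 by
      rw [← ENNReal.ofReal_one]; exact (ENNReal.ofReal_lt_ofReal_iff one_pos).2 (by norm_num)))).exists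
  obtain ⟨c, hcd, hcl⟩ := hc (-(m : ℤ))
  have ho : -disp c = (m : ℤ) • v := by rw [hcd, neg_smul, neg_neg]
  set o : Site d := -disp c with ho'
  rw [← ho] at hm
  have hφo : φ o = 0 := by rw [ho, map_zsmul, hv0, smul_zero]
  have hc0 : φ (disp c) = 0 := by rw [hcd, map_zsmul, hv0, smul_zero]
  set C := ∑' n, pairsLaw μ φ (AvoidTop o n) with hC
  have hCt : C ≠ ∞ := by
    refine ne_top_of_le_ne_top ?_ (budget h c hc0 hcl)
    exact ENNReal.inv_ne_top.2 (mul_ne_zero h.down.ne' (wt_pos μ h.ell c).ne')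
  set f : ℕ → ℝ := fun k => (pairsLaw μ φ (AvoidTop o (2 ^ (k₀ + k) - 1))).toReal with hf
  have hf0 : ∀ k, 0 ≤ f k := fun k => ENNReal.toReal_nonneg
  have hf1 : 3 / 4 ≤ f 1 :=
    le_trans (le_of_eq (ENNReal.toReal_ofReal (by norm_num)).symm)
      (ENNReal.toReal_mono (measure_ne_top _ _) hm.le)
  have hf01 : f 0 ≤ 1 := by
    rw [← ENNReal.toReal_one]
    exact ENNReal.toReal_mono ENNReal.one_ne_top prob_le_one
  have hrec : ∀ k, f (k + 1) ≤ f (k + 2) + f k * (1 / 8) := by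
    intro k
    obtain ⟨h3, hNk⟩ := h2 (k₀ + k) (by omega)
    have hl := loss_le h hφo h3 (fun o' ho' => hN _ hNk o' ho')
    rw [← ENNReal.toReal_ofReal (show (0 : ℝ) ≤ 1 / 8 by norm_num)]
    simp only [hf, show k₀ + (k + 1) = k₀ + k + 1 by omega, show k₀ + (k + 2) = k₀ + k + 2 by omega]
    rw [← ENNReal.toReal_mul, ← ENNReal.toReal_add (measure_ne_top _ _)
      (ENNReal.mul_ne_top (measure_ne_top _ _) ENNReal.ofReal_ne_top)]
    exact ENNReal.toReal_mono (ENNReal.add_ne_top.2 ⟨measure_ne_top _ _,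
      ENNReal.mul_ne_top (measure_ne_top _ _) ENNReal.ofReal_ne_top⟩) hl
  have hstep : ∀ k, 3 / 4 * f k ≤ f (k + 1) := by
    intro k
    induction k with
    | zero => linarith
    | succ k ih => show 3 / 4 * f (k + 1) ≤ f (k + 2); linarith [hrec k, hf0 (k + 1), ih]
  have hgeo : ∀ k, 3 / 4 * (3 / 4 : ℝ) ^ k ≤ f (k + 1) := by
    intro k
    induction k with
    | zero => simpa using hf1
    | succ k ih => rw [pow_succ]; linarith [hstep (k + 1), mul_le_mul_of_nonneg_left ih (show (0:ℝ) ≤ 3/4 by norm_num)]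
  have hsum : ∀ k, ((2 ^ (k₀ + k) - 1 : ℕ) : ℝ) * f k ≤ C.toReal := by
    intro k
    have hle : ((2 ^ (k₀ + k) - 1 : ℕ) : ℝ≥0∞) *
        pairsLaw μ φ (AvoidTop o (2 ^ (k₀ + k) - 1)) ≤ C := by
      refine le_trans ?_ (ENNReal.sum_le_tsum (Finset.range (2 ^ (k₀ + k) - 1)))
      rw [← nsmul_eq_mul]
      refine le_trans (le_of_eq ?_) (Finset.card_nsmul_le_sum _ _ _ fun n hn =>
        measure_mono (avoidTop_anti o (Finset.mem_range.1 hn).le))
      simp
    have := ENNReal.toReal_mono hCt hle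
    rw [ENNReal.toReal_mul, ENNReal.toReal_natCast] at this
    exact this
  obtain ⟨k, hk⟩ := pow_unbounded_of_one_lt (C.toReal * 2 + 1) (show (1 : ℝ) < 3 / 2 by norm_num)
  have h4 := hsum (k + 1)
  have h5 : (2 : ℝ) * 2 ^ k ≤ ((2 ^ (k₀ + (k + 1)) - 1 : ℕ) : ℝ) := by
    have hnat : 2 * 2 ^ k ≤ 2 ^ (k₀ + (k + 1)) - 1 := by
      have h6 : 2 ^ (k + 3) ≤ 2 ^ (k₀ + (k + 1)) := Nat.pow_le_pow_right (by norm_num) (by omega)
      have h7 : 2 ^ (k + 3) = 8 * 2 ^ k := by rw [pow_add]; ring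
      have h8 : 1 ≤ 2 ^ k := Nat.one_le_two_pow
      omega
    exact_mod_cast hnat
  have h6 : (2 : ℝ) * 2 ^ k * (3 / 4 * (3 / 4) ^ k) ≤ C.toReal :=
    le_trans (mul_le_mul h5 (hgeo k) (by positivity) (Nat.cast_nonneg _)) h4
  have h7 : (2 : ℝ) * 2 ^ k * (3 / 4 * (3 / 4) ^ k) = 3 / 2 * (3 / 2) ^ k := by
    rw [show (3 / 2 : ℝ) ^ k = 2 ^ k * (3 / 4) ^ k by rw [← mul_pow]; norm_num]; ring
  nlinarith [ENNReal.toReal_nonneg (a := C)]

end Vale.Agent.P147.Regen
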