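import Vale.Agent.P147.Regen.Seg

/-!
# Forward meetings of two independent walks of opposite directions

Two independent walks and two walks in a common environment have the same law until their traces
meet.  In a common environment a meeting site either lets the first walk backtrack or lets the
second walk escape upwards, so meetings inside a band are unlikely.
-/

namespace Vale.Agent.P147.Regen

open MeasureTheory Set Filter
open scoped ENNReal

variable {d : ℕ}

section Trunc

variable (P : Site d → Prop) [DecidablePred P]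

/-- The first `n` steps, stopped when the predicate fails. -/
def trunc : ℕ → Site d → (ℕ → Step d) → Word d
  | 0, _, _ => []
  | n + 1, x, u => if P x then u 0 :: trunc n (x + stp (u 0)) (fun k => u (k + 1)) else []

theorem mem_Pre_trunc (n : ℕ) (x : Site d) (u : ℕ → Step d) : u ∈ Pre (trunc P n x u) := by
  induction n generalizing x u with
  | zero => simp [trunc, Pre]
  | succ n ih =>
    simp only [trunc]
    split_ifs
    · rw [Pre_cons]
      exact ⟨rfl, ih _ _⟩
    · simp [Pre]

theorem trunc_eq {n : ℕ} {x : Site d} {u v : ℕ → Step d} (h : v ∈ Pre (trunc P n x u)) :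
    trunc P n x v = trunc P n x u := by
  induction n generalizing x u v with
  | zero => rfl
  | succ n ih =>
    simp only [trunc] at h ⊢
    split_ifs with hp
    · rw [if_pos hp, Pre_cons] at h
      have h0 : v 0 = u 0 := h.1
      rw [h0, ih h.2]
    · rfl

theorem trunc_preimage {n : ℕ} {x : Site d} {u : ℕ → Step d} :
    trunc P n x ⁻¹' {trunc P n x u} = Pre (trunc P n x u) := by
  ext v
  simp only [mem_preimage, mem_singleton_iff]
  exact ⟨fun h => h ▸ mem_Pre_trunc P n x v, trunc_eq P⟩

theorem mem_trace_trunc {n : ℕ} {x z : Site d} {u : ℕ → Step d} :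
    z ∈ trace x (trunc P n x u) ↔ ∃ i < n, path x u i = z ∧ ∀ i' ≤ i, P (path x u i') := by
  induction n generalizing x u with
  | zero => simp [trunc, trace]
  | succ n ih =>
    simp only [trunc]
    split_ifs with hp
    · simp only [trace, Finset.mem_insert, ih, ← path_succ']
      constructor
      · rintro (rfl | ⟨i, hi, h1, h2⟩)
        · exact ⟨0, by omega, path_zero _ _, fun i' hi' => by
            rw [Nat.le_zero.1 hi', path_zero]; exact hp⟩
        · refine ⟨i + 1, by omega, h1, fun i' hi' => ?_⟩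
          cases i' with
          | zero => rwa [path_zero]
          | succ i' => exact h2 i' (by omega)
      · rintro ⟨i, hi, h1, h2⟩
        cases i with
        | zero => left; rw [← h1, path_zero]
        | succ i => exact Or.inr ⟨i, by omega, h1, fun i' hi' => h2 (i' + 1) (by omega)⟩
    · simp only [trace, Finset.notMem_empty, false_iff]
      rintro ⟨i, -, -, h2⟩
      have h0 := h2 0 (Nat.zero_le i)
      rw [path_zero] at h0
      exact hp h0

theorem measurableSet_trunc_fibre (n : ℕ) (x : Site d) (s : Word d) :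
    MeasurableSet (trunc P n x ⁻¹' {s}) := by
  by_cases h : ∃ u, trunc P n x u = s
  · obtain ⟨u, rfl⟩ := h
    rw [trunc_preimage]
    exact measurableSet_Pre _
  · convert MeasurableSet.empty
    exact eq_empty_of_forall_notMem fun v hv => h ⟨v, hv⟩

end Trunc

/-- The walk reaches level `K` relative to its start. -/
def Reach (φ : Site d →+ ℤ) (K : ℤ) : Set (ℕ → Step d) := {u | ∃ n, K ≤ φ (path 0 u n)}

theorem measurableSet_Reach (φ : Site d →+ ℤ) (K : ℤ) : MeasurableSet (Reach φ K) := by
  simp only [Reach, ofPred_exists]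
  exact MeasurableSet.iUnion fun n =>
    ((measurable_pi_apply n).comp (measurable_path 0))
      (to_countable {z : Site d | K ≤ φ z}).measurableSet

theorem esc_shift_iff {φ : Site d →+ ℤ} {s : Word d} {u : ℕ → Step d} (h : u ∈ Pre s) :
    shiftSeq s.length u ∈ Esc φ ↔ u ∈ Esc φ := by
  have e : (fun k => φ (path 0 u (k + s.length))) =
      fun k => φ (disp s) + φ (path 0 (shiftSeq s.length u) k) := by
    funext k
    rw [add_comm k, path_shiftSeq h, path_eq_add, map_add, zero_add]
  simp only [Esc, mem_ofPred_eq]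
  rw [← tendsto_add_atTop_iff_nat (f := fun k => φ (path 0 u k)) s.length, e]
  constructor
  · exact fun h => tendsto_atTop_add_const_left _ _ h
  · intro h
    simpa using tendsto_atTop_add_const_left atTop (-φ (disp s)) h

theorem esc_subset_compl_esc_neg (φ : Site d →+ ℤ) : Esc φ ⊆ (Esc (-φ))ᶜ := by
  intro u h h'
  have hd := tendsto_atTop.1 h 1
  have hd' := tendsto_atTop.1 h' 1
  obtain ⟨n, h1, h2⟩ := (hd.and hd').exists
  simp only [AddMonoidHom.neg_apply] at h2
  omega

section Walk
variable [NeZero d]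

/-- A site from which escape fails with probability one half is hard to reach at high levels. -/
theorem hit_le {w : Env d} (hw : IsEnv w) (ψ : Site d →+ ℤ) (L : ℤ) (H : Set (Site d))
    (hH : ∀ z ∈ H, L ≤ ψ z ∧ 1 / 2 ≤ W w z (Esc ψ)ᶜ) (x : Site d) :
    W w x (hitEv H x) ≤ 2 * W w x (Reach ψ (L - ψ x) \ Esc ψ) := by
  set F : Set (Word d) := {s | x + disp s ∈ H ∧ ∀ k < s.length, x + disp (s.take k) ∉ H}
  set E : Word d → Set (ℕ → Step d) := fun s => Pre s ∩ shiftSeq s.length ⁻¹' (Esc ψ)ᶜ
  have hcov : hitEv H x ⊆ ⋃ s : F, Pre s.1 := by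
    classical
    intro u hu
    let m := Nat.find (show ∃ k, path x u k ∈ H from hu)
    let s : Word d := List.ofFn fun i : Fin m => u i
    have hlen : s.length = m := by simp [s]
    have hs : u ∈ Pre s := fun k hk => by simp [s]
    refine mem_iUnion.2 ⟨⟨s, ?_, fun k hk => ?_⟩, hs⟩
    · have h1 := path_pre hs x (le_refl s.length)
      rw [List.take_length] at h1
      rw [← h1, hlen]
      exact Nat.find_spec (show ∃ k, path x u k ∈ H from hu)
    · rw [← path_pre hs x hk.le]
      exact Nat.find_min (show ∃ k, path x u k ∈ H from hu) (hk.trans_eq hlen)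
  have hdis : Pairwise (Function.onFun Disjoint fun s : F => E s.1) := by
    intro s t hst
    refine Set.disjoint_left.2 fun u hu hu' => hst (Subtype.ext ?_)
    have key : ∀ {a b : Word d}, a ∈ F → b ∈ F → u ∈ Pre a → u ∈ Pre b → ¬ a.length < b.length := by
      intro a b ha hb hua hub hlt
      refine hb.2 a.length hlt ?_
      rw [← path_pre hub x hlt.le, path_pre hua x le_rfl, List.take_length]
      exact ha.1
    have hlen : s.1.length = t.1.length :=
      le_antisymm (not_lt.1 (key t.2 s.2 hu'.1 hu.1)) (not_lt.1 (key s.2 t.2 hu.1 hu'.1))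
    exact List.ext_getElem hlen fun k h1 h2 => (hu.1 k h1).symm.trans (hu'.1 k h2)
  have hmeas : ∀ s, MeasurableSet (E s) := fun s =>
    (measurableSet_Pre s).inter (measurable_shiftSeq _ (measurableSet_Esc _).compl)
  calc W w x (hitEv H x) ≤ ∑' s : F, W w x (Pre s.1) :=
        (measure_mono hcov).trans (measure_iUnion_le _)
    _ ≤ ∑' s : F, 2 * W w x (E s.1) := by
        refine ENNReal.tsum_le_tsum fun s => ?_
        simp only [E]
        rw [W_Pre hw, W_Pre_inter hw x _ (measurableSet_Esc _).compl, mul_left_comm]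
        refine le_mul_of_one_le_right' ?_
        calc (1 : ℝ≥0∞) = 2 * (1 / 2) := by
              rw [one_div, ENNReal.mul_inv_cancel (by norm_num) (by norm_num)]
          _ ≤ _ := by gcongr; exact (hH _ s.2.1).2
    _ = 2 * W w x (⋃ s : F, E s.1) := by
        rw [ENNReal.tsum_mul_left, measure_iUnion hdis fun s => hmeas s.1]
    _ ≤ _ := by
        gcongr
        refine iUnion_subset fun s u hu => ⟨⟨s.1.length, ?_⟩, fun h => hu.2 ?_⟩
        · rw [path_pre hu.1 0 le_rfl, List.take_length, zero_add]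
          have := (hH _ s.2.1).1
          rw [map_add] at this
          omega
        · exact (esc_shift_iff hu.1).2 h

variable {μ : Measure (Step d → ℝ)} {φ : Site d →+ ℤ}

/-- The annealed law of the step sequence, as a measure. -/
noncomputable def annLaw (μ : Measure (Step d → ℝ)) (x : Site d) : Measure (ℕ → Step d) :=
  (envLaw μ).bind fun w => W w x

theorem measurable_W_measure (x : Site d) : Measurable fun w : Env d => W w x :=
  Measure.measurable_of_measurable_coe _ fun _ hA => measurable_W x hA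

theorem annLaw_apply (x : Site d) {A : Set (ℕ → Step d)} (hA : MeasurableSet A) :
    annLaw μ x A = ann μ x A :=
  Measure.bind_apply hA (measurable_W_measure x).aemeasurable

variable [IsProbabilityMeasure μ]

instance (x : Site d) : IsProbabilityMeasure (annLaw μ x) :=
  ⟨by rw [annLaw_apply x MeasurableSet.univ, ann_univ]⟩

/-- The two walks meet in the band `[A, B)`. -/
def MeetBand (φ : Site d →+ ℤ) (x y : Site d) (A B : ℤ) :
    Set ((ℕ → Step d) × (ℕ → Step d)) :=
  {p | ∃ i j, path x p.1 i = path y p.2 j ∧ (∀ i' ≤ i, φ (path x p.1 i') < B) ∧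
    ∀ j' ≤ j, A ≤ φ (path y p.2 j')}

omit [NeZero d] [IsProbabilityMeasure μ] in
theorem measurableSet_MeetBand (x y : Site d) (A B : ℤ) : MeasurableSet (MeetBand φ x y A B) := by
  have hm : ∀ (a : Site d) (n : ℕ), Measurable fun u : ℕ → Step d => path a u n :=
    fun a n => (measurable_pi_apply n).comp (measurable_path a)
  simp only [MeetBand, ofPred_exists]
  refine MeasurableSet.iUnion fun i => MeasurableSet.iUnion fun j => ?_
  have h1 : MeasurableSet {p : (ℕ → Step d) × (ℕ → Step d) |
      ∀ i' ≤ i, φ (path x p.1 i') < B} := by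
    rw [show {p : (ℕ → Step d) × (ℕ → Step d) | ∀ i' ≤ i, φ (path x p.1 i') < B} =
      ⋂ i' ∈ Iic i, (fun p => path x p.1 i') ⁻¹' {z | φ z < B} by ext p; simp]
    exact MeasurableSet.biInter (to_countable _) fun i' _ =>
      ((hm x i').comp measurable_fst) (to_countable _).measurableSet
  have h2 : MeasurableSet {p : (ℕ → Step d) × (ℕ → Step d) |
      ∀ j' ≤ j, A ≤ φ (path y p.2 j')} := by
    rw [show {p : (ℕ → Step d) × (ℕ → Step d) | ∀ j' ≤ j, A ≤ φ (path y p.2 j')} =
      ⋂ j' ∈ Iic j, (fun p => path y p.2 j') ⁻¹' {z | A ≤ φ z} by ext p; simp]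
    exact MeasurableSet.biInter (to_countable _) fun j' _ =>
      ((hm y j').comp measurable_snd) (to_countable _).measurableSet
  exact MeasurableSet.inter (measurableSet_eq_fun ((hm x i).comp measurable_fst)
    ((hm y j).comp measurable_snd)) (MeasurableSet.inter h1 h2)

section Coupling

variable (P P' : Site d → Prop) [DecidablePred P] [DecidablePred P'] (n : ℕ) (x y : Site d)

/-- Both truncated words. -/
def trunc2 (p : (ℕ → Step d) × (ℕ → Step d)) : Word d × Word d :=
  (trunc P n x p.1, trunc P' n y p.2)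

/-- The truncated walks do not meet. -/
def noMeet : Set ((ℕ → Step d) × (ℕ → Step d)) :=
  {p | Disjoint (trace x (trunc P n x p.1)) (trace y (trunc P' n y p.2))}

/-- Pairs of words with disjoint traces. -/
def apart : Set (Word d × Word d) := {q | Disjoint (trace x q.1) (trace y q.2)}

omit [NeZero d] in
theorem trunc2_preimage (q : Word d × Word d) :
    trunc2 P P' n x y ⁻¹' {q} = (trunc P n x ⁻¹' {q.1}) ×ˢ (trunc P' n y ⁻¹' {q.2}) := by
  ext p; simp [trunc2, Prod.ext_iff]

omit [NeZero d] in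
theorem noMeet_eq : noMeet P P' n x y = trunc2 P P' n x y ⁻¹' apart x y := rfl

omit [NeZero d] in
theorem measurableSet_trunc2_fibre (q : Word d × Word d) :
    MeasurableSet (trunc2 P P' n x y ⁻¹' {q}) := by
  rw [trunc2_preimage]
  exact (measurableSet_trunc_fibre _ n x q.1).prod (measurableSet_trunc_fibre _ n y q.2)

omit [NeZero d] in
theorem measurableSet_noMeet : MeasurableSet (noMeet P P' n x y) := by
  rw [noMeet_eq, ← biUnion_preimage_singleton]
  exact MeasurableSet.biUnion (to_countable _) fun q _ => measurableSet_trunc2_fibre P P' n x y q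

theorem prod_noMeet_eq (w : Env d) : (W w x).prod (W w y) (noMeet P P' n x y) =
    ∑' q : apart x y, W w x (trunc P n x ⁻¹' {q.1.1}) * W w y (trunc P' n y ⁻¹' {q.1.2}) := by
  rw [noMeet_eq, ← tsum_measure_preimage_singleton (to_countable _)
    (fun q _ => measurableSet_trunc2_fibre P P' n x y q)]
  simp only [trunc2_preimage, Measure.prod_prod]

theorem measurable_prod_noMeet :
    Measurable fun w : Env d => (W w x).prod (W w y) (noMeet P P' n x y) := by
  simp only [prod_noMeet_eq]
  exact Measurable.tsum fun q =>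
    (measurable_W x (measurableSet_trunc_fibre _ n x q.1.1)).mul
      (measurable_W y (measurableSet_trunc_fibre _ n y q.1.2))

/-- Two independent walks meet as often as two walks in a common environment. -/
theorem annLaw_prod_compl_noMeet (hell : IsElliptic μ) :
    (annLaw μ x).prod (annLaw μ y) (noMeet P P' n x y)ᶜ =
      ∫⁻ w, (W w x).prod (W w y) (noMeet P P' n x y)ᶜ ∂envLaw μ := by
  have henv := ae_isEnv μ hell
  have hind : (annLaw μ x).prod (annLaw μ y) (noMeet P P' n x y) =
      ∫⁻ w, (W w x).prod (W w y) (noMeet P P' n x y) ∂envLaw μ := by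
    simp only [prod_noMeet_eq]
    rw [lintegral_tsum (f := fun (q : apart x y) (w : Env d) =>
        W w x (trunc P n x ⁻¹' {q.1.1}) * W w y (trunc P' n y ⁻¹' {q.1.2})) fun q =>
        ((measurable_W x (measurableSet_trunc_fibre _ n x q.1.1)).mul
          (measurable_W y (measurableSet_trunc_fibre _ n y q.1.2))).aemeasurable,
      noMeet_eq, ← tsum_measure_preimage_singleton (to_countable _)
        (fun q _ => measurableSet_trunc2_fibre P P' n x y q)]
    refine tsum_congr fun q => ?_
    rw [trunc2_preimage, Measure.prod_prod]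
    by_cases hu : (∃ u, trunc P n x u = q.1.1) ∧ ∃ v, trunc P' n y v = q.1.2
    · obtain ⟨⟨u, hu⟩, ⟨v, hv⟩⟩ := hu
      have hdq : Disjoint (trace x q.1.1) (trace y q.1.2) := q.2
      rw [← hu, ← hv] at hdq ⊢
      rw [trunc_preimage, trunc_preimage, annLaw_apply x (measurableSet_Pre _),
        annLaw_apply y (measurableSet_Pre _), ann_Pre henv, ann_Pre henv,
        lintegral_congr_ae (g := fun w => qw w x (trunc P n x u) * qw w y (trunc P' n y v))
          (henv.mono fun w hw => by simp only [W_Pre hw]),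
        lintegral_mul_dependsOn μ (Finset.disjoint_coe.2 hdq) (measurable_qw x _)
          (measurable_qw y _) (dependsOn_qw x _) (dependsOn_qw y _), lintegral_qw, lintegral_qw]
    · rcases not_and_or.1 hu with hu | hu
      · rw [show trunc P n x ⁻¹' {q.1.1} = ∅ from
          eq_empty_of_forall_notMem fun v hv => hu ⟨v, hv⟩]
        simp
      · rw [show trunc P' n y ⁻¹' {q.1.2} = ∅ from
          eq_empty_of_forall_notMem fun v hv => hu ⟨v, hv⟩]
        simp
  rw [prob_compl_eq_one_sub (measurableSet_noMeet P P' n x y),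
    lintegral_congr fun w => prob_compl_eq_one_sub (μ := (W w x).prod (W w y))
      (measurableSet_noMeet P P' n x y),
    lintegral_sub (measurable_prod_noMeet P P' n x y)
      (ne_top_of_le_ne_top ENNReal.one_ne_top
        ((lintegral_mono fun _ => prob_le_one).trans (by simp)))
      (Eventually.of_forall fun _ => prob_le_one), hind]
  simp

end Coupling

/-- In a common environment two walks rarely meet in a band. -/
theorem prod_compl_noMeet_le {w : Env d} (hw : IsEnv w) (n : ℕ) (x y : Site d) (A B : ℤ) :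
    (W w x).prod (W w y) (noMeet (fun z => φ z < B) (fun z => A ≤ φ z) n x y)ᶜ ≤
      2 * W w x (Reach φ (A - φ x) \ Esc φ) +
        2 * W w y (Reach (-φ) (1 - B + φ y) \ Esc (-φ)) := by
  set HX : Set (Site d) := {z | A ≤ φ z ∧ 1 / 2 ≤ W w z (Esc φ)ᶜ}
  set HY : Set (Site d) := {z | 1 - B ≤ (-φ) z ∧ 1 / 2 ≤ W w z (Esc (-φ))ᶜ}
  have hsub : (noMeet (fun z => φ z < B) (fun z => A ≤ φ z) n x y)ᶜ ⊆
      hitEv HX x ×ˢ univ ∪ univ ×ˢ hitEv HY y := by
    intro p hp
    obtain ⟨z, hz, hz'⟩ := Finset.not_disjoint_iff.1 hp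
    obtain ⟨i, -, h1, h2⟩ := (mem_trace_trunc _).1 hz
    obtain ⟨j, -, h1', h2'⟩ := (mem_trace_trunc _).1 hz'
    have hA : A ≤ φ z := h1' ▸ h2' j le_rfl
    have hB : φ z < B := h1 ▸ h2 i le_rfl
    by_cases hh : 1 / 2 ≤ W w z (Esc φ)ᶜ
    · exact Or.inl ⟨⟨i, by rw [h1]; exact ⟨hA, hh⟩⟩, mem_univ _⟩
    · refine Or.inr ⟨mem_univ _, ⟨j, ?_⟩⟩
      rw [h1']
      refine ⟨by simp only [AddMonoidHom.neg_apply]; omega, ?_⟩
      by_contra hh'
      have h3 : W w z (Esc φ) + W w z (Esc φ)ᶜ = 1 := prob_add_prob_compl (measurableSet_Esc _)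
      have h4 : W w z (Esc φ) < 1 / 2 :=
        (measure_mono (esc_subset_compl_esc_neg φ)).trans_lt (not_le.1 hh')
      have h5 := ENNReal.add_lt_add h4 (not_le.1 hh)
      rw [h3, ENNReal.add_halves] at h5
      exact lt_irrefl _ h5
  refine (measure_mono hsub).trans ((measure_union_le _ _).trans (add_le_add ?_ ?_))
  · rw [Measure.prod_prod, measure_univ, mul_one]
    exact hit_le hw φ A HX (fun z hz => hz) x
  · rw [Measure.prod_prod, measure_univ, one_mul]
    refine (hit_le hw (-φ) (1 - B) HY (fun z hz => hz) y).trans (le_of_eq ?_)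
    simp [sub_eq_add_neg]

/-- Independent walks meet in a band no more often than a walk fails to keep its direction. -/
theorem prod_meetBand_le (hell : IsElliptic μ) (x y : Site d) (A B : ℤ) :
    (annLaw μ x).prod (annLaw μ y) (MeetBand φ x y A B) ≤
      2 * (ann μ 0 (Reach φ (A - φ x) \ Esc φ) +
        ann μ 0 (Reach (-φ) (1 - B + φ y) \ Esc (-φ))) := by
  let N : ℕ → Set ((ℕ → Step d) × (ℕ → Step d)) := fun n =>
    (noMeet (fun z => φ z < B) (fun z => A ≤ φ z) n x y)ᶜ
  have hmono : Monotone N := by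
    intro a b hab p hp hpb
    refine hp (Finset.disjoint_left.2 fun z hz hz' => ?_)
    obtain ⟨i, hi, h1, h2⟩ := (mem_trace_trunc _).1 hz
    obtain ⟨j, hj, h1', h2'⟩ := (mem_trace_trunc _).1 hz'
    exact Finset.disjoint_left.1 hpb ((mem_trace_trunc _).2 ⟨i, hi.trans_le hab, h1, h2⟩)
      ((mem_trace_trunc _).2 ⟨j, hj.trans_le hab, h1', h2'⟩)
  have hcov : MeetBand φ x y A B ⊆ ⋃ n, N n := by
    rintro p ⟨i, j, h, h2, h2'⟩
    refine mem_iUnion.2 ⟨i + j + 1, fun hd => ?_⟩
    exact Finset.disjoint_left.1 hd ((mem_trace_trunc _).2 ⟨i, by omega, rfl, h2⟩)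
      ((mem_trace_trunc _).2 ⟨j, by omega, h.symm, h2'⟩)
  have hX := (measurableSet_Reach φ (A - φ x)).diff (measurableSet_Esc φ)
  have hY := (measurableSet_Reach (-φ) (1 - B + φ y)).diff (measurableSet_Esc (-φ))
  refine (measure_mono hcov).trans ?_
  rw [hmono.measure_iUnion, mul_add, ← ann_translate (μ := μ) x hX,
    ← ann_translate (μ := μ) y hY]
  refine iSup_le fun n => ?_
  simp only [N]
  rw [annLaw_prod_compl_noMeet _ _ n x y hell]
  simp only [ann]
  rw [← lintegral_const_mul _ (measurable_W x hX), ← lintegral_const_mul _ (measurable_W y hY),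
    ← lintegral_add_left ((measurable_W x hX).const_mul 2)]
  exact lintegral_mono_ae ((ae_isEnv μ hell).mono fun w hw => prod_compl_noMeet_le hw n x y A B)

omit [NeZero d] in
theorem reach_neg_eq (φ : Site d →+ ℤ) (C : ℤ) :
    Reach (-φ) (1 - C) = {v | ∃ n, φ (path 0 v n) < C} := by
  ext v
  simp only [Reach, mem_ofPred_eq, AddMonoidHom.neg_apply]
  exact exists_congr fun n => by omega

theorem forward_meet (μ : Measure (Step d → ℝ)) [IsProbabilityMeasure μ]
    (φ : Site d →+ ℤ) (hell : IsElliptic μ) (x y : Site d) (A B : ℤ) :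
    ∫⁻ u, ann μ y {v | ∃ i j, path x u i = path y v j ∧ (∀ i' ≤ i, φ (path x u i') < B) ∧
        (∀ j' ≤ j, A ≤ φ (path y v j'))}
        ∂((envLaw μ).bind fun w => W w x) ≤
      2 * (ann μ 0 ({u | ∃ n, A - φ x ≤ φ (path 0 u n)} \ Esc φ) +
        ann μ 0 ({v | ∃ n, φ (path 0 v n) < B - φ y} \ Esc (-φ))) := by
  have h := prod_meetBand_le (φ := φ) hell x y A B
  rw [Measure.prod_apply (measurableSet_MeetBand x y A B),
    show 1 - B + φ y = 1 - (B - φ y) by ring, reach_neg_eq] at h
  refine le_trans (le_of_eq (lintegral_congr fun u => ?_)) h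
  exact (annLaw_apply y (measurable_prodMk_left (measurableSet_MeetBand x y A B))).symm

omit [NeZero d] in
theorem pre_eq_of_seg {ψ : Site d →+ ℤ} {s t : Word d} (hs : IsSeg ψ s) (ht : IsSeg ψ t)
    (hh : ψ (disp s) = ψ (disp t)) {u : ℕ → Step d} (hu : u ∈ Pre s) (hu' : u ∈ Pre t) :
    s = t := by
  have key : ∀ {a b : Word d}, IsSeg ψ b → ψ (disp a) = ψ (disp b) → u ∈ Pre a → u ∈ Pre b →
      ¬ a.length < b.length := by
    intro a b hb hab hua hub hlt
    have e : disp (b.take a.length) = disp a := by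
      have h1 := path_pre hub (0 : Site d) hlt.le
      rw [path_pre hua (0 : Site d) le_rfl, List.take_length, zero_add, zero_add] at h1
      exact h1.symm
    have := (hb.2 a.length hlt).2
    rw [e, hab] at this
    exact lt_irrefl _ this
  have hlen : s.length = t.length :=
    le_antisymm (not_lt.1 (key hs hh.symm hu' hu)) (not_lt.1 (key ht hh hu hu'))
  exact List.ext_getElem hlen fun k h1 h2 => (hu k h1).symm.trans (hu' k h2)

theorem forward_segs (μ : Measure (Step d → ℝ)) [IsProbabilityMeasure μ]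
    (φ : Site d →+ ℤ) (hell : IsElliptic μ) (_hl : IsLevel φ) (z : Site d) (ℓ A B : ℕ)
    (hz : φ z = -(ℓ : ℤ)) (_hA : 1 ≤ A) (hBℓ : B ≤ ℓ) :
    ∑' p : {p : Word d × Word d // IsSeg φ p.1 ∧ IsSeg (-φ) p.2 ∧ φ (disp p.1) = (ℓ : ℤ) ∧
        φ (disp p.2) = -(ℓ : ℤ) ∧ ∃ i j, i ≤ p.1.length ∧ j ≤ p.2.length ∧
          z + disp (p.1.take i) = disp (p.2.take j) ∧
          (∀ i' ≤ i, φ z + φ (disp (p.1.take i')) ≤ -(A : ℤ)) ∧
          (∀ j' ≤ j, -(B : ℤ) ≤ φ (disp (p.2.take j')))}, wt μ p.1.1 * wt μ p.1.2 ≤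
      2 * (ann μ 0 ({u | ∃ n, ((ℓ - B : ℕ) : ℤ) ≤ φ (path 0 u n)} \ Esc φ) +
        ann μ 0 ({v | ∃ n, (A : ℤ) ≤ (-φ) (path 0 v n)} \ Esc (-φ))) := by
  have henv := ae_isEnv μ hell
  have h := prod_meetBand_le (φ := φ) hell z 0 (-(B : ℤ)) (1 - (A : ℤ))
  rw [map_zero, hz, show -(B : ℤ) - -(ℓ : ℤ) = ((ℓ - B : ℕ) : ℤ) by omega,
    show (1 : ℤ) - (1 - A) + 0 = A by ring] at h
  refine le_trans ?_ h
  calc _ = ∑' p : {p : Word d × Word d // IsSeg φ p.1 ∧ IsSeg (-φ) p.2 ∧
        φ (disp p.1) = (ℓ : ℤ) ∧ φ (disp p.2) = -(ℓ : ℤ) ∧ ∃ i j, i ≤ p.1.length ∧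
          j ≤ p.2.length ∧ z + disp (p.1.take i) = disp (p.2.take j) ∧
          (∀ i' ≤ i, φ z + φ (disp (p.1.take i')) ≤ -(A : ℤ)) ∧
          (∀ j' ≤ j, -(B : ℤ) ≤ φ (disp (p.2.take j')))},
        (annLaw μ z).prod (annLaw μ 0) (Pre p.1.1 ×ˢ Pre p.1.2) :=
        tsum_congr fun p => by
          rw [Measure.prod_prod, annLaw_apply z (measurableSet_Pre _),
            annLaw_apply 0 (measurableSet_Pre _), ann_Pre henv, ann_Pre henv]
    _ = (annLaw μ z).prod (annLaw μ 0) (⋃ p, Pre _ ×ˢ Pre _) := (measure_iUnion ?_ fun p =>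
        (measurableSet_Pre _).prod (measurableSet_Pre _)).symm
    _ ≤ _ := measure_mono ?_
  · intro p q hpq
    refine Set.disjoint_left.2 fun u hu hu' => hpq (Subtype.ext (Prod.ext ?_ ?_))
    · exact pre_eq_of_seg p.2.1 q.2.1 (p.2.2.2.1.trans q.2.2.2.1.symm) hu.1 hu'.1
    · refine pre_eq_of_seg p.2.2.1 q.2.2.1 ?_ hu.2 hu'.2
      simp only [AddMonoidHom.neg_apply, p.2.2.2.2.1, q.2.2.2.2.1]
  · refine iUnion_subset fun p u hu => ?_
    obtain ⟨-, -, -, -, i, j, hi, hj, he, hX, hY⟩ := p.2
    refine ⟨i, j, ?_, fun i' hi' => ?_, fun j' hj' => ?_⟩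
    · rw [path_pre hu.1 z hi, path_pre hu.2 0 hj, zero_add, he]
    · rw [path_pre hu.1 z (hi'.trans hi), map_add]
      have := hX i' hi'
      omega
    · rw [path_pre hu.2 0 (hj'.trans hj), zero_add]
      exact hY j' hj'

theorem tendsto_reach_diff (μ : Measure (Step d → ℝ)) [IsProbabilityMeasure μ]
    (φ : Site d →+ ℤ) (hell : IsElliptic μ) (hl : IsLevel φ) (ha : 0 < aUp μ φ) :
    Tendsto (fun K : ℕ => ann μ 0 ({u | ∃ n, (K : ℤ) ≤ φ (path 0 u n)} \ Esc φ)) atTop
      (nhds 0) := by
  have hm : ∀ K : ℕ, MeasurableSet (Reach φ K \ Esc φ) := fun K =>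
    (measurableSet_Reach φ _).diff (measurableSet_Esc _)
  have hanti : Antitone fun K : ℕ => Reach φ (K : ℤ) \ Esc φ := by
    intro a b hab u hu
    obtain ⟨⟨n, hn⟩, h⟩ := hu
    exact ⟨⟨n, le_trans (by exact_mod_cast hab) hn⟩, h⟩
  have h := tendsto_measure_iInter_atTop (μ := annLaw μ (0 : Site d))
    (fun K => (hm K).nullMeasurableSet) hanti ⟨0, measure_ne_top _ _⟩
  have he : ⋂ K : ℕ, Reach φ (K : ℤ) \ Esc φ = Unb φ \ Esc φ := by
    ext u
    simp only [mem_iInter, Set.mem_sdiff, Reach, Unb, mem_ofPred_eq]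
    constructor
    · intro h
      refine ⟨fun M => ?_, (h 0).2⟩
      obtain ⟨n, hn⟩ := (h M.toNat).1
      exact ⟨n, by omega⟩
    · exact fun h K => ⟨h.1 K, h.2⟩
  rw [he, annLaw_apply (0 : Site d) (he ▸ MeasurableSet.iInter hm),
    ann_unb_diff_esc μ φ hell hl ha] at h
  refine h.congr fun K => ?_
  exact annLaw_apply (0 : Site d) (hm K)

end Walk

end Vale.Agent.P147.Regen
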