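import Vale.Agent.P147.Regen.Common
import Vale.Agent.P147.Regen.Forward
import Vale.Agent.P147.Regen.AntiConcLaw

/-!
# Meetings in a band when the lateral increment is centred with a second moment

Both lateral positions at the first common cut below the band are then tight at the diffusive
scale, so a meeting costs the number of possible bottom positions, times the probability of each
buffer value, times the forward bound, which tends to zero.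
-/

namespace Vale.Agent.P147.Regen

open MeasureTheory Set Filter
open scoped ENNReal

variable {k : ℕ}

theorem eq_of_level_lat {ψ : Site (k + 1) →+ ℤ} {i₀ : Fin (k + 1)} (hi : ψ (stp (i₀, true)) ≠ 0)
    {x y : Site (k + 1)} (hlev : ψ x = ψ y) (hlat : lat i₀ x = lat i₀ y) : x = y := by
  have hstp : stp (i₀, true) = (Pi.single i₀ 1 : Site (k + 1)) := by simp [stp]
  have h1 : x - y = (x i₀ - y i₀) • stp (i₀, true) := by
    funext j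
    rcases Fin.eq_self_or_eq_succAbove i₀ j with rfl | ⟨j', rfl⟩
    · simp [hstp]
    · have := congrFun hlat j'
      simp only [lat, AddMonoidHom.coe_mk, ZeroHom.coe_mk] at this
      simp [hstp, Fin.succAbove_ne, this]
  have h2 := congrArg ψ h1
  rw [map_sub, hlev, sub_self, map_zsmul, smul_eq_mul] at h2
  have h3 : x i₀ - y i₀ = 0 := (mul_eq_zero.1 h2.symm).resolve_right hi
  rw [h3, zero_smul] at h1
  exact sub_eq_zero.1 h1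

variable (μ' : Measure (Step (k + 1) → ℝ)) [IsProbabilityMeasure μ'] (ψ : Site (k + 1) →+ ℤ)

/-- A tail bound for a coordinate of the lateral sum at a common cut. -/
theorem common_sum_tail (i₀ : Fin (k + 1)) (h : Hyp μ' ψ) (i : Fin k)
    (hv : Integrable (fun p => ((vlat i₀ p i : ℝ)) ^ 2) (pairLaw μ' ψ))
    (h0 : ∫ p, (vlat i₀ p i : ℝ) ∂pairLaw μ' ψ = 0) (ℓ : ℕ) {r : ℝ} (hr : 0 < r) :
    pairsLaw μ' ψ (CommonEv ψ ℓ {p | r ≤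
        |((lat i₀ (disp p.1) i + lat i₀ (disp p.2) i : ℤ) : ℝ)|}) ≤
      ENNReal.ofReal (ℓ * (∫ p, (vlat i₀ p i : ℝ) ^ 2 ∂pairLaw μ' ψ) / r ^ 2) := by
  classical
  have := isProbabilityMeasure_pairLaw μ' ψ h
  let c : ℕ → (ℕ → PairW (k + 1)) → ℝ := fun j ω => if height ψ ω j < (ℓ : ℤ) then 1 else 0
  have hcd : ∀ j, DependsOn (c j) (Iio j) := fun j x y hxy => by
    simp only [c, height_congr fun m hm => hxy m (mem_Iio.2 hm)]
  have hc : ∀ j, Measurable (c j) := fun j =>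
    Measurable.ite (measurableSet_of_dependsOn (A := {ω | height ψ ω j < (ℓ : ℤ)}) (n := j)
      fun x y hxy => by simp only [mem_ofPred_eq, height_congr fun m hm => hxy m (mem_Iio.2 hm)])
      measurable_const measurable_const
  refine le_trans (measure_mono_ae ?_)
    (stopped_tail (pairLaw μ' ψ) (measurable_of_countable fun p => (vlat i₀ p i : ℝ)) hv h0 c hc
      (fun j ω => by simp only [c]; split_ifs <;> simp) hcd ℓ hr)
  have hae : ∀ᵐ ω ∂pairsLaw μ' ψ, ∀ j, IsPair ψ (ω j) := ae_all_iff.2 fun j =>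
    (measurePreserving_eval_infinitePi (fun _ : ℕ => pairLaw μ' ψ) j).quasiMeasurePreserving.ae
      (ae_isPair μ' ψ)
  filter_upwards [hae] with ω hω
  rintro ⟨m, hm, hbig⟩
  have hmℓ : m ≤ ℓ := by have := le_height hω m; omega
  have hmono := strictMono_nat_of_lt_succ (height_lt_succ hω)
  show r ≤ |∑ j ∈ Finset.range ℓ, c j ω * (vlat i₀ (ω j) i : ℝ)|
  have hsum : ∑ j ∈ Finset.range ℓ, c j ω * (vlat i₀ (ω j) i : ℝ) =
      ∑ j ∈ Finset.range m, (vlat i₀ (ω j) i : ℝ) := by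
    rw [← Finset.sum_subset (s₁ := Finset.range m) (Finset.range_subset_range.2 hmℓ)
      (f := fun j => c j ω * (vlat i₀ (ω j) i : ℝ)) fun j _ hj => ?_]
    · refine Finset.sum_congr rfl fun j hj => ?_
      have := hmono (Finset.mem_range.1 hj)
      simp [c, show height ψ ω j < (ℓ : ℤ) by omega]
    · have := hmono.monotone (not_lt.1 fun hlt => hj (Finset.mem_range.2 hlt))
      simp [c, show ¬ height ψ ω j < (ℓ : ℤ) by omega]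
  rw [hsum]
  refine le_of_le_of_eq hbig ?_
  simp only [disp_xWord, disp_yWord, map_sum, Finset.sum_apply, vlat, map_add, Pi.add_apply,
    Int.cast_add, Int.cast_sum, Finset.sum_add_distrib]

/-- Each lateral displacement at a common cut is tight. -/
theorem exists_center_lat (i₀ : Fin (k + 1)) (h : Hyp μ' ψ) (i : Fin k)
    (hv : Integrable (fun p => ((vlat i₀ p i : ℝ)) ^ 2) (pairLaw μ' ψ))
    (h0 : ∫ p, (vlat i₀ p i : ℝ) ∂pairLaw μ' ψ = 0) {ℓ : ℕ} (hℓ : 1 ≤ ℓ) {r : ℝ} (hr : 0 < r) :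
    ∃ c : ℤ, pairsLaw μ' ψ (CommonEv ψ ℓ {p | r ≤ |((lat i₀ (disp p.1) i - c : ℤ) : ℝ)|}) ≤
      2 * ENNReal.ofReal (ℓ * ((∫ p, (vlat i₀ p i : ℝ) ^ 2 ∂pairLaw μ' ψ) + 1) / r ^ 2) /
        (aUp μ' ψ * aUp μ' (-ψ)) := by
  have hpos : 0 < (ℓ : ℝ) * ((∫ p, (vlat i₀ p i : ℝ) ^ 2 ∂pairLaw μ' ψ) + 1) / r ^ 2 := by
    have h1 : (0 : ℝ) < ℓ := by exact_mod_cast hℓ
    have h2 : 0 ≤ ∫ p, (vlat i₀ p i : ℝ) ^ 2 ∂pairLaw μ' ψ := integral_nonneg fun p => sq_nonneg _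
    positivity
  refine exists_center h hℓ (fun s => lat i₀ (disp s) i) (fun t => lat i₀ (disp t) i)
    (ENNReal.ofReal_pos.2 hpos).ne' ENNReal.ofReal_ne_top ?_
  refine (common_sum_tail μ' ψ i₀ h i hv h0 ℓ hr).trans (ENNReal.ofReal_le_ofReal ?_)
  gcongr
  linarith

/-- Weight of a contact near the top and far from the bottom, seen from the bottom `z`. -/
theorem common_meet_le (h : Hyp μ' ψ) (z : Site (k + 1)) (ℓ A B : ℕ) (hz : ψ z = -(ℓ : ℤ))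
    (hA : 1 ≤ A) (hℓ : 1 ≤ ℓ) (hBℓ : B ≤ ℓ) :
    pairsLaw μ' ψ (CommonEv ψ ℓ {p | ∃ i j, i ≤ p.1.length ∧ j ≤ p.2.length ∧
        z + disp (p.1.take i) = disp (p.2.take j) ∧
        (∀ i' ≤ i, ψ z + ψ (disp (p.1.take i')) ≤ -(A : ℤ)) ∧
        (∀ j' ≤ j, -(B : ℤ) ≤ ψ (disp (p.2.take j')))}) ≤
      2 * (ann μ' 0 ({u | ∃ n, ((ℓ - B : ℕ) : ℤ) ≤ ψ (path 0 u n)} \ Esc ψ) +
        ann μ' 0 ({v | ∃ n, (A : ℤ) ≤ (-ψ) (path 0 v n)} \ Esc (-ψ))) := by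
  rw [CommonEv, pairs_common μ' ψ h ℓ hℓ]
  exact forward_segs μ' ψ h.ell h.lev z ℓ A B hz hA hBℓ

theorem five_union_le {α : Type*} {m : MeasurableSpace α} (P : Measure α) {s₁ s₂ s₃ s₄ s₅ : Set α}
    {η x y : ℝ} (hη : 0 ≤ η) (hx : 0 ≤ x) (hy : 0 ≤ y) (h₁ : P s₁ ≤ ENNReal.ofReal (η / 5))
    (h₂ : P s₂ ≤ ENNReal.ofReal (η / 5)) (h₃ : P s₃ ≤ ENNReal.ofReal x)
    (h₄ : P s₄ ≤ ENNReal.ofReal y) (h₅ : P s₅ ≤ ENNReal.ofReal (η / 5)) (hxy : x + y ≤ η / 5) :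
    P (s₁ ∪ s₂ ∪ s₃ ∪ s₄ ∪ s₅) ≤ ENNReal.ofReal η := by
  have h := ((measure_union_le (μ := P) (s₁ ∪ s₂ ∪ s₃ ∪ s₄) s₅).trans (add_le_add
    ((measure_union_le _ _).trans (add_le_add ((measure_union_le _ _).trans (add_le_add
      ((measure_union_le _ _).trans (add_le_add h₁ h₂)) h₃)) h₄)) h₅))
  refine h.trans ?_
  rw [← ENNReal.ofReal_add (by positivity) (by positivity),
    ← ENNReal.ofReal_add (by positivity) hx, ← ENNReal.ofReal_add (by positivity) hy,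
    ← ENNReal.ofReal_add (by positivity) (by positivity)]
  exact ENNReal.ofReal_le_ofReal (by linarith)

theorem box_arith {n j R Am Q δ : ℝ} {k : ℕ} (hn : 1 ≤ n) (hAm : 0 ≤ Am) (hQ : 0 ≤ Q) (hδ : 0 ≤ δ)
    (hj0 : 0 ≤ j) (hj : n ≤ 2 * (j + 1)) (hR : R ≤ 2 * (Am * Real.sqrt n) + 1) (hR0 : 0 ≤ R) :
    (2 * R + 1) ^ k * (Q / (j + 1) ^ ((k : ℝ) / 2) * (4 * δ)) ≤
      (4 * Am + 4) ^ k * (Q * (2 : ℝ) ^ ((k : ℝ) / 2)) * (4 * δ) := by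
  have hs : 1 ≤ Real.sqrt n := Real.one_le_sqrt.2 hn
  have h1 : 2 * R + 1 ≤ (4 * Am + 4) * Real.sqrt n := by linarith
  have hpow : Real.sqrt n ^ k ≤ (2 : ℝ) ^ ((k : ℝ) / 2) * (j + 1) ^ ((k : ℝ) / 2) := by
    rw [Real.sqrt_eq_rpow, ← Real.rpow_natCast, ← Real.rpow_mul (by linarith),
      ← Real.mul_rpow zero_le_two (by positivity), one_div_mul_eq_div]
    exact Real.rpow_le_rpow (by linarith) hj (by positivity)
  calc (2 * R + 1) ^ k * (Q / (j + 1) ^ ((k : ℝ) / 2) * (4 * δ))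
      ≤ ((4 * Am + 4) * Real.sqrt n) ^ k * (Q / (j + 1) ^ ((k : ℝ) / 2) * (4 * δ)) := by gcongr
    _ = (4 * Am + 4) ^ k * (Q * (Real.sqrt n ^ k / (j + 1) ^ ((k : ℝ) / 2))) * (4 * δ) := by
        rw [mul_pow]; ring
    _ ≤ _ := by
        have : Real.sqrt n ^ k / (j + 1) ^ ((k : ℝ) / 2) ≤ (2 : ℝ) ^ ((k : ℝ) / 2) := by
          rw [div_le_iff₀ (by positivity)]; exact hpow
        gcongr

/-- The contacts seen from the bottom `z`: reached by the upward word before level `-A` and by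
the downward word before level `-B`. -/
def MeetSet (ψ : Site (k + 1) →+ ℤ) (A B : ℕ) (z : Site (k + 1)) :
    Set (Word (k + 1) × Word (k + 1)) :=
  {p | ∃ i j, i ≤ p.1.length ∧ j ≤ p.2.length ∧
      z + disp (p.1.take i) = disp (p.2.take j) ∧
      (∀ i' ≤ i, ψ z + ψ (disp (p.1.take i')) ≤ -(A : ℤ)) ∧
      (∀ j' ≤ j, -(B : ℤ) ≤ ψ (disp (p.2.take j')))}

/-- A meeting with bottom `z` and a prescribed relative offset. -/
def BottomEv (ψ : Site (k + 1) →+ ℤ) (i₀ : Fin (k + 1)) (w : Fin k → ℤ) (j A B ℓ : ℕ)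
    (z : Site (k + 1)) : Set (ℕ → PairW (k + 1)) :=
  ⋃ x : Fin k → ℤ, {ω | seqSum (vlat i₀) j ω = w - lat i₀ z - x} ∩
    (fun (ω : ℕ → PairW (k + 1)) i => ω (j + i)) ⁻¹'
      (CommonEv ψ ℓ (MeetSet ψ A B z ∩ {p | lat i₀ (disp p.1) = x}))

theorem bottomEv_le (i₀ : Fin (k + 1)) (h : Hyp μ' ψ) (w : Fin k → ℤ) (j A B ℓ : ℕ)
    (z : Site (k + 1)) {q : ℝ≥0∞} (hq : ∀ x, pairsLaw μ' ψ {ω | seqSum (vlat i₀) j ω = x} ≤ q) :
    pairsLaw μ' ψ (BottomEv ψ i₀ w j A B ℓ z) ≤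
      q * pairsLaw μ' ψ (CommonEv ψ ℓ (MeetSet ψ A B z)) := by
  classical
  have := isProbabilityMeasure_pairLaw μ' ψ h
  have hae : ∀ᵐ ω ∂pairsLaw μ' ψ, ∀ i, IsPair ψ (ω i) := ae_all_iff.2 fun i =>
    (measurePreserving_eval_infinitePi (fun _ : ℕ => pairLaw μ' ψ) i).quasiMeasurePreserving.ae
      (ae_isPair μ' ψ)
  have hAd : ∀ x, DependsOn
      (fun ω => ω ∈ {ω : ℕ → PairW (k + 1) | seqSum (vlat i₀) j ω = x}) (Iio j) :=
    fun x ω ω'' hxy => by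
      simp only [mem_ofPred_eq, seqSum]
      rw [Finset.sum_congr rfl fun m hm => by rw [hxy m (mem_Iio.2 (Finset.mem_range.1 hm))]]
  refine (measure_iUnion_le _).trans ?_
  calc ∑' x, pairsLaw μ' ψ ({ω | seqSum (vlat i₀) j ω = w - lat i₀ z - x} ∩
        (fun (ω : ℕ → PairW (k + 1)) i => ω (j + i)) ⁻¹'
          (CommonEv ψ ℓ (MeetSet ψ A B z ∩ {p | lat i₀ (disp p.1) = x})))
      ≤ ∑' x, q * pairsLaw μ' ψ
          (CommonEv ψ ℓ (MeetSet ψ A B z ∩ {p | lat i₀ (disp p.1) = x})) := by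
        refine ENNReal.tsum_le_tsum fun x => ?_
        refine le_of_eq_of_le (measure_past_inter_future (pairLaw μ' ψ) j
          (measurableSet_of_dependsOn (hAd _)) (hAd _) (measurableSet_common _ _)) ?_
        exact mul_le_mul' (hq _) le_rfl
    _ = q * pairsLaw μ' ψ
          (⋃ x, CommonEv ψ ℓ (MeetSet ψ A B z ∩ {p | lat i₀ (disp p.1) = x})) := by
        rw [ENNReal.tsum_mul_left, measure_iUnion₀ (fun x y hxy => ?_)
          fun x => (measurableSet_common _ _).nullMeasurableSet]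
        refine measure_mono_null (fun ω hω => ?_) (ae_iff.1 hae)
        intro hall
        obtain ⟨⟨n₁, e₁, -, f₁⟩, n₂, e₂, -, f₂⟩ := hω
        have : n₁ = n₂ := common_unique hall (e₁.trans e₂.symm)
        subst this
        exact hxy (f₁.symm.trans f₂)
    _ ≤ _ := by
        refine mul_le_mul' le_rfl (measure_mono (iUnion_subset fun x => ?_))
        rintro ω ⟨m, hm, hmem⟩
        exact ⟨m, hm, hmem.1⟩

/-- The buffer sum has diffusive tails. -/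
theorem buffer_tail (i₀ : Fin (k + 1)) (h : Hyp μ' ψ) (j : ℕ) {r S : ℝ} (hr : 0 < r)
    (hv : ∀ i, Integrable (fun p => ((vlat i₀ p i : ℝ)) ^ 2) (pairLaw μ' ψ))
    (h0 : ∀ i, ∫ p, (vlat i₀ p i : ℝ) ∂pairLaw μ' ψ = 0)
    (hS : ∀ i, ∫ p, (vlat i₀ p i : ℝ) ^ 2 ∂pairLaw μ' ψ ≤ S) :
    pairsLaw μ' ψ (⋃ i : Fin k, {ω | r ≤ |((seqSum (vlat i₀) j ω i : ℤ) : ℝ)|}) ≤
      ENNReal.ofReal ((k : ℝ) * (j * S / r ^ 2)) := by
  have := isProbabilityMeasure_pairLaw μ' ψ h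
  refine (measure_iUnion_fintype_le _ _).trans ?_
  refine (Finset.sum_le_card_nsmul _ _ (ENNReal.ofReal (j * S / r ^ 2)) fun i _ => ?_).trans
    (le_of_eq ?_)
  · refine (measure_mono fun ω hω => ?_).trans ((stopped_tail (pairLaw μ' ψ)
      (measurable_of_countable fun p => (vlat i₀ p i : ℝ)) (hv i) (h0 i) (fun _ _ => 1)
      (fun _ => measurable_const) (fun _ _ => Or.inr rfl) (fun _ _ _ _ => rfl) j hr).trans
      (ENNReal.ofReal_le_ofReal (div_le_div_of_nonneg_right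
        (mul_le_mul_of_nonneg_left (hS i) (Nat.cast_nonneg _)) (sq_nonneg r))))
    show r ≤ |∑ m ∈ Finset.range j, (1 : ℝ) * (vlat i₀ (ω m) i : ℝ)|
    simpa [seqSum, Finset.sum_apply] using hω
  · rw [Finset.card_univ, Fintype.card_fin, nsmul_eq_mul, ← ENNReal.ofReal_natCast,
      ← ENNReal.ofReal_mul (Nat.cast_nonneg _)]

/-- A meeting after the buffer is explained by one of five events. -/
theorem meet_cover (i₀ : Fin (k + 1))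
    {o : Site (k + 1)} (ho : ψ o = 0) {n j B M ℓ₀ A₀ R : ℕ} (hjn : j ≤ n) {r : ℝ}
    (hM : 4 * n - j + 1 ≤ M) (hBℓ : B < ℓ₀) (hR : 2 * r ≤ R) (c : ℕ → Fin k → ℤ)
    {ω : ℕ → PairW (k + 1)} (hω : ∀ i, IsPair ψ (ω i)) (hmeet : ω ∈ Meet o n (4 * n))
    (h1 : height ψ (shiftSeq j ω) M ≤ (B : ℤ))
    (h2 : ∃ m, (ℓ₀ : ℤ) ≤ height ψ (shiftSeq j ω) m ∧ height ψ (shiftSeq j ω) m ≤ ℓ₀ + A₀)
    (h3 : ∀ i, |((seqSum (vlat i₀) j ω i : ℤ) : ℝ)| < r)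
    (h4 : ∀ ℓ ∈ Finset.Icc ℓ₀ (ℓ₀ + A₀), ∀ i, shiftSeq j ω ∉
      CommonEv ψ ℓ {p | r ≤ |((lat i₀ (disp p.1) i - c ℓ i : ℤ) : ℝ)|}) :
    ∃ ℓ ∈ Finset.Icc ℓ₀ (ℓ₀ + A₀), ∃ z : Site (k + 1),
      (ψ z = -(ℓ : ℤ) ∧ lat i₀ z ∈ Fintype.piFinset fun i =>
        Finset.Icc (lat i₀ o i - c ℓ i - R) (lat i₀ o i - c ℓ i + R)) ∧
      ω ∈ BottomEv ψ i₀ (lat i₀ o) j (n - j) B ℓ z := by
  set ω' := shiftSeq j ω with hω'd
  have hω' : ∀ i, IsPair ψ (ω' i) := fun i => hω _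
  obtain ⟨m, hm1, hm2⟩ := h2
  set ℓ := (height ψ ω' m).toNat with hℓ
  have hmℓ : height ψ ω' m = (ℓ : ℤ) := by omega
  have hℓmem : ℓ ∈ Finset.Icc ℓ₀ (ℓ₀ + A₀) := Finset.mem_Icc.2 ⟨by omega, by omega⟩
  rw [show n = j + (n - j) by omega, show 4 * (j + (n - j)) = j + (4 * n - j) by omega,
    meet_shift] at hmeet
  set off := offAfter o ω j with hoff
  have hoff0 : ψ off = 0 := level_offAfter ho hω j
  have hBb : height ψ ω' (4 * n - j + 1) ≤ (B : ℤ) := (height_mono hω' hM).trans h1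
  obtain ⟨hz, hex⟩ := meet_word hω' hoff0 (A := ((n - j : ℕ) : ℤ)) (B := (B : ℤ)) (m := m) hmeet
    (le_height hω' (n - j)) hBb (by omega)
  set z := off - disp (xWord ω' m) with hzd
  have hlatz : lat i₀ z = lat i₀ o - seqSum (vlat i₀) j ω - lat i₀ (disp (xWord ω' m)) := by
    rw [hzd, map_sub, hoff, offAfter_eq, map_sub, map_sum]
    rfl
  refine ⟨ℓ, hℓmem, z, ⟨by rw [hz, hmℓ], Fintype.mem_piFinset.2 fun i => ?_⟩,
    mem_iUnion.2 ⟨lat i₀ (disp (xWord ω' m)), ?_, m, hmℓ, hex, rfl⟩⟩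
  · have hS := h3 i
    have hX : |((lat i₀ (disp (xWord ω' m)) i - c ℓ i : ℤ) : ℝ)| < r :=
      lt_of_not_ge fun hge => h4 ℓ hℓmem i ⟨m, hmℓ, hge⟩
    have hd : |((seqSum (vlat i₀) j ω i + (lat i₀ (disp (xWord ω' m)) i - c ℓ i) : ℤ) : ℝ)| ≤
        (R : ℝ) := by
      push_cast
      push_cast at hX
      linarith [abs_add_le ((seqSum (vlat i₀) j ω i : ℤ) : ℝ)
        ((lat i₀ (disp (xWord ω' m)) i : ℝ) - (c ℓ i : ℝ))]
    have hd' : |seqSum (vlat i₀) j ω i + (lat i₀ (disp (xWord ω' m)) i - c ℓ i)| ≤ (R : ℤ) := by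
      exact_mod_cast hd
    rw [abs_le] at hd'
    rw [Finset.mem_Icc, hlatz]
    simp only [Pi.sub_apply]
    omega
  · show seqSum (vlat i₀) j ω = lat i₀ o - lat i₀ z - lat i₀ (disp (xWord ω' m))
    rw [hlatz]; abel

/-- Tail of one lateral displacement at a common cut at depth of order `n`. -/
theorem center_bound (i₀ : Fin (k + 1)) (h : Hyp μ' ψ) (i : Fin k)
    (hv : Integrable (fun p => ((vlat i₀ p i : ℝ)) ^ 2) (pairLaw μ' ψ))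
    (h0 : ∫ p, (vlat i₀ p i : ℝ) ∂pairLaw μ' ψ = 0) {ℓ n : ℕ} (hℓ : 1 ≤ ℓ) (hn : 1 ≤ n)
    {D S Am : ℝ} (hD : (ℓ : ℝ) ≤ D * n) (hS : (∫ p, (vlat i₀ p i : ℝ) ^ 2 ∂pairLaw μ' ψ) + 1 ≤ S)
    (hAm : 0 < Am) :
    ∃ c : ℤ, pairsLaw μ' ψ (CommonEv ψ ℓ
        {p | Am * Real.sqrt n ≤ |((lat i₀ (disp p.1) i - c : ℤ) : ℝ)|}) ≤
      ENNReal.ofReal (2 * D * S * ((aUp μ' ψ * aUp μ' (-ψ))⁻¹).toReal / Am ^ 2) := by
  have hnR : (0 : ℝ) < n := by exact_mod_cast hn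
  obtain ⟨c, hc⟩ := exists_center_lat μ' ψ i₀ h i hv h0 hℓ (mul_pos hAm (Real.sqrt_pos.2 hnR))
  refine ⟨c, hc.trans ?_⟩
  have hHt : (aUp μ' ψ * aUp μ' (-ψ))⁻¹ ≠ ∞ :=
    ENNReal.inv_ne_top.2 (mul_ne_zero h.up.ne' h.down.ne')
  have h2 : 0 ≤ ∫ p, (vlat i₀ p i : ℝ) ^ 2 ∂pairLaw μ' ψ := integral_nonneg fun p => sq_nonneg _
  rw [div_eq_mul_inv, ← ENNReal.ofReal_toReal hHt, ← ENNReal.ofReal_ofNat,
    ← ENNReal.ofReal_mul zero_le_two, ← ENNReal.ofReal_mul (by positivity)]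
  refine ENNReal.ofReal_le_ofReal ?_
  rw [ENNReal.toReal_ofReal ENNReal.toReal_nonneg, mul_pow, Real.sq_sqrt hnR.le]
  set H := ((aUp μ' ψ * aUp μ' (-ψ))⁻¹).toReal with hH
  have hH0 : 0 ≤ H := ENNReal.toReal_nonneg
  have hD0 : 0 ≤ D := by
    have : (0 : ℝ) ≤ D * n := le_trans (Nat.cast_nonneg _) hD
    exact nonneg_of_mul_nonneg_left this hnR
  calc 2 * ((ℓ : ℝ) * ((∫ p, (vlat i₀ p i : ℝ) ^ 2 ∂pairLaw μ' ψ) + 1) / (Am ^ 2 * n)) * H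
      ≤ 2 * (D * n * S / (Am ^ 2 * n)) * H := by gcongr
    _ = 2 * D * S * H / Am ^ 2 := by field_simp

/-- All bottoms in a lateral box together. -/
theorem bottom_sum_le (i₀ : Fin (k + 1)) (h : Hyp μ' ψ) (hi : ψ (stp (i₀, true)) ≠ 0)
    (w : Fin k → ℤ) (ctr : Fin k → ℤ) (j A B ℓ R : ℕ) {q ε : ℝ≥0∞}
    (hq : ∀ x, pairsLaw μ' ψ {ω | seqSum (vlat i₀) j ω = x} ≤ q)
    (hε : ∀ z, ψ z = -(ℓ : ℤ) → pairsLaw μ' ψ (CommonEv ψ ℓ (MeetSet ψ A B z)) ≤ ε) :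
    pairsLaw μ' ψ (⋃ z ∈ {z : Site (k + 1) | ψ z = -(ℓ : ℤ) ∧ lat i₀ z ∈
        Fintype.piFinset fun i => Finset.Icc (ctr i - R) (ctr i + R)},
      BottomEv ψ i₀ w j A B ℓ z) ≤ (((2 * R + 1) ^ k : ℕ) : ℝ≥0∞) * (q * ε) := by
  classical
  set box := Fintype.piFinset fun i => Finset.Icc (ctr i - (R : ℤ)) (ctr i + R)
  set Z := {z : Site (k + 1) | ψ z = -(ℓ : ℤ) ∧ lat i₀ z ∈ box}
  have hinj : Set.InjOn (fun z => lat i₀ z) Z := fun x hx y hy hxy =>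
    eq_of_level_lat hi (hx.1.trans hy.1.symm) hxy
  have hfin : Z.Finite := Set.Finite.of_finite_image (f := fun z => lat i₀ z)
    (box.finite_toSet.subset (by rintro _ ⟨z, hz, rfl⟩; exact hz.2)) hinj
  rw [show (⋃ z ∈ Z, BottomEv ψ i₀ w j A B ℓ z) = ⋃ z ∈ hfin.toFinset, BottomEv ψ i₀ w j A B ℓ z
    by simp]
  refine (measure_biUnion_finset_le _ _).trans ?_
  refine (Finset.sum_le_card_nsmul _ _ (q * ε) fun z hz => ?_).trans ?_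
  · exact (bottomEv_le μ' ψ i₀ h w j A B ℓ z hq).trans
      (mul_le_mul' le_rfl (hε z (hfin.mem_toFinset.1 hz).1))
  · rw [nsmul_eq_mul]
    refine mul_le_mul' (Nat.cast_le.2 ?_) le_rfl
    refine (Finset.card_le_card_of_injOn (fun z => lat i₀ z) (t := box)
      (fun z hz => (hfin.mem_toFinset.1 hz).2) (by simpa using hinj)).trans ?_
    simp only [box, Fintype.card_piFinset, Int.card_Icc]
    refine le_of_eq ?_
    rw [Finset.prod_congr rfl fun i _ => (show _ = 2 * R + 1 by omega), Finset.prod_const,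
      Finset.card_univ, Fintype.card_fin]

theorem height_part (h : Hyp μ' ψ) (j : ℕ) {η : ℝ} (hη : 0 < η) {C₁ n : ℕ}
    (hC : 25 * ((aUp μ' ψ * aUp μ' (-ψ))⁻¹).toReal / η ≤ (C₁ : ℝ)) :
    pairsLaw μ' ψ ((fun (ω : ℕ → PairW (k + 1)) i => ω (j + i)) ⁻¹'
      {ω | ((C₁ * n : ℕ) : ℤ) < height ψ ω (5 * n)}) ≤ ENNReal.ofReal (η / 5) := by
  have := isProbabilityMeasure_pairLaw μ' ψ h
  have hHt : (aUp μ' ψ * aUp μ' (-ψ))⁻¹ ≠ ∞ :=
    ENNReal.inv_ne_top.2 (mul_ne_zero h.up.ne' h.down.ne')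
  set H : ℝ := ((aUp μ' ψ * aUp μ' (-ψ))⁻¹).toReal with hH
  have hH0 : 0 ≤ H := ENNReal.toReal_nonneg
  have hm : MeasurableSet {ω : ℕ → PairW (k + 1) | ((C₁ * n : ℕ) : ℤ) < height ψ ω (5 * n)} :=
    measurableSet_of_dependsOn (n := 5 * n) fun x y hxy => by
      simp only [mem_ofPred_eq, height_congr fun i hi => hxy i (mem_Iio.2 hi)]
  refine le_of_eq_of_le ((measurePreserving_shiftNat (pairLaw μ' ψ) j).measure_preimage
    hm.nullMeasurableSet) ?_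
  have h1 := height_markov h (5 * n) (C₁ * n)
  rw [mul_comm, ← ENNReal.le_div_iff_mul_le (Or.inl (by simp))
    (Or.inl (ENNReal.add_ne_top.2 ⟨ENNReal.natCast_ne_top _, ENNReal.one_ne_top⟩))] at h1
  refine h1.trans ?_
  rw [← ENNReal.ofReal_toReal hHt, ← hH, ← ENNReal.ofReal_natCast (5 * n),
    ← ENNReal.ofReal_natCast (C₁ * n), ← ENNReal.ofReal_one,
    ← ENNReal.ofReal_add (by positivity) zero_le_one, ← ENNReal.ofReal_mul (by positivity),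
    ← ENNReal.ofReal_div_of_pos (by positivity)]
  refine ENNReal.ofReal_le_ofReal ?_
  rw [div_le_iff₀ hη] at hC
  rw [div_le_iff₀ (by positivity)]
  push_cast
  have h4 := mul_le_mul_of_nonneg_right hC (n.cast_nonneg (α := ℝ))
  linarith

theorem overshoot_part (h : Hyp μ' ψ) (j ℓ₀ A₀ : ℕ) {e : ℝ≥0∞}
    (he : ∑' i, heightTail μ' ψ (i + A₀) ≤ e) :
    pairsLaw μ' ψ ((fun (ω : ℕ → PairW (k + 1)) i => ω (j + i)) ⁻¹'
      {ω | ¬ ∃ m, (ℓ₀ : ℤ) ≤ height ψ ω m ∧ height ψ ω m ≤ ℓ₀ + A₀}) ≤ e := by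
  have := isProbabilityMeasure_pairLaw μ' ψ h
  have hu : {ω : ℕ → PairW (k + 1) | ∃ m, (ℓ₀ : ℤ) ≤ height ψ ω m ∧ height ψ ω m ≤ ℓ₀ + A₀} =
      ⋃ m, {ω | (ℓ₀ : ℤ) ≤ height ψ ω m ∧ height ψ ω m ≤ ℓ₀ + A₀} := by ext ω; simp
  have hm : MeasurableSet {ω : ℕ → PairW (k + 1) |
      ∃ m, (ℓ₀ : ℤ) ≤ height ψ ω m ∧ height ψ ω m ≤ ℓ₀ + A₀} := by
    rw [hu]
    exact MeasurableSet.iUnion fun m => measurableSet_of_dependsOn (n := m) fun x y hxy => by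
      simp only [mem_ofPred_eq, height_congr fun i hi => hxy i (mem_Iio.2 hi)]
  refine le_of_eq_of_le ((measurePreserving_shiftNat (pairLaw μ' ψ) j).measure_preimage
    hm.compl.nullMeasurableSet) ((overshoot_le h A₀).trans he)

theorem bottom_part (i₀ : Fin (k + 1)) (h : Hyp μ' ψ) (hi : ψ (stp (i₀, true)) ≠ 0)
    (w : Fin k → ℤ) (c' : ℕ → Fin k → ℤ) {n j B ℓ₀ A₀ N₁ N₂ R : ℕ} {Q δ η Am : ℝ} (hQ0 : 0 ≤ Q)
    (hδ0 : 0 < δ) (hAm0 : 0 ≤ Am) (hn1 : 1 ≤ n) (hj : j = n / 2) (hBn : n ≤ B) (hℓ₀ : ℓ₀ = 2 * B)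
    (hn : 2 * (N₁ + N₂ + 1) ≤ n) (hR : R = ⌈2 * (Am * Real.sqrt n)⌉₊)
    (hQ : ∀ x, pairsLaw μ' ψ {ω | seqSum (vlat i₀) j ω = x} ≤
      ENNReal.ofReal (Q / ((j : ℝ) + 1) ^ ((k : ℝ) / 2)))
    (hN₁ : ∀ K ≥ N₁, ann μ' 0 ({u | ∃ m, (K : ℤ) ≤ ψ (path 0 u m)} \ Esc ψ) ≤ ENNReal.ofReal δ)
    (hN₂ : ∀ K ≥ N₂, ann μ' 0 ({v | ∃ m, (K : ℤ) ≤ (-ψ) (path 0 v m)} \ Esc (-ψ)) ≤
      ENNReal.ofReal δ)
    (hfinal : ((A₀ : ℝ) + 1) * ((4 * Am + 4) ^ k * (Q * (2 : ℝ) ^ ((k : ℝ) / 2)) * (4 * δ)) ≤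
      η / 5) :
    pairsLaw μ' ψ (⋃ ℓ ∈ Finset.Icc ℓ₀ (ℓ₀ + A₀),
      ⋃ z ∈ {z : Site (k + 1) | ψ z = -(ℓ : ℤ) ∧ lat i₀ z ∈ Fintype.piFinset fun i =>
        Finset.Icc (w i - c' ℓ i - R) (w i - c' ℓ i + R)},
      BottomEv ψ i₀ w j (n - j) B ℓ z) ≤ ENNReal.ofReal (η / 5) := by
  have hnR : (1 : ℝ) ≤ n := by exact_mod_cast hn1
  refine (measure_biUnion_finset_le _ _).trans ?_
  refine (Finset.sum_le_card_nsmul _ _
    (ENNReal.ofReal ((4 * Am + 4) ^ k * (Q * (2 : ℝ) ^ ((k : ℝ) / 2)) * (4 * δ)))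
    fun ℓ hℓ => ?_).trans ?_
  · rw [Finset.mem_Icc] at hℓ
    refine (bottom_sum_le μ' ψ i₀ h hi _ (fun i => w i - c' ℓ i) j (n - j) B ℓ R
      (q := ENNReal.ofReal (Q / ((j : ℝ) + 1) ^ ((k : ℝ) / 2))) (ε := ENNReal.ofReal (4 * δ))
      hQ fun z hz => ?_).trans ?_
    · refine (common_meet_le μ' ψ h z ℓ (n - j) B hz (by omega) (by omega) (by omega)).trans ?_
      refine le_trans (mul_le_mul' le_rfl
        (add_le_add (hN₁ (ℓ - B) (by omega)) (hN₂ (n - j) (by omega)))) (le_of_eq ?_)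
      rw [← ENNReal.ofReal_add hδ0.le hδ0.le, ← ENNReal.ofReal_ofNat,
        ← ENNReal.ofReal_mul zero_le_two]
      congr 1
      ring
    · rw [← ENNReal.ofReal_natCast, ← ENNReal.ofReal_mul (by positivity),
        ← ENNReal.ofReal_mul (by positivity)]
      refine ENNReal.ofReal_le_ofReal ?_
      push_cast
      exact box_arith hnR (by linarith) hQ0 (by positivity) (Nat.cast_nonneg _) (by
        have : n ≤ 2 * (j + 1) := by omega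
        exact_mod_cast this) (by
        have h1 : (R : ℝ) < 2 * (Am * Real.sqrt n) + 1 := hR ▸ Nat.ceil_lt_add_one (by positivity)
        exact h1.le) (Nat.cast_nonneg _)
  · rw [Nat.card_Icc, show ℓ₀ + A₀ + 1 - ℓ₀ = A₀ + 1 by omega, nsmul_eq_mul,
      ← ENNReal.ofReal_natCast, ← ENNReal.ofReal_mul (by positivity)]
    refine ENNReal.ofReal_le_ofReal ?_
    push_cast
    exact hfinal

theorem tail_arith {η Am S₂ H K₁ C₁ A₀ kk : ℝ} (hη : 0 < η) (hAm : Am = 5 * K₁ / η + 1)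
    (hAm1 : 1 ≤ Am) (hK₁ : K₁ = kk * S₂ + (A₀ + 1) * (kk * (2 * (2 * C₁ + A₀) * S₂ * H))) :
    kk * S₂ / Am ^ 2 + (A₀ + 1) * (kk * (2 * (2 * C₁ + A₀) * S₂ * H)) / Am ^ 2 ≤ η / 5 := by
  rw [← add_div, ← hK₁, div_le_iff₀ (by positivity)]
  have h1 : Am ≤ Am ^ 2 := by rw [pow_two]; exact le_mul_of_one_le_left (by linarith) hAm1
  have h2 : η / 5 * Am = K₁ + η / 5 := by rw [hAm]; field_simp
  have h3 := mul_le_mul_of_nonneg_left h1 (show (0 : ℝ) ≤ η / 5 by positivity)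
  linarith

theorem bandSmall_of_finite_variance (i₀ : Fin (k + 1)) (h : Hyp μ' ψ)
    (hi : ψ (stp (i₀, true)) ≠ 0)
    (hstar : ∀ j : Fin k, ∃ a b : PairW (k + 1), IsPair ψ a ∧ IsPair ψ b ∧
      vlat i₀ b = vlat i₀ a + Pi.single j 1)
    (hv : Integrable (fun p => ∑ i, ((vlat i₀ p i : ℝ)) ^ 2) (pairLaw μ' ψ))
    (h0 : ∀ i, ∫ p, (vlat i₀ p i : ℝ) ∂pairLaw μ' ψ = 0) : BandSmall μ' ψ := by
  classical
  have := isProbabilityMeasure_pairLaw μ' ψ h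
  have hvi : ∀ i, Integrable (fun p => ((vlat i₀ p i : ℝ)) ^ 2) (pairLaw μ' ψ) := fun i =>
    hv.mono' ((measurable_of_countable _).aestronglyMeasurable)
      (Eventually.of_forall fun p => by
        rw [Real.norm_eq_abs, abs_of_nonneg (sq_nonneg _)]
        exact Finset.single_le_sum (f := fun i => ((vlat i₀ p i : ℝ)) ^ 2)
          (fun j _ => sq_nonneg _) (Finset.mem_univ i))
  obtain ⟨Q, hQ0, hQ⟩ := exists_law_le (ν := pairLaw μ' ψ) (V := vlat i₀) fun j => by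
    obtain ⟨a, b, ha, hb, hab⟩ := hstar j
    refine ⟨a, b, ?_, ?_, hab⟩
    · rw [pairLaw_singleton μ' ha]
      exact ENNReal.mul_pos (wt_pos μ' h.ell _).ne' (wt_pos μ' h.ell _).ne'
    · rw [pairLaw_singleton μ' hb]
      exact ENNReal.mul_pos (wt_pos μ' h.ell _).ne' (wt_pos μ' h.ell _).ne'
  intro η hη
  set H : ℝ := ((aUp μ' ψ * aUp μ' (-ψ))⁻¹).toReal with hH
  have hH0 : 0 ≤ H := ENNReal.toReal_nonneg
  have hHt : (aUp μ' ψ * aUp μ' (-ψ))⁻¹ ≠ ∞ :=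
    ENNReal.inv_ne_top.2 (mul_ne_zero h.up.ne' h.down.ne')
  set S₂ : ℝ := (∑ i, ∫ p, (vlat i₀ p i : ℝ) ^ 2 ∂pairLaw μ' ψ) + 1 with hS₂
  have hσ : ∀ i, (∫ p, (vlat i₀ p i : ℝ) ^ 2 ∂pairLaw μ' ψ) + 1 ≤ S₂ := fun i => by
    have := Finset.single_le_sum (f := fun i => ∫ p, (vlat i₀ p i : ℝ) ^ 2 ∂pairLaw μ' ψ)
      (fun j _ => integral_nonneg fun p => sq_nonneg _) (Finset.mem_univ i)
    simp only [hS₂]; linarith
  have hS₂0 : 0 < S₂ := by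
    have : 0 ≤ ∑ i, ∫ p, (vlat i₀ p i : ℝ) ^ 2 ∂pairLaw μ' ψ :=
      Finset.sum_nonneg fun i _ => integral_nonneg fun p => sq_nonneg _
    linarith
  set C₁ : ℕ := ⌈25 * H / η⌉₊ + 1 with hC₁
  obtain ⟨A₀, hA₀⟩ := ((ENNReal.tendsto_sum_nat_add _ (tsum_heightTail_ne_top h)).eventually
    (Iic_mem_nhds (ENNReal.ofReal_pos.2 (show (0 : ℝ) < η / 5 by positivity)))).exists
  set K₁ : ℝ := k * S₂ + ((A₀ : ℝ) + 1) * (k * (2 * (2 * C₁ + A₀) * S₂ * H)) with hK₁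
  have hK₁0 : 0 ≤ K₁ := by positivity
  set Am : ℝ := 5 * K₁ / η + 1 with hAm
  have hAm1 : 1 ≤ Am := by
    have : 0 ≤ 5 * K₁ / η := by positivity
    linarith
  set K₂ : ℝ := ((A₀ : ℝ) + 1) * (4 * Am + 4) ^ k * (Q * (2 : ℝ) ^ ((k : ℝ) / 2)) * 4 with hK₂
  have hK₂0 : 0 ≤ K₂ := by positivity
  set δ : ℝ := η / (5 * (K₂ + 1)) with hδ
  have hδ0 : 0 < δ := by positivity
  obtain ⟨N₁, hN₁⟩ := eventually_atTop.1 ((tendsto_reach_diff μ' ψ h.ell h.lev h.up).eventually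
    (Iic_mem_nhds (ENNReal.ofReal_pos.2 hδ0)))
  obtain ⟨N₂, hN₂⟩ := eventually_atTop.1
    ((tendsto_reach_diff μ' (-ψ) h.ell (isLevel_neg h.lev) h.down).eventually
      (Iic_mem_nhds (ENNReal.ofReal_pos.2 hδ0)))
  refine ⟨2 * (N₁ + N₂ + 1), fun n hn o ho => ?_⟩
  have hn1 : 1 ≤ n := by omega
  have hnR : (1 : ℝ) ≤ n := by exact_mod_cast hn1
  set j := n / 2 with hj
  set B := C₁ * n with hB
  set ℓ₀ := 2 * B with hℓ₀
  have hBn : n ≤ B := Nat.le_mul_of_pos_left n (by omega)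
  set r : ℝ := Am * Real.sqrt n with hr
  have hr0 : 0 < r := mul_pos (by linarith) (Real.sqrt_pos.2 (by linarith))
  choose c hc using fun (ℓ : Finset.Icc ℓ₀ (ℓ₀ + A₀)) (i : Fin k) =>
    center_bound μ' ψ i₀ h i (hvi i) (h0 i) (ℓ := ℓ.1) (n := n)
      (by have := Finset.mem_Icc.1 ℓ.2; omega) hn1 (D := 2 * C₁ + A₀)
      (by
        have h1 : ℓ.1 ≤ (2 * C₁ + A₀) * n := by
          have := Finset.mem_Icc.1 ℓ.2
          have h2 : A₀ ≤ A₀ * n := Nat.le_mul_of_pos_right _ hn1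
          rw [Nat.add_mul, Nat.mul_assoc]
          omega
        exact_mod_cast h1) (hσ i) (Am := Am) (by linarith)
  let c' : ℕ → Fin k → ℤ := fun ℓ i =>
    if hℓ : ℓ ∈ Finset.Icc ℓ₀ (ℓ₀ + A₀) then c ⟨ℓ, hℓ⟩ i else 0
  set R : ℕ := ⌈2 * r⌉₊ with hR
  let sh : (ℕ → PairW (k + 1)) → (ℕ → PairW (k + 1)) := fun ω i => ω (j + i)
  have hshift : ∀ {S : Set (ℕ → PairW (k + 1))}, MeasurableSet S →
      pairsLaw μ' ψ (sh ⁻¹' S) = pairsLaw μ' ψ S :=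
    fun hS => (measurePreserving_shiftNat (pairLaw μ' ψ) j).measure_preimage hS.nullMeasurableSet
  let G₁ : Set (ℕ → PairW (k + 1)) := sh ⁻¹' {ω | (B : ℤ) < height ψ ω (5 * n)}
  let G₂ : Set (ℕ → PairW (k + 1)) :=
    sh ⁻¹' {ω | ¬ ∃ m, (ℓ₀ : ℤ) ≤ height ψ ω m ∧ height ψ ω m ≤ ℓ₀ + A₀}
  let G₃ : Set (ℕ → PairW (k + 1)) :=
    ⋃ i : Fin k, {ω | r ≤ |((seqSum (vlat i₀) j ω i : ℤ) : ℝ)|}
  let G₄ : Set (ℕ → PairW (k + 1)) := ⋃ ℓ ∈ Finset.Icc ℓ₀ (ℓ₀ + A₀), ⋃ i : Fin k,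
    sh ⁻¹' CommonEv ψ ℓ {p | r ≤ |((lat i₀ (disp p.1) i - c' ℓ i : ℤ) : ℝ)|}
  let G₅ : Set (ℕ → PairW (k + 1)) := ⋃ ℓ ∈ Finset.Icc ℓ₀ (ℓ₀ + A₀),
    ⋃ z ∈ {z : Site (k + 1) | ψ z = -(ℓ : ℤ) ∧ lat i₀ z ∈ Fintype.piFinset fun i =>
        Finset.Icc (lat i₀ o i - c' ℓ i - R) (lat i₀ o i - c' ℓ i + R)},
      BottomEv ψ i₀ (lat i₀ o) j (n - j) B ℓ z
  have hsub : pairsLaw μ' ψ (Meet o n (4 * n)) ≤
      pairsLaw μ' ψ (G₁ ∪ G₂ ∪ G₃ ∪ G₄ ∪ G₅) := by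
    refine measure_mono_ae ?_
    have hae : ∀ᵐ ω ∂pairsLaw μ' ψ, ∀ i, IsPair ψ (ω i) := ae_all_iff.2 fun i =>
      (measurePreserving_eval_infinitePi (fun _ : ℕ => pairLaw μ' ψ) i).quasiMeasurePreserving.ae
        (ae_isPair μ' ψ)
    filter_upwards [hae] with ω hω hmeet
    show ω ∈ G₁ ∪ G₂ ∪ G₃ ∪ G₄ ∪ G₅
    by_contra hne
    simp only [mem_union, not_or] at hne
    obtain ⟨⟨⟨⟨h1, h2⟩, h3⟩, h4⟩, h5⟩ := hne
    obtain ⟨ℓ, hℓ, z, hz, hmem⟩ := meet_cover ψ i₀ ho (j := j) (B := B) (M := 5 * n) (ℓ₀ := ℓ₀)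
      (A₀ := A₀) (R := R) (Nat.div_le_self n 2) (by omega) (by omega) (Nat.le_ceil _) c' hω hmeet
      (not_lt.1 h1) (not_not.1 h2) (fun i => lt_of_not_ge fun hge => h3 (mem_iUnion.2 ⟨i, hge⟩))
      (fun ℓ hℓ i hbad => h4 (mem_iUnion₂.2 ⟨ℓ, hℓ, mem_iUnion.2 ⟨i, hbad⟩⟩))
    exact h5 (mem_iUnion₂.2 ⟨ℓ, hℓ, mem_iUnion₂.2 ⟨z, hz, hmem⟩⟩)
  have hG₁ : pairsLaw μ' ψ G₁ ≤ ENNReal.ofReal (η / 5) :=
    height_part μ' ψ h j hη (C₁ := C₁) (n := n) (by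
      simp only [hC₁, ← hH]; push_cast
      exact (Nat.le_ceil _).trans (by linarith))
  have hG₂ : pairsLaw μ' ψ G₂ ≤ ENNReal.ofReal (η / 5) := overshoot_part μ' ψ h j ℓ₀ A₀ hA₀
  have hG₃ : pairsLaw μ' ψ G₃ ≤ ENNReal.ofReal ((k : ℝ) * S₂ / Am ^ 2) := by
    refine (buffer_tail μ' ψ i₀ h j hr0 hvi h0 (S := S₂) fun i => by linarith [hσ i]).trans
      (ENNReal.ofReal_le_ofReal ?_)
    rw [hr, mul_pow, Real.sq_sqrt (by linarith)]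
    have h1 : (j : ℝ) ≤ n := by exact_mod_cast Nat.div_le_self n 2
    calc (k : ℝ) * ((j : ℝ) * S₂ / (Am ^ 2 * n)) ≤ (k : ℝ) * ((n : ℝ) * S₂ / (Am ^ 2 * n)) := by
          gcongr
      _ = (k : ℝ) * S₂ / Am ^ 2 := by field_simp
  have hG₄ : pairsLaw μ' ψ G₄ ≤
      ENNReal.ofReal (((A₀ : ℝ) + 1) * (k * (2 * (2 * C₁ + A₀) * S₂ * H)) / Am ^ 2) := by
    refine (measure_biUnion_finset_le _ _).trans ?_
    refine (Finset.sum_le_card_nsmul _ _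
      (ENNReal.ofReal (k * (2 * (2 * C₁ + A₀) * S₂ * H / Am ^ 2))) fun ℓ hℓ => ?_).trans
      (le_of_eq ?_)
    · refine (measure_iUnion_fintype_le _ _).trans ((Finset.sum_le_card_nsmul _ _
        (ENNReal.ofReal (2 * (2 * C₁ + A₀) * S₂ * H / Am ^ 2)) fun i _ => ?_).trans (le_of_eq ?_))
      · rw [hshift (measurableSet_common _ _)]
        simp only [c', dif_pos hℓ]
        exact hc ⟨ℓ, hℓ⟩ i
      · rw [Finset.card_univ, Fintype.card_fin, nsmul_eq_mul, ← ENNReal.ofReal_natCast,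
          ← ENNReal.ofReal_mul (by positivity)]
    · rw [Nat.card_Icc, show ℓ₀ + A₀ + 1 - ℓ₀ = A₀ + 1 by omega, nsmul_eq_mul,
        ← ENNReal.ofReal_natCast, ← ENNReal.ofReal_mul (by positivity)]
      congr 1
      push_cast
      ring
  have hG₅ : pairsLaw μ' ψ G₅ ≤ ENNReal.ofReal (η / 5) := by
    refine bottom_part μ' ψ i₀ h hi (lat i₀ o) c' hQ0 hδ0 (by linarith) hn1 hj hBn hℓ₀ hn rfl
      (fun x => hQ j x) hN₁ hN₂ ?_
    calc ((A₀ : ℝ) + 1) * ((4 * Am + 4) ^ k * (Q * (2 : ℝ) ^ ((k : ℝ) / 2)) * (4 * δ))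
        = K₂ * δ := by simp only [hK₂]; ring
      _ ≤ η / 5 := by
          simp only [hδ]
          rw [mul_div_assoc', div_le_div_iff₀ (by positivity) (by norm_num)]
          linarith
  exact hsub.trans (five_union_le _ hη.le (by positivity) (by positivity) hG₁ hG₂ hG₃ hG₄ hG₅
    (tail_arith hη hAm hAm1 hK₁))

end Vale.Agent.P147.Regen
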