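import Vale.Agent.P147.Regen.Criterion

/-!
# A drift of the lateral increment contradicts the budget

If the lateral increments of the pairs have a nonzero mean, the offset after `i` pairs grows
linearly while the pairs have `o(i)` steps, so a far offset in the direction of the drift is
never met: the avoidance probabilities are bounded below, and their sum is infinite.
-/

namespace Vale.Agent.P147.Regen

open MeasureTheory ProbabilityTheory Set Filter
open scoped ENNReal Topology

variable {d : ℕ}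

theorem abs_disp_le (g : Site d →+ ℤ) {L : ℤ} (hg : ∀ e, |g (stp e)| ≤ L) (s : Word d) :
    |g (disp s)| ≤ L * s.length := by
  induction s with
  | nil => simp [disp]
  | cons e s ih =>
    rw [disp_cons, map_add, List.length_cons, Nat.cast_succ]
    calc |g (stp e) + g (disp s)| ≤ |g (stp e)| + |g (disp s)| := abs_add_le _ _
      _ ≤ L + L * s.length := add_le_add (hg e) ih
      _ = _ := by ring

theorem abs_trace_le (g : Site d →+ ℤ) {L : ℤ} (hL : 0 ≤ L) (hg : ∀ e, |g (stp e)| ≤ L)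
    {x z : Site d} {s : Word d} (hz : z ∈ trace x s) : |g z - g x| ≤ L * s.length := by
  obtain ⟨j, hj, rfl⟩ := mem_trace.1 hz
  rw [map_add, add_sub_cancel_left]
  refine (abs_disp_le g hg _).trans (mul_le_mul_of_nonneg_left ?_ hL)
  rw [List.length_take]
  exact_mod_cast min_le_right _ _

/-- The number of steps of a pair. -/
def pairLen (p : PairW d) : ℕ := p.1.length + p.2.length

/-- A far offset in a good direction is never met. -/
theorem avoidTop_of_far {φ g : Site d →+ ℤ} {L : ℤ} (hL : 0 ≤ L) (hg : ∀ e, |g (stp e)| ≤ L)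
    {o : Site d} (ho : φ o = 0) {ω : ℕ → PairW d} (hω : ∀ i, IsPair φ (ω i))
    (hfar : ∀ i, 2 * L * ((pairLen (ω i) : ℤ) + pairLen (ω (i + 1))) <
      |g o - ∑ l ∈ Finset.range i, g (disp (ω l).1 + disp (ω l).2)|) (n : ℕ) :
    ω ∈ AvoidTop o n := by
  have hD : ∀ i, g (xTop o ω i) - g (yTop 0 ω i) =
      g o - ∑ l ∈ Finset.range i, g (disp (ω l).1 + disp (ω l).2) := fun i => by
    simp only [xTop, yTop, map_sub, map_sum, map_add, zero_add, Finset.sum_add_distrib]
    ring
  refine ⟨Finset.disjoint_left.2 fun z hx hy => ?_, fun hy => ?_⟩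
  · obtain ⟨i, -, -, hzi⟩ := mem_xSites.1 hx
    obtain ⟨j, -, -, hzj⟩ := mem_ySites.1 hy
    have h1 := abs_trace_le g hL hg hzi
    have h2 := abs_trace_le g hL hg hzj
    have h3 := abs_disp_le g hg (ω i).1
    have h5 := hfar i
    rw [← hD i] at h5
    have e1 : g (xTop o ω (i + 1)) = g (xTop o ω i) - g (disp (ω i).1) := by
      rw [xTop_succ, map_sub]
    have p1 : 0 ≤ L * (ω i).1.length := mul_nonneg hL (Nat.cast_nonneg _)
    have p2 : 0 ≤ L * (ω i).2.length := mul_nonneg hL (Nat.cast_nonneg _)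
    have p3 : 0 ≤ L * (ω (i + 1)).1.length := mul_nonneg hL (Nat.cast_nonneg _)
    have p4 : 0 ≤ L * (ω (i + 1)).2.length := mul_nonneg hL (Nat.cast_nonneg _)
    simp only [pairLen, Nat.cast_add] at h5
    rcases pair_index_of_contact ho hω hzi hzj with rfl | rfl
    · rw [abs_le] at h1 h2 h3
      rcases lt_abs.1 h5 with h | h <;> linarith
    · have e2 : g (yTop 0 ω (i + 1)) = g (yTop 0 ω i) + g (disp (ω i).2) := by
        rw [yTop_succ, map_add]
      have h4 := abs_disp_le g hg (ω i).2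
      rw [abs_le] at h1 h2 h3 h4
      rcases lt_abs.1 h5 with h | h <;> linarith
  · obtain ⟨j, -, -, hzj⟩ := mem_ySites.1 hy
    have h2 := level_yPair hω hzj
    simp only [ho, map_zero] at h2
    have h6 := le_height hω j
    obtain rfl : j = 0 := by omega
    have h1 := abs_trace_le g hL hg hzj
    have h5 := hfar 0
    have p1 : 0 ≤ L * (ω 0).1.length := mul_nonneg hL (Nat.cast_nonneg _)
    have p2 : 0 ≤ L * (ω 0).2.length := mul_nonneg hL (Nat.cast_nonneg _)
    have p3 : 0 ≤ L * (ω (0 + 1)).1.length := mul_nonneg hL (Nat.cast_nonneg _)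
    have p4 : 0 ≤ L * (ω (0 + 1)).2.length := mul_nonneg hL (Nat.cast_nonneg _)
    simp only [pairLen, Nat.cast_add, Finset.range_zero, Finset.sum_empty, sub_zero] at h5
    simp only [yTop, Finset.range_zero, Finset.sum_empty, add_zero, map_zero, sub_zero] at h1
    linarith

/-- The strong law for a function of the coordinates of an iid sequence. -/
theorem ae_tendsto_average {α : Type*} [MeasurableSpace α] (ν : Measure α)
    [IsProbabilityMeasure ν] {f : α → ℝ} (hf : Measurable f) (hi : Integrable f ν) :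
    ∀ᵐ ω ∂(Measure.infinitePi fun _ : ℕ => ν),
      Tendsto (fun n : ℕ => (∑ i ∈ Finset.range n, f (ω i)) / n) atTop (𝓝 (∫ a, f a ∂ν)) := by
  have hm : ∀ i : ℕ, (Measure.infinitePi fun _ : ℕ => ν).map (fun ω => f (ω i)) = ν.map f := by
    intro i
    rw [show (fun ω : ℕ → α => f (ω i)) = f ∘ fun ω => ω i from rfl,
      ← Measure.map_map hf (measurable_pi_apply i), Measure.infinitePi_map_eval]
  have hind : iIndepFun (fun i (ω : ℕ → α) => f (ω i)) (Measure.infinitePi fun _ : ℕ => ν) :=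
    iIndepFun_infinitePi (X := fun _ => f) fun _ => hf
  have hint : Integrable (fun ω : ℕ → α => f (ω 0)) (Measure.infinitePi fun _ : ℕ => ν) := by
    refine (Integrable.comp_measurable (g := f) ?_ (measurable_pi_apply 0))
    rwa [Measure.infinitePi_map_eval]
  have h := strong_law_ae_real (fun i (ω : ℕ → α) => f (ω i)) hint
    (fun i j hij => hind.indepFun hij) fun i =>
      ⟨(hf.comp (measurable_pi_apply i)).aemeasurable,
        (hf.comp (measurable_pi_apply 0)).aemeasurable, by rw [hm, hm]⟩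
  have e : ∫ ω, f (ω 0) ∂(Measure.infinitePi fun _ : ℕ => ν) = ∫ a, f a ∂ν := by
    conv_rhs => rw [← Measure.infinitePi_map_eval (fun _ : ℕ => ν) 0,
      integral_map (measurable_pi_apply 0).aemeasurable hf.aestronglyMeasurable]
  simpa [e] using h

/-- A linearly growing sum dominates the individual terms of a convergent average. -/
theorem exists_bound_of_tendsto {D S : ℕ → ℝ} {m c κ : ℝ} (hm : 0 < m)
    (hD : Tendsto (fun n : ℕ => D n / n) atTop (𝓝 m))
    (hS : Tendsto (fun n : ℕ => S n / n) atTop (𝓝 c)) :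
    ∃ T : ℕ, ∀ i, κ * (S (i + 2) - S i) - D i ≤ T := by
  have h2 : Tendsto (fun n : ℕ => S (n + 2) / n) atTop (𝓝 c) := by
    have h1 := hS.comp (tendsto_add_atTop_nat 2)
    have h3 : Tendsto (fun n : ℕ => ((n : ℝ) + 2) / n) atTop (𝓝 1) := by
      have h4 := (tendsto_const_div_atTop_nhds_zero_nat (2 : ℝ)).const_add 1
      rw [add_zero] at h4
      refine h4.congr' ((eventually_gt_atTop 0).mono fun n hn => ?_)
      have : (0 : ℝ) < n := by exact_mod_cast hn
      field_simp
    have h5 := h1.mul h3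
    rw [mul_one] at h5
    refine h5.congr' ((eventually_gt_atTop 0).mono fun n hn => ?_)
    have : (0 : ℝ) < n := by exact_mod_cast hn
    simp only [Function.comp_apply]
    push_cast
    field_simp
  have h6 := (((h2.sub hS).const_mul κ).sub hD)
  rw [sub_self, mul_zero, zero_sub] at h6
  obtain ⟨N, hN⟩ := eventually_atTop.1 (h6.eventually_le_const (neg_lt_zero.2 hm))
  obtain ⟨T, hT⟩ := exists_nat_ge
    (∑ i ∈ Finset.range (N + 1), |κ * (S (i + 2) - S i) - D i|)
  refine ⟨T, fun i => ?_⟩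
  rcases Nat.lt_or_ge i (N + 1) with h | h
  · exact (le_abs_self _).trans ((Finset.single_le_sum
      (f := fun i => |κ * (S (i + 2) - S i) - D i|) (fun _ _ => abs_nonneg _)
      (Finset.mem_range.2 h)).trans hT)
  · have hi : (0 : ℝ) < i := by exact_mod_cast (by omega : 0 < i)
    have h7 := hN i (by omega)
    rw [show κ * (S (i + 2) / i - S i / i) - D i / i = (κ * (S (i + 2) - S i) - D i) / i by
      ring, div_le_iff₀ hi, zero_mul] at h7
    exact h7.trans (Nat.cast_nonneg _)

section drift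

variable {k : ℕ} (μ' : Measure (Step (k + 1) → ℝ)) [IsProbabilityMeasure μ']
  (ψ : Site (k + 1) →+ ℤ) (i₀ : Fin (k + 1))

/-- An integer combination of lateral coordinates which sees both a given drift and a given
nonzero lateral vector. -/
theorem exists_combination {w : Fin k → ℤ} (hw : w ≠ 0) {m : Fin k → ℝ} {i : Fin k}
    (hm : m i ≠ 0) :
    ∃ a : Fin k → ℤ, (∑ l, a l * w l) ≠ 0 ∧ (∑ l, (a l : ℝ) * m l) ≠ 0 := by
  by_cases hwi : w i = 0
  · obtain ⟨j, hj⟩ := Function.ne_iff.1 hw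
    have hsum : ∀ t : ℤ, (∑ l, (Pi.single i t + Pi.single j 1 : Fin k → ℤ) l * w l) = w j := by
      intro t
      simp [Pi.single_apply, add_mul, Finset.sum_add_distrib, hwi]
    have hsum' : ∀ t : ℤ, (∑ l, ((Pi.single i t + Pi.single j 1 : Fin k → ℤ) l : ℝ) * m l) =
        t * m i + m j := by
      intro t
      simp [Pi.single_apply, add_mul, Finset.sum_add_distrib, apply_ite (Int.cast : ℤ → ℝ)]
    by_cases h1 : m i + m j = 0
    · refine ⟨Pi.single i 2 + Pi.single j 1, by rw [hsum]; exact hj, ?_⟩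
      rw [hsum']; push_cast
      contrapose! hm; linarith
    · refine ⟨Pi.single i 1 + Pi.single j 1, by rw [hsum]; exact hj, ?_⟩
      rw [hsum']; simpa using h1
  · refine ⟨Pi.single i 1, ?_, ?_⟩
    · simp [Pi.single_apply, hwi]
    · simp [Pi.single_apply, apply_ite (Int.cast : ℤ → ℝ), hm]

theorem lat_ne_zero {v : Site (k + 1)} (hi : ψ (stp (i₀, true)) ≠ 0) (hv : v ≠ 0)
    (hψ : ψ v = 0) : lat i₀ v ≠ 0 := by
  intro h
  have e : v = v i₀ • stp (i₀, true) := by
    funext l
    rcases eq_or_ne l i₀ with rfl | hl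
    · simp [stp]
    · obtain ⟨j, rfl⟩ := Fin.exists_succAbove_eq hl
      have := congrFun h j
      simp only [lat, AddMonoidHom.coe_mk, ZeroHom.coe_mk, Pi.zero_apply] at this
      simp [stp, this, hl]
  rw [e, map_zsmul, smul_eq_mul, mul_eq_zero] at hψ
  rcases hψ with h0 | h0
  · rw [h0, zero_smul] at e; exact hv e
  · exact hi h0

theorem integrable_pairLen [IsFiniteMeasure (pairLaw μ' ψ)] (h : Hyp μ' ψ)
    (hp : meanLen μ' ψ ≠ ∞) (hm : meanLen μ' (-ψ) ≠ ∞) :
    Integrable (fun p => (pairLen p : ℝ)) (pairLaw μ' ψ) := by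
  refine ⟨(measurable_of_countable _).aestronglyMeasurable, ?_⟩
  rw [hasFiniteIntegral_iff_ofReal (ae_of_all _ fun p => Nat.cast_nonneg _)]
  simp only [ENNReal.ofReal_natCast, pairLen]
  exact (lintegral_pair_len μ' ψ h).trans_lt (ENNReal.mul_lt_top (ENNReal.add_lt_top.2
    ⟨hp.lt_top, hm.lt_top⟩) (ENNReal.inv_lt_top.2 (ENNReal.mul_pos h.up.ne' h.down.ne')))

/-- A nonzero lateral drift of the pairs is impossible. -/
theorem false_of_drift (hk : 1 ≤ k) (h : Hyp μ' ψ) (hi : ψ (stp (i₀, true)) ≠ 0)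
    (hp : meanLen μ' ψ ≠ ∞) (hm : meanLen μ' (-ψ) ≠ ∞)
    (hv : ∀ i, Integrable (fun p => (vlat i₀ p i : ℝ)) (pairLaw μ' ψ))
    (i : Fin k) (h0 : ∫ p, (vlat i₀ p i : ℝ) ∂pairLaw μ' ψ ≠ 0) : False := by
  have := isProbabilityMeasure_pairLaw μ' ψ h
  obtain ⟨v, hv0, hψv, hconn⟩ := exists_connector (φ := ψ) (by omega : 2 ≤ k + 1) h.lev
  obtain ⟨a, haw, ham⟩ := exists_combination (lat_ne_zero ψ i₀ hi hv0 hψv)
    (m := fun l => ∫ p, (vlat i₀ p l : ℝ) ∂pairLaw μ' ψ) h0
  obtain ⟨σ, hσ, hσm⟩ : ∃ σ : ℤ, |σ| = 1 ∧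
      0 < (σ : ℝ) * ∑ l, (a l : ℝ) * ∫ p, (vlat i₀ p l : ℝ) ∂pairLaw μ' ψ := by
    rcases lt_or_gt_of_ne ham with h1 | h1
    · exact ⟨-1, by simp, by push_cast; linarith⟩
    · exact ⟨1, by simp, by push_cast; linarith⟩
  set g : Site (k + 1) →+ ℤ :=
    { toFun := fun x => σ * ∑ l, a l * lat i₀ x l
      map_zero' := by simp
      map_add' := fun x y => by simp [mul_add, Finset.sum_add_distrib] }
  set L : ℤ := ∑ e : Step (k + 1), |g (stp e)|
  have hL : 0 ≤ L := Finset.sum_nonneg fun _ _ => abs_nonneg _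
  have hg : ∀ e, |g (stp e)| ≤ L := fun e =>
    Finset.single_le_sum (f := fun e => |g (stp e)|) (fun _ _ => abs_nonneg _) (Finset.mem_univ e)
  set f : PairW (k + 1) → ℝ := fun p => (g (disp p.1 + disp p.2) : ℝ)
  have hfe : f = fun p => (σ : ℝ) * ∑ l, (a l : ℝ) * (vlat i₀ p l : ℝ) := by
    funext p; simp [f, g, vlat]
  have hfi : Integrable f (pairLaw μ' ψ) := by
    rw [hfe]
    exact (integrable_finsetSum _ fun l _ => (hv l).const_mul _).const_mul _
  have hfm : 0 < ∫ p, f p ∂pairLaw μ' ψ := by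
    simp only [hfe]
    rw [integral_const_mul, integral_finsetSum _ fun l _ => (hv l).const_mul _]
    simpa only [integral_const_mul] using hσm
  -- almost surely the far offsets are bounded
  set Good : ℕ → Set (ℕ → PairW (k + 1)) := fun T => {ω | (∀ i, IsPair ψ (ω i)) ∧
    ∀ i, 2 * L * ((pairLen (ω i) : ℤ) + pairLen (ω (i + 1))) -
      ∑ l ∈ Finset.range i, g (disp (ω l).1 + disp (ω l).2) ≤ T}
  have hae : ∀ᵐ ω ∂pairsLaw μ' ψ, ∃ T, ω ∈ Good T := by
    filter_upwards [ae_tendsto_average (pairLaw μ' ψ) (measurable_of_countable f) hfi,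
      ae_tendsto_average (pairLaw μ' ψ) (measurable_of_countable _)
        (integrable_pairLen μ' ψ h hp hm),
      (ae_all_iff.2 fun i => ae_of_ae_map (f := fun ω : ℕ → PairW (k + 1) => ω i)
        (measurable_pi_apply i).aemeasurable
        ((Measure.infinitePi_map_eval (fun _ : ℕ => pairLaw μ' ψ) i).symm ▸ ae_isPair μ' ψ) :
        ∀ᵐ ω ∂pairsLaw μ' ψ, ∀ i, IsPair ψ (ω i))] with ω h1 h2 h3
    obtain ⟨T, hT⟩ := exists_bound_of_tendsto (κ := 2 * (L : ℝ)) hfm h1 h2
    refine ⟨T, h3, fun i => ?_⟩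
    have h4 := hT i
    rw [Finset.sum_range_succ, Finset.sum_range_succ, add_assoc, add_sub_cancel_left] at h4
    have h5 : ((2 * L * ((pairLen (ω i) : ℤ) + pairLen (ω (i + 1))) -
        ∑ l ∈ Finset.range i, g (disp (ω l).1 + disp (ω l).2) : ℤ) : ℝ) ≤ ((T : ℤ) : ℝ) := by
      push_cast
      simpa only [f, Int.cast_add] using h4
    exact_mod_cast h5
  obtain ⟨T, hT⟩ : ∃ T, 0 < pairsLaw μ' ψ (Good T) := by
    by_contra! hno
    have h1 : pairsLaw μ' ψ (⋃ T, Good T) = 0 :=
      measure_iUnion_null fun T => nonpos_iff_eq_zero.1 (hno T)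
    have h2 : pairsLaw μ' ψ (⋃ T, Good T)ᶜ = 0 := by
      refine measure_eq_zero_iff_ae_notMem.2 (hae.mono fun ω ⟨T, hT⟩ => ?_)
      simpa using ⟨T, hT⟩
    have h3 := measure_univ (μ := pairsLaw μ' ψ)
      (self := by unfold pairsLaw; infer_instance)
    rw [← union_compl_self (⋃ T, Good T)] at h3
    exact zero_ne_one (le_antisymm zero_le_one
      (h3 ▸ (measure_union_le _ _).trans (by rw [h1, h2, add_zero])))
  -- a far connector
  have hgv : g v ≠ 0 := mul_ne_zero (fun h1 => by simp [h1] at hσ) haw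
  obtain ⟨c, hc, hin⟩ := hconn ((if 0 < g v then 1 else -1) * ((T : ℤ) + 1))
  have hco : ψ (-disp c) = 0 := by rw [map_neg, hc, map_zsmul, hψv, smul_zero, neg_zero]
  have hgo : g (-disp c) < -(T : ℤ) := by
    rw [map_neg, hc, map_zsmul, smul_eq_mul]
    rcases lt_or_gt_of_ne hgv with h1 | h1
    · rw [if_neg (by omega)]; nlinarith
    · rw [if_pos h1]; nlinarith
  have hsub : ∀ n, Good T ⊆ AvoidTop (-disp c) n := fun n ω hω =>
    avoidTop_of_far hL hg hco hω.1 (fun i => lt_abs.2 (Or.inr (by linarith [hω.2 i]))) n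
  have hsum := budget h c (by rw [← neg_eq_zero, ← map_neg]; exact hco) hin
  have htop : ∑' n : ℕ, pairsLaw μ' ψ (AvoidTop (-disp c) n) = ∞ :=
    top_le_iff.1 ((le_of_eq (ENNReal.tsum_const_eq_top_of_ne_zero hT.ne').symm).trans
      (ENNReal.tsum_le_tsum fun n => measure_mono (hsub n)))
  rw [htop, top_le_iff, ENNReal.inv_eq_top] at hsum
  exact (ENNReal.mul_pos h.down.ne' (wt_pos μ' h.ell c).ne').ne' hsum

end drift

end Vale.Agent.P147.Regen
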