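import Vale.Agent.P147.Regen.Forward

/-!
# Velocities of escaping walks

On an escape event the walk is, from some time on, a no-backtrack escape, so its velocity is read
off from the iid regeneration blocks.  `one_velocity_of` deduces that there is at most one nonzero
velocity from the impossibility of two opposite ballistic directions.
-/

namespace Vale.Agent.P147.Regen

open MeasureTheory Set Filter Topology ProbabilityTheory
open scoped ENNReal

variable {d : ℕ}

/-! ### Elementary facts -/

theorem abs_disp_apply_le (s : Word d) (i : Fin d) : |disp s i| ≤ (s.length : ℤ) := by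
  induction s with
  | nil => simp [disp]
  | cons e s ih =>
    have h : |stp e i| ≤ 1 := by
      obtain ⟨j, b⟩ := e
      rcases eq_or_ne i j with rfl | hne
      · cases b <;> simp [stp]
      · simp [stp, Pi.single_eq_of_ne hne]
    rw [disp_cons, Pi.add_apply, List.length_cons]
    push_cast
    exact (abs_add_le _ _).trans (by linarith)

theorem level_eq_sum (φ : Site d →+ ℤ) (x : Site d) :
    φ x = ∑ i, x i * φ (stp (i, true)) := by
  conv_lhs => rw [show x = ∑ i, x i • stp (i, true) by
    ext j; simp [stp, Finset.sum_apply, Pi.single_apply]]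
  simp only [map_sum, map_zsmul, smul_eq_mul]

theorem path_add_shift (u : ℕ → Step d) (m k : ℕ) :
    path 0 u (m + k) = path 0 u m + path 0 (shiftSeq m u) k := by
  simp [path, shiftSeq, Finset.sum_range_add]

/-- The real slope of a level at a vector. -/
def slope (φ : Site d →+ ℤ) (v : Fin d → ℝ) : ℝ := ∑ i, v i * (φ (stp (i, true)) : ℝ)

theorem slope_zero_right (φ : Site d →+ ℤ) : slope φ 0 = 0 := by simp [slope]

theorem slope_neg (φ : Site d →+ ℤ) (v : Fin d → ℝ) : slope (-φ) v = -slope φ v := by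
  simp [slope]

theorem slope_add (φ ψ : Site d →+ ℤ) (v : Fin d → ℝ) :
    slope (φ + ψ) v = slope φ v + slope ψ v := by
  simp [slope, mul_add, Finset.sum_add_distrib]

/-- Walks with velocity `v`. -/
def Conv (v : Fin d → ℝ) : Set (ℕ → Step d) :=
  {u | Tendsto (fun n => fun i => (path 0 u n i : ℝ) / n) atTop (nhds v)}

/-- Walks which are slow in the level `φ`. -/
def Slow (φ : Site d →+ ℤ) : Set (ℕ → Step d) :=
  {u | Tendsto (fun n => (φ (path 0 u n) : ℝ) / n) atTop (nhds 0)}

theorem tendsto_level_of_conv {φ : Site d →+ ℤ} {v : Fin d → ℝ} {u : ℕ → Step d}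
    (h : u ∈ Conv v) :
    Tendsto (fun n => (φ (path 0 u n) : ℝ) / n) atTop (nhds (slope φ v)) := by
  have hi := fun i => (tendsto_pi_nhds.1 h i).mul_const ((φ (stp (i, true)) : ℤ) : ℝ)
  refine (tendsto_finsetSum Finset.univ fun i _ => hi i).congr fun n => ?_
  rw [level_eq_sum φ (path 0 u n), Int.cast_sum, Finset.sum_div]
  refine Finset.sum_congr rfl fun i _ => ?_
  push_cast
  ring

theorem conv_subset_esc {φ : Site d →+ ℤ} {v : Fin d → ℝ} (hv : 0 < slope φ v) :
    Conv v ⊆ Esc φ := by
  intro u hu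
  have h := Filter.Tendsto.atTop_mul_pos hv (tendsto_natCast_atTop_atTop (R := ℝ))
    (tendsto_level_of_conv (φ := φ) hu)
  refine tendsto_intCast_atTop_iff (R := ℝ) |>.1 (h.congr' ?_)
  filter_upwards [eventually_ge_atTop 1] with n hn
  have : (n : ℝ) ≠ 0 := Nat.cast_ne_zero.2 (by omega)
  field_simp

theorem measurable_coord (n : ℕ) (i : Fin d) :
    Measurable fun u : ℕ → Step d => (path 0 u n i : ℝ) / n :=
  (Measurable.of_discrete.comp ((measurable_pi_apply i).comp ((measurable_pi_apply n).comp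
    (measurable_path 0)))).div_const _

theorem measurableSet_Conv (v : Fin d → ℝ) : MeasurableSet (Conv v) :=
  measurableSet_tendsto _ fun n => measurable_pi_lambda _ fun i => measurable_coord n i

theorem measurableSet_Slow (φ : Site d →+ ℤ) : MeasurableSet (Slow φ) :=
  measurableSet_tendsto _ fun n =>
    ((Measurable.of_discrete (f := fun z : Site d => (φ z : ℝ))).comp
      ((measurable_pi_apply n).comp (measurable_path 0))).div_const _

theorem tendsto_div_shift {f g : ℕ → ℝ} {c a : ℝ} (m : ℕ) (h : ∀ k, f (m + k) = c + g k)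
    (hg : Tendsto (fun k => g k / k) atTop (nhds a)) :
    Tendsto (fun k => f k / k) atTop (nhds a) := by
  refine (tendsto_add_atTop_iff_nat m).1 ?_
  have h1 : Tendsto (fun k : ℕ => c / k + g k / k) atTop (nhds (0 + a)) :=
    (tendsto_const_div_atTop_nhds_zero_nat c).add hg
  have h2 : Tendsto (fun k : ℕ => (1 + (m : ℝ) / k)⁻¹) atTop (nhds ((1 : ℝ) + 0)⁻¹) :=
    ((tendsto_const_div_atTop_nhds_zero_nat (m : ℝ)).const_add 1).inv₀ (by norm_num)
  have h3 := h1.mul h2
  rw [zero_add, add_zero, inv_one, mul_one] at h3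
  refine h3.congr' ?_
  filter_upwards [eventually_ge_atTop 1] with k hk
  have hk' : (k : ℝ) ≠ 0 := Nat.cast_ne_zero.2 (by omega)
  have hk'' : ((k : ℝ) + m) ≠ 0 := by positivity
  rw [add_comm k m, h, Nat.cast_add]
  field_simp
  ring

theorem conv_of_shift {v : Fin d → ℝ} {u : ℕ → Step d} (m : ℕ) (h : shiftSeq m u ∈ Conv v) :
    u ∈ Conv v :=
  tendsto_pi_nhds.2 fun i => tendsto_div_shift m
    (f := fun k => (path 0 u k i : ℝ)) (g := fun k => (path 0 (shiftSeq m u) k i : ℝ))
    (c := (path 0 u m i : ℝ)) (fun k => by simp [path_add_shift]) (tendsto_pi_nhds.1 h i)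

theorem slow_of_shift {φ : Site d →+ ℤ} {u : ℕ → Step d} (m : ℕ)
    (h : shiftSeq m u ∈ Slow φ) : u ∈ Slow φ :=
  tendsto_div_shift m (f := fun k => (φ (path 0 u k) : ℝ))
    (g := fun k => (φ (path 0 (shiftSeq m u) k) : ℝ))
    (c := (φ (path 0 u m) : ℝ)) (fun k => by simp [path_add_shift]) h

/-! ### Blocks -/

section Glue
variable [NeZero d]

/-- Number of steps in the first `n` words. -/
def stepsUpTo (b : ℕ → Word d) (n : ℕ) : ℕ := ∑ i ∈ Finset.range n, (b i).length

omit [NeZero d] in
theorem length_flatten_range (b : ℕ → Word d) (N : ℕ) :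
    (((List.range N).map b).flatten).length = stepsUpTo b N := by
  induction N with
  | zero => simp [stepsUpTo]
  | succ N ih => simp [List.range_succ, ih, stepsUpTo, Finset.sum_range_succ]

omit [NeZero d] in
theorem stepsUpTo_mono (b : ℕ → Word d) : Monotone (stepsUpTo b) := fun _ _ h =>
  Finset.sum_le_sum_of_subset_of_nonneg (Finset.range_mono h) fun _ _ _ => Nat.zero_le _

omit [NeZero d] in
theorem le_stepsUpTo {b : ℕ → Word d} (hb : ∀ i, 0 < (b i).length) (n : ℕ) :
    n ≤ stepsUpTo b n := by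
  induction n with
  | zero => simp
  | succ n ih =>
    have := hb n
    rw [stepsUpTo, Finset.sum_range_succ]
    rw [stepsUpTo] at ih
    omega

theorem glue_apply {b : ℕ → Word d} (hb : ∀ i, 0 < (b i).length) (n k : ℕ)
    (hk : k < (b n).length) : glue b (stepsUpTo b n + k) = (b n)[k] := by
  have key : ∀ N, n < N →
      (((List.range N).map b).flatten).getD (stepsUpTo b n + k) (0, true) = (b n)[k] := by
    intro N hN
    induction N with
    | zero => omega
    | succ N ih =>
      rw [List.range_succ, List.map_append, List.flatten_append]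
      rcases Nat.lt_succ_iff_lt_or_eq.1 hN with h | rfl
      · rw [List.getD_append _ _ _ _ ?_]
        · exact ih h
        · rw [length_flatten_range]
          refine lt_of_lt_of_le ?_ (stepsUpTo_mono b (show n + 1 ≤ N from h))
          simp only [stepsUpTo, Finset.sum_range_succ]
          omega
      · rw [List.getD_append_right _ _ _ _ (by rw [length_flatten_range]; omega),
          length_flatten_range, Nat.add_sub_cancel_left]
        simp [hk]
  exact key _ (by have := le_stepsUpTo hb n; omega)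

theorem path_glue {b : ℕ → Word d} (hb : ∀ i, 0 < (b i).length) (n k : ℕ)
    (hk : k ≤ (b n).length) :
    path 0 (glue b) (stepsUpTo b n + k) =
      ∑ i ∈ Finset.range n, disp (b i) + disp ((b n).take k) := by
  induction n generalizing k with
  | zero =>
    induction k with
    | zero => simp [stepsUpTo, path_zero, disp]
    | succ k ih =>
      rw [← add_assoc, path_succ, ih (by omega), glue_apply hb 0 k (by omega),
        List.take_succ_eq_append_getElem (by omega), disp_append]
      simp [disp, add_assoc]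
  | succ n ihn =>
    induction k with
    | zero =>
      rw [add_zero, stepsUpTo, Finset.sum_range_succ, ← stepsUpTo, ihn _ le_rfl,
        Finset.sum_range_succ, List.take_length]
      simp [disp]
    | succ k ih =>
      rw [← add_assoc, path_succ, ih (by omega), glue_apply hb (n + 1) k (by omega),
        List.take_succ_eq_append_getElem (by omega), disp_append]
      simp [disp, add_assoc]

omit [NeZero d] in
/-- The block containing a given time. -/
theorem exists_index {b : ℕ → Word d} (hb : ∀ i, 0 < (b i).length) :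
    ∃ N : ℕ → ℕ, (∀ m, stepsUpTo b (N m) ≤ m ∧ m < stepsUpTo b (N m + 1)) ∧
      Tendsto N atTop atTop := by
  have h : ∀ m, ∃ n, stepsUpTo b n ≤ m ∧ m < stepsUpTo b (n + 1) := by
    intro m
    have hex : ∃ n, m < stepsUpTo b n := ⟨m + 1, le_stepsUpTo hb (m + 1)⟩
    classical
    have h0 : Nat.find hex ≠ 0 := fun h => by
      have := Nat.find_spec hex
      rw [h] at this
      simp [stepsUpTo] at this
    refine ⟨Nat.find hex - 1, not_lt.1 (Nat.find_min hex (by omega)), ?_⟩
    rw [Nat.sub_add_cancel (Nat.pos_of_ne_zero h0)]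
    exact Nat.find_spec hex
  choose N hN using h
  refine ⟨N, hN, tendsto_atTop.2 fun K => ?_⟩
  filter_upwards [eventually_ge_atTop (stepsUpTo b K)] with m hm
  by_contra hlt
  have := stepsUpTo_mono b (show N m + 1 ≤ K by omega)
  have := (hN m).2
  omega

end Glue

theorem tendsto_of_blocks {T N : ℕ → ℕ} {S P : ℕ → ℝ} {L D : ℝ} (hL : 0 < L)
    (hT : Tendsto (fun n => (T n : ℝ) / n) atTop (nhds L))
    (hS : Tendsto (fun n => S n / n) atTop (nhds D)) (hN : Tendsto N atTop atTop)
    (hm : ∀ m, T (N m) ≤ m ∧ m < T (N m + 1))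
    (hP : ∀ m, |P m - S (N m)| ≤ (T (N m + 1) : ℝ) - T (N m)) :
    Tendsto (fun m => P m / m) atTop (nhds (D / L)) := by
  have hT1 : Tendsto (fun n => (T (n + 1) : ℝ) / n) atTop (nhds L) := by
    have h1 := (hT.comp (tendsto_add_atTop_nat 1)).mul
      ((tendsto_const_div_atTop_nhds_zero_nat (1 : ℝ)).const_add 1)
    rw [add_zero, mul_one] at h1
    refine h1.congr' ?_
    filter_upwards [eventually_ge_atTop 1] with n hn
    have : (n : ℝ) ≠ 0 := Nat.cast_ne_zero.2 (by omega)
    simp only [Function.comp_apply, Nat.cast_add, Nat.cast_one]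
    field_simp
  have hgap : Tendsto (fun n => ((T (n + 1) : ℝ) - T n) / n) atTop (nhds 0) := by
    simpa [sub_div] using hT1.sub hT
  have hr : Tendsto (fun m : ℕ => (m : ℝ) / N m) atTop (nhds L) := by
    refine tendsto_of_tendsto_of_tendsto_of_le_of_le (hT.comp hN) (hT1.comp hN)
      (fun m => ?_) fun m => ?_
    · exact div_le_div_of_nonneg_right (Nat.cast_le.2 (hm m).1) (Nat.cast_nonneg _)
    · exact div_le_div_of_nonneg_right (Nat.cast_le.2 (hm m).2.le) (Nat.cast_nonneg _)
  have he : Tendsto (fun m => (P m - S (N m)) / N m) atTop (nhds 0) := by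
    refine squeeze_zero_norm (fun m => ?_) (hgap.comp hN)
    rw [Real.norm_eq_abs, abs_div, Nat.abs_cast]
    exact div_le_div_of_nonneg_right (hP m) (Nat.cast_nonneg _)
  have hq := ((hS.comp hN).add he).div hr hL.ne'
  rw [add_zero] at hq
  refine hq.congr' ?_
  filter_upwards [hN.eventually (eventually_ge_atTop 1), eventually_ge_atTop 1] with m h1 h2
  have h1' : (N m : ℝ) ≠ 0 := Nat.cast_ne_zero.2 (by omega)
  have h2' : (m : ℝ) ≠ 0 := Nat.cast_ne_zero.2 (by omega)
  simp only [Pi.div_apply, Function.comp_apply]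
  field_simp
  ring

theorem tendsto_zero_of_blocks {T N : ℕ → ℕ} {H P : ℕ → ℝ} {h : ℝ}
    (hT : Tendsto (fun n => (T n : ℝ) / n) atTop atTop)
    (hH : Tendsto (fun n => H n / n) atTop (nhds h)) (hN : Tendsto N atTop atTop)
    (hm : ∀ m, T (N m) ≤ m) (hP0 : ∀ m, 0 ≤ P m) (hP : ∀ m, P m ≤ H (N m + 1)) :
    Tendsto (fun m => P m / m) atTop (nhds 0) := by
  have hH1 : Tendsto (fun n => H (n + 1) / n) atTop (nhds h) := by
    have h1 := (hH.comp (tendsto_add_atTop_nat 1)).mul
      ((tendsto_const_div_atTop_nhds_zero_nat (1 : ℝ)).const_add 1)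
    rw [add_zero, mul_one] at h1
    refine h1.congr' ?_
    filter_upwards [eventually_ge_atTop 1] with n hn
    have : (n : ℝ) ≠ 0 := Nat.cast_ne_zero.2 (by omega)
    simp only [Function.comp_apply, Nat.cast_add, Nat.cast_one]
    field_simp
  have hq := (hH1.comp hN).div_atTop (hT.comp hN)
  refine squeeze_zero' (Eventually.of_forall fun m => div_nonneg (hP0 m) (Nat.cast_nonneg _)) ?_ hq
  filter_upwards [hN.eventually (eventually_ge_atTop 1),
    (hT.comp hN).eventually (eventually_gt_atTop 0)] with m h1 h2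
  simp only [Function.comp_apply] at h2 ⊢
  have h1' : (0 : ℝ) < N m := Nat.cast_pos.2 (by omega)
  rw [div_div_div_cancel_right₀ h1'.ne']
  have hTm : (0 : ℝ) < T (N m) := by
    by_contra h
    exact not_le.2 h2 (div_nonpos_of_nonpos_of_nonneg (not_lt.1 h) h1'.le)
  calc P m / m ≤ H (N m + 1) / m := div_le_div_of_nonneg_right (hP m) (Nat.cast_nonneg _)
    _ ≤ H (N m + 1) / T (N m) :=
        div_le_div_of_nonneg_left ((hP0 m).trans (hP m)) hTm (by exact_mod_cast hm m)

section Walk
variable [NeZero d] {μ : Measure (Step d → ℝ)} [IsProbabilityMeasure μ] {φ : Site d →+ ℤ}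

/-- A shift-invariant property which holds on no-backtrack escapes holds on escapes. -/
theorem ann_esc_diff_eq_zero (hell : IsElliptic μ) {G : Set (ℕ → Step d)} (hG : MeasurableSet G)
    (hinv : ∀ m u, shiftSeq m u ∈ G → u ∈ G) (h : ann μ 0 (Up φ \ G) = 0) :
    ann μ 0 (Esc φ \ G) = 0 := by
  have hUG : MeasurableSet (Up φ \ G) := (measurableSet_Up φ).diff hG
  have hcov : Esc φ \ G ⊆ ⋃ s : Word d, Pre s ∩ shiftSeq s.length ⁻¹' (Up φ \ G) := by
    intro u hu
    obtain ⟨hesc, hnG⟩ := hu
    obtain ⟨K, hK⟩ := eventually_atTop.1 (tendsto_atTop.1 hesc (φ (path 0 u 0)))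
    obtain ⟨m, -, hm⟩ := Finset.exists_min_image (Finset.range (K + 1))
      (fun n => φ (path 0 u n)) ⟨0, by simp⟩
    have hmin : ∀ n, φ (path 0 u m) ≤ φ (path 0 u n) := by
      intro n
      rcases le_or_gt n K with hn | hn
      · exact hm n (Finset.mem_range.2 (by omega))
      · exact (hm 0 (by simp)).trans (hK n hn.le)
    let s : Word d := List.ofFn fun i : Fin m => u i
    have hlen : s.length = m := by simp [s]
    have hs : u ∈ Pre s := fun k hk => by simp [s]
    refine mem_iUnion.2 ⟨s, hs, ⟨fun n => ?_, (esc_shift_iff hs).2 hesc⟩,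
      fun hg => hnG (hinv _ u hg)⟩
    have := hmin (m + n)
    rw [path_add_shift, map_add] at this
    rw [hlen]
    linarith
  refine nonpos_iff_eq_zero.1 ((ann_mono 0 hcov).trans ?_)
  refine (ann_iUnion_le 0 fun s =>
    (measurableSet_Pre s).inter (measurable_shiftSeq _ hUG)).trans ?_
  refine le_of_eq (ENNReal.tsum_eq_zero.2 fun s => ?_)
  have hz : ann μ (disp s) (Up φ \ G) = 0 := by rw [ann_translate (disp s) hUG, h]
  rw [ann, lintegral_eq_zero_iff (measurable_W _ hUG)] at hz
  rw [ann, lintegral_eq_zero_iff (measurable_W _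
    ((measurableSet_Pre s).inter (measurable_shiftSeq _ hUG)))]
  filter_upwards [ae_isEnv μ hell, hz] with w hw hw0
  simp only [Pi.zero_apply] at hw0 ⊢
  rw [W_Pre_inter hw 0 s hUG, zero_add, hw0, mul_zero]

/-- A property of glued blocks holds on escapes. -/
theorem ann_esc_diff_of_blocks (hell : IsElliptic μ) (hl : IsLevel φ) (ha : 0 < aUp μ φ)
    {G : Set (ℕ → Step d)} (hG : MeasurableSet G)
    (hinv : ∀ m u, shiftSeq m u ∈ G → u ∈ G)
    (h : ∀ᵐ b ∂blocksLaw μ φ, glue b ∈ G) : ann μ 0 (Esc φ \ G) = 0 := by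
  refine ann_esc_diff_eq_zero hell hG hinv ?_
  rw [sdiff_eq, ann_Up_inter μ φ hell hl ha hG.compl]
  rw [ae_iff] at h
  simp only [preimage_compl]
  rw [show (glue ⁻¹' G)ᶜ = {b : ℕ → Word d | ¬ glue b ∈ G} from rfl, h, mul_zero]

section Law
variable [IsProbabilityMeasure (blockLaw μ φ)]

theorem ae_all_blocks : ∀ᵐ b ∂blocksLaw μ φ, ∀ i, IsBlock φ (b i) :=
  ae_all_iff.2 fun i =>
    (measurePreserving_eval_infinitePi (fun _ : ℕ => blockLaw μ φ) i).quasiMeasurePreserving.ae
      (ae_isBlock μ φ)

theorem slln {f : Word d → ℝ} (hf : Integrable f (blockLaw μ φ)) :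
    ∀ᵐ b ∂blocksLaw μ φ, Tendsto (fun n : ℕ => (∑ i ∈ Finset.range n, f (b i)) / n) atTop
      (nhds (∫ s, f s ∂blockLaw μ φ)) := by
  have hev : ∀ i, MeasurePreserving (fun b : ℕ → Word d => b i)
      (Measure.infinitePi fun _ : ℕ => blockLaw μ φ) (blockLaw μ φ) := fun i =>
    measurePreserving_eval_infinitePi (fun _ : ℕ => blockLaw μ φ) i
  have hf' : Measurable f := Measurable.of_discrete
  have hind := iIndepFun_infinitePi (P := fun _ : ℕ => blockLaw μ φ) (X := fun _ => f)
    fun _ => hf'
  have h := strong_law_ae_real (fun i (b : ℕ → Word d) => f (b i))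
    ((hev 0).integrable_comp_of_integrable hf) (fun i j hij => hind.indepFun hij)
    (fun i => ⟨(hf'.comp (measurable_pi_apply i)).aemeasurable,
      (hf'.comp (measurable_pi_apply 0)).aemeasurable, by
        show Measure.map (f ∘ fun b : ℕ → Word d => b i) _ =
          Measure.map (f ∘ fun b : ℕ → Word d => b 0) _
        rw [← Measure.map_map hf' (measurable_pi_apply i),
          ← Measure.map_map hf' (measurable_pi_apply 0), (hev i).map_eq, (hev 0).map_eq]⟩)
  have he : ∫ b, f (b 0) ∂(Measure.infinitePi fun _ : ℕ => blockLaw μ φ) =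
      ∫ s, f s ∂blockLaw μ φ := by
    conv_rhs => rw [← (hev 0).map_eq]
    rw [integral_map (measurable_pi_apply 0).aemeasurable hf'.aestronglyMeasurable]
  rw [he] at h
  exact h

theorem integrable_natCast {f : Word d → ℕ} (hf : ∫⁻ s, (f s : ℝ≥0∞) ∂blockLaw μ φ ≠ ∞) :
    Integrable (fun s => (f s : ℝ)) (blockLaw μ φ) := by
  refine ⟨Measurable.of_discrete.aestronglyMeasurable, ?_⟩
  rw [HasFiniteIntegral]
  simpa [lt_top_iff_ne_top] using hf

theorem integrable_height (hell : IsElliptic μ) (hl : IsLevel φ) (ha : 0 < aUp μ φ) :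
    Integrable (fun s => ((φ (disp s)).toNat : ℝ)) (blockLaw μ φ) :=
  integrable_natCast (ne_top_of_le_ne_top (ENNReal.inv_ne_top.2 ha.ne')
    (lintegral_block_height μ φ hell hl ha))

end Law

theorem slow_of_meanLen_top (μ : Measure (Step d → ℝ)) [IsProbabilityMeasure μ]
    (φ : Site d →+ ℤ) (hell : IsElliptic μ) (hl : IsLevel φ) (ha : 0 < aUp μ φ)
    (hL : meanLen μ φ = ∞) :
    ann μ 0 (Esc φ \ {u | Tendsto (fun n => (φ (path 0 u n) : ℝ) / n) atTop (nhds 0)}) = 0 := by
  have := isProbabilityMeasure_blockLaw μ φ hell hl ha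
  refine ann_esc_diff_of_blocks hell hl ha (measurableSet_Slow φ)
    (fun m u h => slow_of_shift m h) ?_
  have hmin : ∀ K : ℕ, Integrable (fun s : Word d => ((min s.length K : ℕ) : ℝ))
      (blockLaw μ φ) := by
    intro K
    refine integrable_natCast (ne_top_of_le_ne_top (b := (K : ℝ≥0∞)) (by simp) ?_)
    exact (lintegral_mono fun s => Nat.cast_le.2 (min_le_right _ K)).trans (by simp)
  have hsup : Tendsto (fun K : ℕ => ∫ s, ((min s.length K : ℕ) : ℝ) ∂blockLaw μ φ)
      atTop atTop := by
    have hI : ∀ K : ℕ, ∫⁻ s, ((min s.length K : ℕ) : ℝ≥0∞) ∂blockLaw μ φ =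
        ENNReal.ofReal (∫ s, ((min s.length K : ℕ) : ℝ) ∂blockLaw μ φ) := by
      intro K
      rw [ofReal_integral_eq_lintegral_ofReal (hmin K)
        (Eventually.of_forall fun s => Nat.cast_nonneg _)]
      exact lintegral_congr fun s => (ENNReal.ofReal_natCast _).symm
    have h1 : Tendsto (fun K : ℕ => ∫⁻ s, ((min s.length K : ℕ) : ℝ≥0∞) ∂blockLaw μ φ)
        atTop (nhds ∞) := by
      rw [← hL, meanLen]
      refine lintegral_tendsto_of_tendsto_of_monotone (fun K => Measurable.of_discrete.aemeasurable)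
        (Eventually.of_forall fun s a b hab => Nat.cast_le.2 (min_le_min le_rfl hab))
        (Eventually.of_forall fun s => ?_)
      refine tendsto_const_nhds.congr' ?_
      filter_upwards [eventually_ge_atTop s.length] with K hK
      rw [min_eq_left hK]
    simp only [hI] at h1
    refine tendsto_atTop.2 fun R => ?_
    filter_upwards [h1.eventually (Ioi_mem_nhds (ENNReal.ofReal_lt_top (r := R)))] with K hK
    by_contra hlt
    exact not_lt.2 (ENNReal.ofReal_le_ofReal (not_le.1 hlt).le) hK
  filter_upwards [ae_all_blocks (μ := μ) (φ := φ), slln (integrable_height hell hl ha),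
    ae_all_iff.2 fun K : ℕ => slln (hmin K)] with b hb hH hK
  have hpos : ∀ i, 0 < (b i).length := fun i => (hb i).1.1
  obtain ⟨N, hN, hNt⟩ := exists_index hpos
  have hT : Tendsto (fun n => (stepsUpTo b n : ℝ) / n) atTop atTop := by
    refine tendsto_atTop.2 fun R => ?_
    obtain ⟨K, hKR⟩ := (hsup.eventually (eventually_gt_atTop R)).exists
    filter_upwards [(hK K).eventually (Ioi_mem_nhds hKR)] with n hn
    refine hn.le.trans (div_le_div_of_nonneg_right ?_ (Nat.cast_nonneg _))
    rw [stepsUpTo, Nat.cast_sum]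
    exact Finset.sum_le_sum fun i _ => Nat.cast_le.2 (min_le_left _ _)
  have hlev : ∀ m, 0 ≤ φ (path 0 (glue b) m) ∧
      (φ (path 0 (glue b) m) : ℝ) ≤
        ∑ i ∈ Finset.range (N m + 1), ((φ (disp (b i))).toNat : ℝ) := by
    intro m
    obtain ⟨h1, h2⟩ := hN m
    obtain ⟨k, hk⟩ := Nat.exists_eq_add_of_le h1
    have hk' : k < (b (N m)).length := by
      have : stepsUpTo b (N m + 1) = stepsUpTo b (N m) + (b (N m)).length :=
        Finset.sum_range_succ _ _
      omega
    have hseg := (hb (N m)).1.2 k hk'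
    have hnn : ∀ i, 0 ≤ φ (disp (b i)) := fun i => by
      have := (hb i).1.2 0 (hpos i); omega
    have e := path_glue hpos (N m) k hk'.le
    rw [← hk] at e
    rw [e, map_add, map_sum]
    refine ⟨add_nonneg (Finset.sum_nonneg fun i _ => hnn i) hseg.1, ?_⟩
    rw [Finset.sum_range_succ, Int.cast_add, Int.cast_sum]
    refine add_le_add (le_of_eq (Finset.sum_congr rfl fun i _ => ?_)) ?_
    · rw [← Int.cast_natCast, Int.toNat_of_nonneg (hnn i)]
    · rw [← Int.cast_natCast, Int.toNat_of_nonneg (hnn _)]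
      exact Int.cast_le.2 hseg.2.le
  exact tendsto_zero_of_blocks hT hH hNt (fun m => (hN m).1)
    (fun m => Int.cast_nonneg_iff.2 (hlev m).1) fun m => (hlev m).2

theorem lln_of_meanLen_ne_top (μ : Measure (Step d → ℝ)) [IsProbabilityMeasure μ]
    (φ : Site d →+ ℤ) (hell : IsElliptic μ) (hl : IsLevel φ) (ha : 0 < aUp μ φ)
    (hL : meanLen μ φ ≠ ∞) :
    ∃ v : Fin d → ℝ, 0 < ∑ i, v i * (φ (stp (i, true)) : ℝ) ∧
      ann μ 0 (Esc φ \ {u | Tendsto (fun n => fun i => (path 0 u n i : ℝ) / n) atTop (nhds v)})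
        = 0 := by
  have := isProbabilityMeasure_blockLaw μ φ hell hl ha
  have hlen : Integrable (fun s : Word d => (s.length : ℝ)) (blockLaw μ φ) :=
    integrable_natCast hL
  have hdisp : ∀ i, Integrable (fun s : Word d => (disp s i : ℝ)) (blockLaw μ φ) := by
    intro i
    refine hlen.mono' Measurable.of_discrete.aestronglyMeasurable
      (Eventually.of_forall fun s => ?_)
    rw [Real.norm_eq_abs, ← Int.cast_abs, ← Int.cast_natCast]
    exact Int.cast_le.2 (abs_disp_apply_le s i)
  set L := ∫ s, (s.length : ℝ) ∂blockLaw μ φ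
  set D : Fin d → ℝ := fun i => ∫ s, (disp s i : ℝ) ∂blockLaw μ φ
  have hL1 : 1 ≤ L := by
    have h := integral_mono_ae (integrable_const (1 : ℝ)) hlen
      ((ae_isBlock μ φ).mono fun s hs => by
        show (1 : ℝ) ≤ (s.length : ℝ)
        exact_mod_cast (hs.1.1 : 0 < s.length))
    simpa using h
  refine ⟨fun i => D i / L, ?_, ?_⟩
  · have hint : ∀ i, Integrable (fun s : Word d => (disp s i : ℝ) * (φ (stp (i, true)) : ℝ))
        (blockLaw μ φ) := fun i => (hdisp i).mul_const _
    have hsum : ∑ i, D i / L * (φ (stp (i, true)) : ℝ) =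
        (∫ s, (φ (disp s) : ℝ) ∂blockLaw μ φ) / L := by
      have e : (fun s : Word d => (φ (disp s) : ℝ)) =
          fun s => ∑ i, (disp s i : ℝ) * (φ (stp (i, true)) : ℝ) := by
        funext s
        rw [level_eq_sum φ (disp s)]
        push_cast
        rfl
      rw [e, integral_finsetSum _ fun i _ => hint i, Finset.sum_div]
      refine Finset.sum_congr rfl fun i _ => ?_
      rw [integral_mul_const]
      ring
    rw [hsum]
    refine div_pos (lt_of_lt_of_le one_pos ?_) (by linarith)
    have h := integral_mono_ae (g := fun s : Word d => (φ (disp s) : ℝ))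
      (integrable_const (1 : ℝ))
      ((integrable_height hell hl ha).congr ((ae_isBlock μ φ).mono fun s hs => by
        have := hs.1.2 0 hs.1.1
        show ((φ (disp s)).toNat : ℝ) = (φ (disp s) : ℝ)
        rw [← Int.cast_natCast, Int.toNat_of_nonneg (by omega)]))
      ((ae_isBlock μ φ).mono fun s hs => by
        have h1 := hs.1.2 0 hs.1.1
        have h2 : (1 : ℤ) ≤ φ (disp s) := by omega
        show (1 : ℝ) ≤ (φ (disp s) : ℝ)
        exact_mod_cast h2)
    simpa using h
  refine ann_esc_diff_of_blocks hell hl ha (measurableSet_Conv _)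
    (fun m u h => conv_of_shift m h) ?_
  filter_upwards [ae_all_blocks (μ := μ) (φ := φ), slln hlen,
    ae_all_iff.2 fun i => slln (hdisp i)] with b hb hTl hS
  have hpos : ∀ i, 0 < (b i).length := fun i => (hb i).1.1
  obtain ⟨N, hN, hNt⟩ := exists_index hpos
  refine tendsto_pi_nhds.2 fun i => tendsto_of_blocks (T := stepsUpTo b) (N := N)
    (S := fun n => ∑ k ∈ Finset.range n, (disp (b k) i : ℝ))
    (P := fun m => (path 0 (glue b) m i : ℝ)) (by linarith) ?_ (hS i) hNt hN fun m => ?_
  · refine hTl.congr fun n => ?_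
    rw [stepsUpTo, Nat.cast_sum]
  · obtain ⟨h1, h2⟩ := hN m
    obtain ⟨k, hk⟩ := Nat.exists_eq_add_of_le h1
    have e : stepsUpTo b (N m + 1) = stepsUpTo b (N m) + (b (N m)).length :=
      Finset.sum_range_succ _ _
    have hk' : k ≤ (b (N m)).length := by omega
    have hpi : path 0 (glue b) m i =
        ∑ j ∈ Finset.range (N m), disp (b j) i + disp ((b (N m)).take k) i := by
      have e' := path_glue hpos (N m) k hk'
      rw [← hk] at e'
      rw [e', Pi.add_apply, Finset.sum_apply]
    rw [hpi, e]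
    push_cast
    rw [add_sub_cancel_left, add_sub_cancel_left, ← Int.cast_abs, ← Int.cast_natCast]
    refine Int.cast_le.2 ((abs_disp_apply_le _ _).trans ?_)
    simp

/-- The ballistic direction of a level seen by a velocity. -/
theorem ballistic_of_conv (hell : IsElliptic μ) (hl : IsLevel φ) {v : Fin d → ℝ}
    (hv : 0 < slope φ v) (h : 0 < ann μ 0 (Conv v)) : 0 < aUp μ φ ∧ meanLen μ φ ≠ ∞ := by
  have ha := aUp_pos μ _ hell (h.trans_le (ann_mono 0 (conv_subset_esc hv)))
  refine ⟨ha, fun hL => h.ne' (nonpos_iff_eq_zero.1 ?_)⟩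
  have hsub : Conv v ⊆ Esc φ \ Slow φ := fun u hu =>
    ⟨conv_subset_esc hv hu, fun hs =>
      hv.ne' (tendsto_nhds_unique (tendsto_level_of_conv hu) hs)⟩
  exact (ann_mono 0 hsub).trans (slow_of_meanLen_top μ _ hell hl ha hL).le

/-- Velocities on the same side of a level are equal. -/
theorem velocity_eq (hell : IsElliptic μ) (hl : IsLevel φ) {v v' : Fin d → ℝ}
    (hv : 0 < slope φ v) (h : 0 < ann μ 0 (Conv v)) (hv' : 0 < slope φ v')
    (h' : 0 < ann μ 0 (Conv v')) : v = v' := by
  obtain ⟨ha, hL⟩ := ballistic_of_conv hell hl hv h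
  obtain ⟨v₀, -, hnull⟩ := lln_of_meanLen_ne_top μ _ hell hl ha hL
  have key : ∀ w, 0 < slope φ w → 0 < ann μ 0 (Conv w) → w = v₀ := by
    intro w hw hpos
    by_contra hne
    refine hpos.ne' (nonpos_iff_eq_zero.1 ((ann_mono 0 fun u hu => ?_).trans hnull.le))
    exact ⟨conv_subset_esc hw hu, fun hs => hne (tendsto_nhds_unique hu hs)⟩
  rw [key v hv h, key v' hv' h']

end Walk

/-- The signed coordinate level of a step. -/
def axisLevel (e : Step d) : Site d →+ ℤ where
  toFun x := (if e.2 then 1 else -1) * x e.1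
  map_zero' := by simp
  map_add' x y := by simp [mul_add]

theorem axisLevel_stp (e f : Step d) :
    axisLevel e (stp f) =
      if e.1 = f.1 then (if e.2 then 1 else -1) * (if f.2 then 1 else -1) else 0 := by
  obtain ⟨i, a⟩ := e
  obtain ⟨j, b⟩ := f
  by_cases h : i = j <;> cases a <;> cases b <;> simp [axisLevel, stp, h]

theorem isLevel_axisLevel (e : Step d) : IsLevel (axisLevel e) := by
  refine ⟨fun f => ?_, e, ?_⟩
  · rw [axisLevel_stp]; split_ifs <;> simp
  · rw [axisLevel_stp, if_pos rfl]; cases e.2 <;> simp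

theorem isLevel_axis_add {e f : Step d} (h : e.1 ≠ f.1) :
    IsLevel (axisLevel e + axisLevel f) := by
  refine ⟨fun g => ?_, e, ?_⟩
  · rw [AddMonoidHom.add_apply, axisLevel_stp, axisLevel_stp]
    by_cases h1 : e.1 = g.1
    · rw [if_pos h1, if_neg (fun h2 : f.1 = g.1 => h (h1.trans h2.symm))]
      split_ifs <;> simp
    · rw [if_neg h1]
      split_ifs <;> simp
  · rw [AddMonoidHom.add_apply, axisLevel_stp, axisLevel_stp, if_pos rfl,
      if_neg (fun h2 : f.1 = e.1 => h h2.symm)]
    cases e.2 <;> simp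

theorem slope_axisLevel (e : Step d) (v : Fin d → ℝ) :
    slope (axisLevel e) v = (if e.2 then 1 else -1) * v e.1 := by
  simp only [slope, axisLevel_stp]
  rw [Finset.sum_eq_single e.1]
  · rw [if_pos rfl]
    split_ifs <;> simp
  · intro i _ hi
    rw [if_neg (Ne.symm hi)]
    simp
  · simp

theorem exists_sign {v : Fin d → ℝ} (hv : v ≠ 0) :
    ∃ e : Step d, 0 < slope (axisLevel e) v := by
  obtain ⟨i, hi⟩ := Function.ne_iff.1 hv
  rcases lt_or_gt_of_ne hi with h | h
  · exact ⟨(i, false), by rw [slope_axisLevel]; simpa using h⟩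
  · exact ⟨(i, true), by rw [slope_axisLevel]; simpa using h⟩

theorem sign_of_liminf {x : ℕ → ℤ} (h0 : x 0 = 0) (hstep : ∀ n, |x (n + 1) - x n| ≤ 1)
    (h : liminf (fun n => |(x n : ℝ)| / n) atTop ≠ 0) :
    Tendsto x atTop atTop ∨ Tendsto (fun n => -x n) atTop atTop := by
  have hbd : ∀ n, |(x n : ℝ)| / n ≤ 1 := by
    intro n
    have hx : |x n| ≤ n := by
      induction n with
      | zero => simp [h0]
      | succ n ih =>
        have h1 := hstep n
        have h2 := abs_add_le (x (n + 1) - x n) (x n)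
        rw [sub_add_cancel] at h2
        push_cast
        linarith
    refine div_le_one_of_le₀ ?_ (Nat.cast_nonneg n)
    rw [← Int.cast_abs]
    exact_mod_cast hx
  have hnn : ∀ n, 0 ≤ |(x n : ℝ)| / n := fun n => by positivity
  have hpos : 0 < liminf (fun n => |(x n : ℝ)| / n) atTop :=
    lt_of_le_of_ne (le_liminf_of_le (IsBoundedUnder.isCoboundedUnder_ge
      (isBoundedUnder_of_eventually_le (Eventually.of_forall hbd)))
      (Eventually.of_forall hnn)) (Ne.symm h)
  obtain ⟨c, hc, hc'⟩ := exists_between hpos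
  have hev := eventually_lt_of_lt_liminf hc'
    (isBoundedUnder_of_eventually_ge (Eventually.of_forall hnn))
  obtain ⟨n₀, hn₀⟩ := eventually_atTop.1 (hev.and (eventually_ge_atTop 1))
  have hne : ∀ n ≥ n₀, x n ≠ 0 := by
    intro n hn hx
    have := (hn₀ n hn).1
    simp [hx] at this
    linarith
  have hlin : ∀ n ≥ n₀, c * n ≤ |(x n : ℝ)| := by
    intro n hn
    have h1 := (hn₀ n hn).1
    rw [lt_div_iff₀ (Nat.cast_pos.2 (hn₀ n hn).2)] at h1
    exact h1.le
  have hat : Tendsto (fun n : ℕ => c * (n : ℝ)) atTop atTop :=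
    tendsto_natCast_atTop_atTop.const_mul_atTop hc
  rcases lt_or_gt_of_ne (hne n₀ le_rfl) with hs | hs
  · right
    have hneg : ∀ n ≥ n₀, x n < 0 := by
      intro n hn
      induction n, hn using Nat.le_induction with
      | base => exact hs
      | succ n hn ih =>
        have := abs_le.1 (hstep n); have := hne (n + 1) (by omega); omega
    refine tendsto_intCast_atTop_iff (R := ℝ) |>.1 (tendsto_atTop_mono' _ ?_ hat)
    filter_upwards [eventually_ge_atTop n₀] with n hn
    have h1 := hlin n hn
    rw [abs_of_neg (Int.cast_lt_zero.2 (hneg n hn))] at h1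
    simpa using h1
  · left
    have hps : ∀ n ≥ n₀, 0 < x n := by
      intro n hn
      induction n, hn using Nat.le_induction with
      | base => exact hs
      | succ n hn ih =>
        have := abs_le.1 (hstep n); have := hne (n + 1) (by omega); omega
    refine tendsto_intCast_atTop_iff (R := ℝ) |>.1 (tendsto_atTop_mono' _ ?_ hat)
    filter_upwards [eventually_ge_atTop n₀] with n hn
    have h1 := hlin n hn
    rwa [abs_of_pos (Int.cast_pos.2 (hps n hn))] at h1

/-- At most one nonzero velocity, given that opposite directions are not both ballistic. -/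
theorem one_velocity_of [NeZero d] (μ : Measure (Step d → ℝ)) [IsProbabilityMeasure μ]
    (hell : IsElliptic μ)
    (hnb : ∀ φ : Site d →+ ℤ, Hyp μ φ → meanLen μ φ ≠ ∞ → meanLen μ (-φ) ≠ ∞ → False) :
    ∃ v : Fin d → ℝ, ann μ 0
      {u | (∀ i, liminf (fun n => |(path 0 u n i : ℝ)| / n) atTop = 0) ∨
        Tendsto (fun n => fun i => (path 0 u n i : ℝ) / n) atTop (nhds v)} = 1 := by
  classical
  have opp : ∀ φ : Site d →+ ℤ, IsLevel φ → ∀ v v' : Fin d → ℝ, 0 < ann μ 0 (Conv v) →
      0 < ann μ 0 (Conv v') → 0 < slope φ v → slope φ v' < 0 → False := by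
    intro φ hl v v' h h' hv hv'
    obtain ⟨ha, hL⟩ := ballistic_of_conv hell hl hv h
    obtain ⟨ha', hL'⟩ := ballistic_of_conv hell (isLevel_neg hl)
      (v := v') (by rw [slope_neg]; linarith) h'
    exact hnb φ ⟨hell, hl, ha, ha'⟩ hL hL'
  have uniq : ∀ v v' : Fin d → ℝ, v ≠ 0 → v' ≠ 0 → 0 < ann μ 0 (Conv v) →
      0 < ann μ 0 (Conv v') → v = v' := by
    intro v v' hv hv' h h'
    obtain ⟨e, he⟩ := exists_sign hv
    obtain ⟨f, hf⟩ := exists_sign hv'
    rcases lt_trichotomy (slope (axisLevel e) v') 0 with h1 | h1 | h1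
    · exact (opp _ (isLevel_axisLevel e) v v' h h' he h1).elim
    · rcases lt_trichotomy (slope (axisLevel f) v) 0 with h2 | h2 | h2
      · exact (opp _ (isLevel_axisLevel f) v' v h' h hf h2).elim
      · have hef : e.1 ≠ f.1 := by
          intro hef
          rw [slope_axisLevel] at h1 hf
          have hz : v' e.1 = 0 := by split_ifs at h1 <;> linarith
          rw [← hef, hz, mul_zero] at hf
          exact lt_irrefl _ hf
        exact velocity_eq hell (isLevel_axis_add hef) (by rw [slope_add]; linarith) h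
          (by rw [slope_add]; linarith) h'
      · exact velocity_eq hell (isLevel_axisLevel f) h2 h hf h'
    · exact velocity_eq hell (isLevel_axisLevel e) he h h1 h'
  obtain ⟨v, hv⟩ : ∃ v, ∀ v', v' ≠ 0 → 0 < ann μ 0 (Conv v') → v' = v := by
    by_cases hex : ∃ v, v ≠ 0 ∧ 0 < ann μ 0 (Conv v)
    · obtain ⟨v, hv, hpos⟩ := hex
      exact ⟨v, fun v' hv' h' => uniq v' v hv' hv h' hpos⟩
    · exact ⟨0, fun v' hv' h' => (hex ⟨v', hv', h'⟩).elim⟩
  refine ⟨v, le_antisymm (ann_le_one 0 _) ?_⟩
  let Nul : Step d → Set (ℕ → Step d) := fun e => Esc (axisLevel e) \ (Slow (axisLevel e) ∪ Conv v)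
  have hNm : ∀ e, MeasurableSet (Nul e) := fun e =>
    (measurableSet_Esc _).diff ((measurableSet_Slow _).union (measurableSet_Conv v))
  have hN0 : ∀ e, ann μ 0 (Nul e) = 0 := by
    intro e
    have hl := isLevel_axisLevel e
    refine nonpos_iff_eq_zero.1 ?_
    rcases eq_or_ne (ann μ 0 (Esc (axisLevel e))) 0 with h0 | h0
    · exact (ann_mono 0 fun u hu => hu.1).trans h0.le
    have ha := aUp_pos μ _ hell (pos_iff_ne_zero.2 h0)
    rcases eq_or_ne (meanLen μ (axisLevel e)) ∞ with hL | hL
    · refine (ann_mono 0 ?_).trans (slow_of_meanLen_top μ _ hell hl ha hL).le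
      exact fun u hu => ⟨hu.1, fun hs => hu.2 (Or.inl hs)⟩
    · obtain ⟨v₀, hs₀, hnull⟩ := lln_of_meanLen_ne_top μ _ hell hl ha hL
      have hne : v₀ ≠ 0 := fun hz => by
        change 0 < slope _ v₀ at hs₀
        rw [hz, slope_zero_right] at hs₀
        exact lt_irrefl _ hs₀
      have hc : ann μ 0 (Conv v₀) ≠ 0 := fun hz => h0 (nonpos_iff_eq_zero.1 (by
        refine (ann_mono (μ := μ) 0 (sdiff_sup_self'' (a := Esc (axisLevel e))
          (b := Conv v₀))).trans ?_
        have := ann_iUnion_le (μ := μ) (0 : Site d)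
          (A := fun b : Bool => if b then Esc (axisLevel e) \ Conv v₀ else Conv v₀)
          (fun b => by cases b <;> simp [(measurableSet_Esc _).diff, measurableSet_Conv])
        rw [tsum_bool] at this
        simp only [Bool.false_eq_true, if_false, if_true] at this
        rw [hz, zero_add] at this
        rw [union_eq_iUnion]
        refine le_trans (le_of_eq ?_) (this.trans hnull.le)
        congr 1
        exact iUnion_congr fun b => by cases b <;> rfl))
      rw [hv v₀ hne (pos_iff_ne_zero.2 hc)] at hnull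
      exact (ann_mono (μ := μ) 0 (fun u hu => ⟨hu.1, fun hs => hu.2 (Or.inr hs)⟩ :
        Nul e ⊆ Esc (axisLevel e) \ Conv v)).trans hnull.le
  have hUm : MeasurableSet (⋃ e, Nul e) := MeasurableSet.iUnion hNm
  have hU : ann μ 0 (⋃ e, Nul e) = 0 :=
    nonpos_iff_eq_zero.1 ((ann_iUnion_le 0 hNm).trans (le_of_eq (ENNReal.tsum_eq_zero.2 hN0)))
  calc (1 : ℝ≥0∞) = ann μ 0 (⋃ e, Nul e)ᶜ := by rw [ann_compl 0 hUm, hU, tsub_zero]
    _ ≤ _ := ann_mono 0 ?_
  intro u hu
  simp only [mem_compl_iff, mem_iUnion, not_exists] at hu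
  by_contra hb
  simp only [mem_ofPred_eq, not_or, not_forall] at hb
  obtain ⟨⟨i, hi⟩, hc⟩ := hb
  have hstep : ∀ n, |path 0 u (n + 1) i - path 0 u n i| ≤ 1 := fun n => by
    rw [path_succ]
    simpa [disp] using abs_disp_apply_le [u n] i
  have hslow : ∀ b : Bool, u ∉ Slow (axisLevel (i, b)) := by
    intro b hs
    refine hi (Tendsto.liminf_eq ?_)
    have h1 := hs.abs
    rw [abs_zero] at h1
    refine h1.congr fun n => ?_
    cases b <;> simp [axisLevel, abs_div]
  rcases sign_of_liminf (x := fun n => path 0 u n i) (by simp [path]) hstep hi with h | h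
  · exact hu (i, true) ⟨by simpa [Esc, axisLevel] using h,
      fun h' => h'.elim (hslow true) hc⟩
  · exact hu (i, false) ⟨by simpa [Esc, axisLevel] using h,
      fun h' => h'.elim (hslow false) hc⟩
where
  sdiff_sup_self'' {a b : Set (ℕ → Step d)} : a ⊆ (a \ b) ∪ b := fun u hu => by
    by_cases hb : u ∈ b
    · exact Or.inr hb
    · exact Or.inl ⟨hu, hb⟩

end Vale.Agent.P147.Regen
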