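import Vale.Agent.P147.Regen.CaseA
import Vale.Agent.P147.Regen.CaseB
import Vale.Agent.P147.Regen.Drift
import Vale.Agent.P147.Regen.Velocity

/-!
# At most one nonzero velocity in every dimension at least three
-/

namespace Vale.Agent.P147.Regen

open MeasureTheory Set Filter
open scoped ENNReal

/-- Two opposite ballistic directions are impossible in dimension at least three. -/
theorem not_both_ballistic {d : ℕ} [NeZero d] (μ : Measure (Step d → ℝ)) [IsProbabilityMeasure μ]
    (φ : Site d →+ ℤ) (hd : 3 ≤ d) (h : Hyp μ φ) (hp : meanLen μ φ ≠ ∞)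
    (hm : meanLen μ (-φ) ≠ ∞) : False := by
  obtain ⟨k, rfl⟩ : ∃ k, d = k + 1 := ⟨d - 1, by omega⟩
  obtain ⟨⟨i₀, b⟩, hb⟩ := h.lev.2
  have hi : φ (stp (i₀, true)) ≠ 0 := by
    cases b
    · intro h0
      have := stp_neg (i₀, true)
      simp only [Bool.not_true] at this
      rw [this, map_neg, h0, neg_zero] at hb
      exact zero_ne_one hb
    · rw [hb]; exact one_ne_zero
  have := isProbabilityMeasure_pairLaw μ φ h
  by_cases hv : Integrable (fun p => ∑ i, ((vlat i₀ p i : ℝ)) ^ 2) (pairLaw μ φ)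
  swap
  · exact false_of_bandSmall (by omega) h
      (bandSmall_of_infinite_variance μ φ i₀ (by omega) h hi hp hm hv)
  have hvi : ∀ i, Integrable (fun p => (vlat i₀ p i : ℝ)) (pairLaw μ φ) := fun i => by
    have hm' : AEStronglyMeasurable (fun p => (vlat i₀ p i : ℝ)) (pairLaw μ φ) :=
      (measurable_of_countable _).aestronglyMeasurable
    refine ((memLp_two_iff_integrable_sq hm').2 (hv.mono' (hm'.pow 2)
      (Eventually.of_forall fun p => ?_))).integrable one_le_two
    show ‖((vlat i₀ p i : ℝ)) ^ 2‖ ≤ _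
    rw [Real.norm_eq_abs, abs_of_nonneg (sq_nonneg _)]
    exact Finset.single_le_sum (f := fun i => ((vlat i₀ p i : ℝ)) ^ 2)
      (fun j _ => sq_nonneg _) (Finset.mem_univ i)
  by_cases h0 : ∀ i, ∫ p, (vlat i₀ p i : ℝ) ∂pairLaw μ φ = 0
  · exact false_of_bandSmall (by omega) h
      (bandSmall_of_finite_variance μ φ i₀ h hi (fun j => exists_pairs_axis h.lev hi j) hv h0)
  · obtain ⟨i, hne⟩ := not_forall.1 h0
    exact false_of_drift μ φ i₀ (by omega) h hi hp hm hvi i hne

/-- At most one nonzero velocity, for the annealed law of the step sequence. -/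
theorem one_velocity {d : ℕ} [NeZero d] (μ : Measure (Step d → ℝ)) [IsProbabilityMeasure μ]
    (hd : 3 ≤ d) (hell : IsElliptic μ) :
    ∃ v : Fin d → ℝ, ann μ 0
      {u | (∀ i, liminf (fun n => |(path 0 u n i : ℝ)| / n) atTop = 0) ∨
        Tendsto (fun n => fun i => (path 0 u n i : ℝ) / n) atTop (nhds v)} = 1 :=
  one_velocity_of μ hell fun φ h hp hm => not_both_ballistic μ φ hd h hp hm

end Vale.Agent.P147.Regen
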