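import Vale.Agent.P147.Regen.SegWord

/-!
# Regeneration: the annealed Markov property at records, and almost sure regeneration
-/

namespace Vale.Agent.P147.Regen

open MeasureTheory Set Filter
open scoped ENNReal

variable {d : ℕ}

namespace SegAux

variable {φ : Site d →+ ℤ}

theorem measurable_lev (φ : Site d →+ ℤ) (n : ℕ) :
    Measurable fun u : ℕ → Step d => lev φ u n :=
  (Measurable.of_discrete (f := (φ : Site d → ℤ))).comp
    ((measurable_pi_apply n).comp (measurable_path 0))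

theorem measurableSet_le_lev (φ : Site d →+ ℤ) (n : ℕ) (M : ℤ) :
    MeasurableSet {u : ℕ → Step d | M ≤ lev φ u n} :=
  measurableSet_le measurable_const (measurable_lev φ n)

theorem measurableSet_NB (φ : Site d →+ ℤ) : MeasurableSet (NB φ : Set (ℕ → Step d)) := by
  have : (NB φ : Set (ℕ → Step d)) = ⋂ n, {u | 0 ≤ lev φ u n} := by ext u; simp [NB, lev]
  rw [this]
  exact MeasurableSet.iInter fun n => measurableSet_le_lev φ n 0

theorem measurableSet_EscAux (φ : Site d →+ ℤ) : MeasurableSet (Esc φ) := by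
  have : Esc φ = ⋂ M : ℤ, ⋃ N : ℕ, ⋂ n ∈ Ici N, {u | M ≤ lev φ u n} := by
    ext u
    simp [mem_Esc, tendsto_atTop]
  rw [this]
  exact MeasurableSet.iInter fun M => MeasurableSet.iUnion fun N =>
    MeasurableSet.biInter (to_countable _) fun n _ => measurableSet_le_lev φ n M

theorem measurableSet_UnbAux (φ : Site d →+ ℤ) : MeasurableSet (Unb φ) := by
  have : Unb φ = ⋂ M : ℤ, ⋃ n, {u | M ≤ lev φ u n} := by ext u; simp [Unb, lev]
  rw [this]
  exact MeasurableSet.iInter fun M => MeasurableSet.iUnion fun n => measurableSet_le_lev φ n M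

theorem measurableSet_UpAux (φ : Site d →+ ℤ) : MeasurableSet (Up φ) :=
  (measurableSet_NB φ).inter (measurableSet_EscAux φ)

theorem Up_subset_NB (φ : Site d →+ ℤ) : Up φ ⊆ NB φ := inter_subset_left

/-- No regeneration at a level at least `K`, although the levels are unbounded. -/
def Bad (φ : Site d →+ ℤ) (K : ℤ) : Set (ℕ → Step d) :=
  Unb φ ∩ {u | ∀ n, (∀ i < n, lev φ u i < lev φ u n) → K ≤ lev φ u n → shiftSeq n u ∉ NB φ}

/-- A word which records above `s` after falling below it. -/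
def Next (φ : Site d →+ ℤ) (s v : Word d) : Prop :=
  s.length < v.length ∧ v.take s.length = s ∧ IsRec φ v ∧
    ∃ k < v.length, s.length ≤ k ∧ φ (disp (v.take k)) < φ (disp s)

theorem Next_height {s v : Word d} (h : Next φ s v) : φ (disp s) < φ (disp v) := by
  obtain ⟨h1, h2, h3, -⟩ := h
  have := h3 _ h1
  rwa [h2] at this

variable [NeZero d] (μ : Measure (Step d → ℝ)) [IsProbabilityMeasure μ]

/-- The annealed law of the steps of the walk from the origin. -/
noncomputable def annM : Measure (ℕ → Step d) := (envLaw μ).bind fun w => W w 0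

theorem measurable_W0 : Measurable fun w : Env d => W w 0 :=
  Measure.measurable_of_measurable_coe _ fun _ hA => measurable_W 0 hA

theorem annM_apply {A : Set (ℕ → Step d)} (hA : MeasurableSet A) : annM μ A = ann μ 0 A :=
  Measure.bind_apply hA measurable_W0.aemeasurable

instance : IsProbabilityMeasure (annM μ) :=
  ⟨by rw [annM_apply μ MeasurableSet.univ, ann_univ]⟩

theorem aUp_eq (φ : Site d →+ ℤ) : aUp μ φ = annM μ (Up φ) :=
  (annM_apply μ (measurableSet_UpAux φ)).symm

theorem aUp_le_one (φ : Site d →+ ℤ) : aUp μ φ ≤ 1 := ann_le_one 0 _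

theorem aUp_ne_top (φ : Site d →+ ℤ) : aUp μ φ ≠ ∞ :=
  ne_top_of_le_ne_top ENNReal.one_ne_top (aUp_le_one μ φ)

theorem annM_Pre (hell : IsElliptic μ) (s : Word d) : annM μ (Pre s) = wt μ s := by
  rw [annM_apply μ (measurableSet_Pre s), ann_Pre (ae_isEnv μ hell)]

/-- The Markov property at a record. -/
theorem annM_rec_inter (hell : IsElliptic μ) {s : Word d} (hs : IsRec φ s)
    {A : Set (ℕ → Step d)} (hA : MeasurableSet A) (hAN : A ⊆ NB φ) :
    annM μ (Pre s ∩ shiftSeq s.length ⁻¹' A) = wt μ s * annM μ A := by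
  rw [annM_apply μ ((measurableSet_Pre s).inter (measurable_shiftSeq _ hA)), annM_apply μ hA,
    ann_Pre_inter (ae_isEnv μ hell) 0 s hA ?_, zero_add, ann_translate _ hA]
  intro v hv n hmem
  obtain ⟨k, hk, he⟩ := mem_trace.1 hmem
  have := congrArg φ he
  rw [path_eq_add, map_add, map_add, map_add, map_zero, zero_add, zero_add] at this
  have h1 : 0 ≤ φ (path 0 v n) := hAN hv n
  have := hs k hk
  omega

/-- Failing to regenerate after a record. -/
theorem annM_fail (hell : IsElliptic μ) {s : Word d} (hs : IsRec φ s) :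
    annM μ (Pre s ∩ shiftSeq s.length ⁻¹' (NB φ)ᶜ) ≤ wt μ s * (1 - aUp μ φ) := by
  rcases le_or_gt (aUp μ φ) 0 with h0 | -
  · rw [le_zero_iff.1 h0, tsub_zero, mul_one, ← annM_Pre μ hell s]
    exact measure_mono inter_subset_left
  have h1 := annM_rec_inter μ hell hs (measurableSet_NB φ) subset_rfl
  have h2 : annM μ (Pre s ∩ shiftSeq s.length ⁻¹' (NB φ)ᶜ) +
      annM μ (Pre s ∩ shiftSeq s.length ⁻¹' (NB φ)) = wt μ s := by
    rw [← annM_Pre μ hell s]
    have := measure_inter_add_sdiff (μ := annM μ) (Pre s)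
      (measurable_shiftSeq (α := Step d) s.length (measurableSet_NB φ))
    rw [add_comm, preimage_compl, ← sdiff_eq]
    exact this
  have h3 : aUp μ φ ≤ annM μ (NB φ) := by
    rw [aUp_eq]; exact measure_mono (Up_subset_NB φ)
  rw [h1] at h2
  have hne : wt μ s ≠ ∞ :=
    ne_top_of_le_ne_top ENNReal.one_ne_top (wt_le_one (ae_isEnv μ hell) s)
  rw [ENNReal.mul_sub (fun _ _ => hne), mul_one]
  refine ENNReal.le_sub_of_add_le_right (ENNReal.mul_ne_top hne (aUp_ne_top μ φ)) ?_
  exact (add_le_add le_rfl (mul_le_mul_of_nonneg_left h3 zero_le)).trans_eq h2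

omit [NeZero d] in
theorem measurableSet_Bad (φ : Site d →+ ℤ) (K : ℤ) :
    MeasurableSet (Bad φ K : Set (ℕ → Step d)) := by
  refine (measurableSet_UnbAux φ).inter ?_
  have : {u : ℕ → Step d | ∀ n, (∀ i < n, lev φ u i < lev φ u n) → K ≤ lev φ u n →
      shiftSeq n u ∉ NB φ} = ⋂ n, ((⋂ i ∈ Iio n, {u | lev φ u i < lev φ u n}) ∩
        {u | K ≤ lev φ u n} ∩ shiftSeq n ⁻¹' NB φ)ᶜ := by
    ext u
    simp only [mem_ofPred_eq, mem_iInter, mem_compl_iff, mem_inter_iff, mem_preimage, mem_Iio]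
    exact ⟨fun h n hn => h n hn.1.1 hn.1.2 hn.2, fun h n a b c => h n ⟨⟨a, b⟩, c⟩⟩
  rw [this]
  exact MeasurableSet.iInter fun n => ((((MeasurableSet.biInter (to_countable _)
    fun i _ => measurableSet_lt (measurable_lev φ i) (measurable_lev φ n))).inter
      (measurableSet_le_lev φ n K)).inter
      (measurable_shiftSeq n (measurableSet_NB φ))).compl

omit [NeZero d] in
theorem Bad_subset_next {K : ℤ} {s : Word d} (hs : IsRec φ s) (hK : K ≤ φ (disp s)) :
    Pre s ∩ Bad φ K ⊆ ⋃ v : Stops (Next φ s), Pre v.1 ∩ Bad φ K := by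
  rintro u ⟨hu, hbad⟩
  have hnb := hbad.2 s.length ((isRec_iff hu).1 hs) (lev_end φ hu ▸ hK)
  rw [mem_NB_shift] at hnb
  push Not at hnb
  obtain ⟨k, hk, hklt⟩ := hnb
  obtain ⟨n₁, hn₁⟩ := hbad.1
    ((((Finset.range (k + 1)).sup' ⟨0, by simp⟩ fun i => lev φ u i)) + 1)
  classical
  set M := ((Finset.range (k + 1)).sup' ⟨0, by simp⟩ fun i => lev φ u i) with hM
  have hex : ∃ n, M + 1 ≤ lev φ u n := ⟨n₁, hn₁⟩
  set n := Nat.find hex with hn
  have hn0 : M + 1 ≤ lev φ u n := Nat.find_spec hex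
  have hle : ∀ i ≤ k, lev φ u i ≤ M := fun i hi =>
    Finset.le_sup' (fun i => lev φ u i) (Finset.mem_range.2 (Nat.lt_succ_of_le hi))
  have hkn : k < n := by
    by_contra hc
    have := hle n (not_lt.1 hc)
    omega
  have hrec : IsRec φ (pref u n) := by
    rw [isRec_iff (pref_mem u n), pref_length]
    intro i hi
    have := Nat.find_min hex hi
    omega
  obtain ⟨v, hv, huv⟩ := exists_stop (P := Next φ s) (u := u) ⟨n, by simp; omega,
    by rw [take_pref u (by omega), pref_eq hu], hrec, k, by simp; omega, hk,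
    by rw [take_pref u hkn.le, lev_pref, lev_end φ hu]; exact hklt⟩
  exact mem_iUnion.2 ⟨⟨v, hv⟩, huv, hbad⟩

theorem tsum_next (hell : IsElliptic μ) {s : Word d} (hs : IsRec φ s) :
    ∑' v : Stops (Next φ s), wt μ v.1 ≤ wt μ s * (1 - aUp μ φ) := by
  refine le_trans ?_ (annM_fail μ hell hs)
  simp only [← annM_Pre μ hell]
  rw [← measure_iUnion ?_ fun v => measurableSet_Pre _]
  · refine measure_mono (iUnion_subset fun v u hu => ?_)
    obtain ⟨h1, h2, h3, k, hk, hsk, hlt⟩ := v.2.1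
    have hus : u ∈ Pre s := by
      intro i hi
      rw [hu i (by omega)]
      have e := take_eq_pref hu h1.le
      rw [h2] at e
      have := List.getElem_of_eq e (i := i) hi
      simp only [pref, List.getElem_ofFn] at this
      rw [this, hu i (by omega)]
    refine ⟨hus, fun hnb => ?_⟩
    have := mem_NB_shift.1 hnb k hsk
    rw [lev_take φ hu hk.le, lev_end φ hus] at hlt
    omega
  · intro v v' hne
    exact disjoint_left.2 fun u h1 h2 => hne (Subtype.ext (eq_of_Stops v.2 v'.2 h1 h2))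

theorem annM_Bad_rec (hell : IsElliptic μ) (K : ℤ) (j : ℕ) :
    ∀ s : Word d, IsRec φ s → K ≤ φ (disp s) →
      annM μ (Pre s ∩ Bad φ K) ≤ (1 - aUp μ φ) ^ j * wt μ s := by
  induction j with
  | zero =>
    intro s _ _
    rw [pow_zero, one_mul, ← annM_Pre μ hell s]
    exact measure_mono inter_subset_left
  | succ j ih =>
    intro s hs hK
    calc annM μ (Pre s ∩ Bad φ K)
        ≤ annM μ (⋃ v : Stops (Next φ s), Pre v.1 ∩ Bad φ K) :=
          measure_mono (Bad_subset_next hs hK)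
      _ ≤ ∑' v : Stops (Next φ s), annM μ (Pre v.1 ∩ Bad φ K) := measure_iUnion_le _
      _ ≤ ∑' v : Stops (Next φ s), (1 - aUp μ φ) ^ j * wt μ v.1 :=
          ENNReal.tsum_le_tsum fun v => ih _ v.2.1.2.2.1 (hK.trans (Next_height v.2.1).le)
      _ = (1 - aUp μ φ) ^ j * ∑' v : Stops (Next φ s), wt μ v.1 := ENNReal.tsum_mul_left
      _ ≤ (1 - aUp μ φ) ^ j * (wt μ s * (1 - aUp μ φ)) :=
          mul_le_mul_of_nonneg_left (tsum_next μ hell hs) zero_le
      _ = (1 - aUp μ φ) ^ (j + 1) * wt μ s := by rw [pow_succ]; ring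

theorem annM_Bad (hell : IsElliptic μ) (ha : 0 < aUp μ φ) (K : ℤ) :
    annM μ (Bad φ K) = 0 := by
  set P : Word d → Prop := fun v => IsRec φ v ∧ K ≤ φ (disp v)
  have hj : ∀ j, annM μ (Bad φ K) ≤ (1 - aUp μ φ) ^ j := fun j => by
    calc annM μ (Bad φ K) ≤ annM μ (⋃ v : Stops P, Pre v.1 ∩ Bad φ K) := by
          refine measure_mono fun u hu => ?_
          classical
          have hex : ∃ n, K ≤ lev φ u n := hu.1 K
          obtain ⟨v, hv, huv⟩ := exists_stop (P := P) (u := u) ⟨Nat.find hex, by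
            refine ⟨(isRec_iff (pref_mem u _)).2 fun i hi => ?_,
              by rw [lev_pref]; exact Nat.find_spec hex⟩
            rw [pref_length] at hi ⊢
            have := Nat.find_min hex hi
            have := Nat.find_spec hex
            omega⟩
          exact mem_iUnion.2 ⟨⟨v, hv⟩, huv, hu⟩
      _ ≤ ∑' v : Stops P, annM μ (Pre v.1 ∩ Bad φ K) := measure_iUnion_le _
      _ ≤ ∑' v : Stops P, (1 - aUp μ φ) ^ j * annM μ (Pre v.1) :=
          ENNReal.tsum_le_tsum fun v => by
            rw [annM_Pre μ hell]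
            exact annM_Bad_rec μ hell K j _ v.2.1.1 v.2.1.2
      _ = (1 - aUp μ φ) ^ j * annM μ (⋃ v : Stops P, Pre v.1) := by
          rw [measure_iUnion ?_ fun v => measurableSet_Pre _, ENNReal.tsum_mul_left]
          intro v v' hne
          exact disjoint_left.2 fun u h1 h2 => hne (Subtype.ext (eq_of_Stops v.2 v'.2 h1 h2))
      _ ≤ (1 - aUp μ φ) ^ j := mul_le_of_le_one_right zero_le prob_le_one
  have hlt : 1 - aUp μ φ < 1 :=
    ENNReal.sub_lt_self ENNReal.one_ne_top one_ne_zero ha.ne'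
  exact le_antisymm (ge_of_tendsto' (ENNReal.tendsto_pow_atTop_nhds_zero_of_lt_one hlt) hj)
    zero_le

theorem annM_unb_diff_esc (hell : IsElliptic μ) (ha : 0 < aUp μ φ) :
    annM μ (Unb φ \ Esc φ) = 0 := by
  refine measure_mono_null (fun u hu => ?_)
    ((measure_iUnion_null_iff (μ := annM μ) (s := fun K : ℤ => Bad φ K)).2
      fun K => annM_Bad μ hell ha K)
  have hesc := hu.2
  rw [mem_Esc, tendsto_atTop] at hesc
  push Not at hesc
  obtain ⟨K, hK⟩ := hesc
  rw [frequently_atTop] at hK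
  refine mem_iUnion.2 ⟨K, hu.1, fun n _ hKn hnb => ?_⟩
  obtain ⟨m, hm, hlt⟩ := hK n
  have := mem_NB_shift.1 hnb m hm
  omega

/-- The first cut of an upward walk. -/
def FirstCut (φ : Site d →+ ℤ) (b : {b : Word d // IsBlock φ b}) : Set (ℕ → Step d) :=
  Pre b.1 ∩ shiftSeq b.1.length ⁻¹' Up φ

omit [NeZero d] in
theorem FirstCut_disjoint (φ : Site d →+ ℤ) :
    Pairwise (Function.onFun Disjoint (FirstCut φ)) := fun b b' hne =>
  disjoint_left.2 fun _ h1 h2 => hne (Subtype.ext (eq_of_blocks b.2 b'.2 h1.1 h2.1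
    (Up_subset_NB φ h1.2) (Up_subset_NB φ h2.2)))

omit [NeZero d] in
theorem FirstCut_subset (b : {b : Word d // IsBlock φ b}) : FirstCut φ b ⊆ Up φ := by
  rintro u ⟨hu, hup⟩
  obtain ⟨hcut, hesc⟩ := mem_Up_shift.1 hup
  refine mem_Up.2 ⟨fun m => ?_, hesc⟩
  have hb := (isSeg_iff hu).1 b.2.1
  rcases lt_or_ge m b.1.length with hm | hm
  · exact (hb.2 m hm).1
  · have h0 := hb.2 0 hb.1
    have := hcut m hm
    rw [lev_zero] at h0
    omega

/-- Every upward walk regenerates. -/
theorem Up_sdiff_null (hell : IsElliptic μ) (ha : 0 < aUp μ φ) :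
    annM μ (Up φ \ ⋃ b, FirstCut φ b) = 0 := by
  refine measure_mono_null (fun u hu => ?_) (annM_Bad μ hell ha 1)
  obtain ⟨⟨hnn, hesc⟩, hno⟩ := hu
  refine ⟨Esc_subset_Unb hesc, fun n hrec hn1 hnb => hno ?_⟩
  classical
  -- take the first cut
  have hex : ∃ m, (∀ i < m, lev φ u i < lev φ u m) ∧ 1 ≤ lev φ u m ∧ shiftSeq m u ∈ NB φ :=
    ⟨n, hrec, hn1, hnb⟩
  obtain ⟨h1, h2, h3⟩ := Nat.find_spec hex
  set m := Nat.find hex with hm
  have hm0 : 0 < m := by
    rcases Nat.eq_zero_or_pos m with h0 | h0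
    · rw [h0, lev_zero] at h2; omega
    · exact h0
  have hseg : IsSeg φ (pref u m) := by
    rw [isSeg_iff (pref_mem u m), pref_length]
    exact ⟨hm0, fun k hk => ⟨hnn k, h1 k hk⟩⟩
  have hblock : IsBlock φ (pref u m) := by
    refine ⟨hseg, fun s₁ s₂ hs₁ hs₂ he => ?_⟩
    have hu12 : u ∈ Pre (s₁ ++ s₂) := he ▸ pref_mem u m
    obtain ⟨hu1, -⟩ := Pre_append hu12
    have hlen : m = s₁.length + s₂.length := by
      rw [← pref_length u m, he, List.length_append]
    have hp1 := ((isSeg_iff hu1).1 hs₁).2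
    have hl := hp1 0 hs₁.1
    rw [lev_zero] at hl
    refine Nat.find_min hex (m := s₁.length) (by have := hs₂.1; omega)
      ⟨fun i hi => (hp1 i hi).2, by omega, mem_NB_shift.2 fun j hj => ?_⟩
    rcases lt_or_ge j m with hjm | hjm
    · have hlev : φ (disp ((s₁ ++ s₂).take j)) = lev φ u j :=
        lev_take φ hu12 (by simp; omega)
      rw [level_append] at hlev
      have h4 := (pseg_level_le (pseg_of_seg hs₂) (j - s₁.length)).1
      rw [lev_end φ hu1] at hlev
      split_ifs at hlev with hc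
      · rw [Nat.le_antisymm hc hj]
      · omega
    · have := mem_NB_shift.1 h3 j hjm
      have := h1 s₁.length (by have := hs₂.1; omega)
      omega
  refine mem_iUnion.2 ⟨⟨_, hblock⟩, pref_mem u m, ?_⟩
  simp only [mem_preimage, pref_length]
  exact ⟨h3, mem_Esc_shift.2 hesc⟩

/-- Decomposition of an upward event at the first cut. -/
theorem Up_decomp (hell : IsElliptic μ) (ha : 0 < aUp μ φ) {S : Set (ℕ → Step d)}
    (hS : MeasurableSet S) :
    annM μ (Up φ ∩ S) = ∑' b, annM μ (FirstCut φ b ∩ S) := by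
  have hm : ∀ b : {b : Word d // IsBlock φ b}, MeasurableSet (FirstCut φ b) := fun b =>
    (measurableSet_Pre _).inter (measurable_shiftSeq _ (measurableSet_UpAux φ))
  rw [← measure_iUnion (fun b b' h => ((FirstCut_disjoint φ h).mono inter_subset_left
      inter_subset_left)) fun b => (hm b).inter hS, ← iUnion_inter]
  refine le_antisymm ?_ (measure_mono (inter_subset_inter_left _
    (iUnion_subset FirstCut_subset)))
  calc annM μ (Up φ ∩ S) ≤ annM μ ((⋃ b, FirstCut φ b) ∩ S ∪ (Up φ \ ⋃ b, FirstCut φ b)) := by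
        refine measure_mono fun u hu => ?_
        by_cases h : u ∈ ⋃ b, FirstCut φ b
        · exact Or.inl ⟨h, hu.2⟩
        · exact Or.inr ⟨hu.1, h⟩
    _ ≤ _ := (measure_union_le _ _).trans_eq (by rw [Up_sdiff_null μ hell ha, add_zero])

theorem tsum_block_wt (hell : IsElliptic μ) (ha : 0 < aUp μ φ) :
    ∑' b : {b : Word d // IsBlock φ b}, wt μ b.1 = 1 := by
  have h := Up_decomp μ hell ha (φ := φ) MeasurableSet.univ
  simp only [inter_univ, FirstCut] at h
  rw [tsum_congr fun b : {b : Word d // IsBlock φ b} => annM_rec_inter μ hell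
      (isRec_of_pseg (pseg_of_seg b.2.1)) (measurableSet_UpAux φ) (Up_subset_NB φ),
    ENNReal.tsum_mul_right] at h
  rw [← aUp_eq] at h
  exact ((ENNReal.mul_left_inj ha.ne' (aUp_ne_top μ φ)).1 (by rw [one_mul]; exact h)).symm

end SegAux

end Vale.Agent.P147.Regen
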