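import Mathlib

/-!
# Independence of past and future for iid sequences
-/

namespace Vale.Agent.P147.Regen

open MeasureTheory ProbabilityTheory Set
open scoped ENNReal

variable {α : Type*} [MeasurableSpace α] (ν : Measure α) [IsProbabilityMeasure ν]

theorem measurePreserving_shiftNat (n : ℕ) :
    MeasurePreserving (fun (ω : ℕ → α) k => ω (n + k)) (Measure.infinitePi fun _ : ℕ => ν)
      (Measure.infinitePi fun _ : ℕ => ν) := by
  refine ⟨measurable_pi_lambda _ fun k => measurable_pi_apply _, ?_⟩
  exact Measure.map_infinitePi_infinitePi_of_inj (add_right_injective n)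

/-- A function of the first `n` coordinates is independent of the shifted sequence. -/
theorem lintegral_past_mul_future (n : ℕ) {f g : (ℕ → α) → ℝ≥0∞} (hf : Measurable f)
    (hfn : DependsOn f (Iio n)) (hg : Measurable g) :
    ∫⁻ ω, f ω * g (fun k => ω (n + k)) ∂(Measure.infinitePi fun _ : ℕ => ν) =
      (∫⁻ ω, f ω ∂(Measure.infinitePi fun _ : ℕ => ν)) *
        ∫⁻ ω, g ω ∂(Measure.infinitePi fun _ : ℕ => ν) := by
  classical
  let P := Measure.infinitePi fun _ : ℕ => ν
  let m : ℕ → MeasurableSpace (ℕ → α) := fun y =>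
    MeasurableSpace.comap (fun w : ℕ → α => w y) inferInstance
  have hle : ∀ y, m y ≤ (MeasurableSpace.pi : MeasurableSpace (ℕ → α)) := fun y =>
    (measurable_pi_apply y).comap_le
  have hind : iIndep m P :=
    iIndepFun_infinitePi (P := fun _ : ℕ => ν) (X := fun _ p => p) fun _ => measurable_id
  have hdisj : Disjoint (Iio n) (Ici n) := Iio_disjoint_Ici le_rfl
  obtain ⟨a⟩ : Nonempty α := nonempty_of_isProbabilityMeasure ν
  have hf' : @Measurable _ _ (⨆ y ∈ Iio n, m y) _ f := by
    let Φ : (ℕ → α) → ℕ → α := fun w y => if y ∈ Iio n then w y else a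
    have heq : f = f ∘ Φ := funext fun w => hfn fun y hy => (if_pos hy).symm
    rw [heq]
    refine @Measurable.comp _ _ _ (⨆ y ∈ Iio n, m y) _ _ f Φ hf ?_
    refine @measurable_pi_lambda _ _ _ (⨆ y ∈ Iio n, m y) _ Φ fun y => ?_
    by_cases hy : y ∈ Iio n
    · simp only [Φ, hy, if_true]
      exact Measurable.of_comap_le (le_iSup₂_of_le y hy le_rfl)
    · simp only [Φ, hy, if_false]
      exact measurable_const
  have hg' : @Measurable _ _ (⨆ y ∈ Ici n, m y) _ (fun ω => g fun k => ω (n + k)) := by
    refine @Measurable.comp _ _ _ (⨆ y ∈ Ici n, m y) _ _ g _ hg ?_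
    refine @measurable_pi_lambda _ _ _ (⨆ y ∈ Ici n, m y) _ _ fun k => ?_
    exact Measurable.of_comap_le (le_iSup₂_of_le (n + k) (Nat.le_add_right n k) le_rfl)
  have h := lintegral_mul_eq_lintegral_mul_lintegral_of_independent_measurableSpace
    (iSup₂_le fun y _ => hle y) (iSup₂_le fun y _ => hle y)
    (indep_iSup_of_disjoint hle hind hdisj) hf' hg'
  rw [h]
  congr 1
  exact (measurePreserving_shiftNat ν n).lintegral_comp hg

theorem measure_past_inter_future (n : ℕ) {A B : Set (ℕ → α)} (hA : MeasurableSet A)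
    (hAn : DependsOn (· ∈ A) (Iio n)) (hB : MeasurableSet B) :
    (Measure.infinitePi fun _ : ℕ => ν) (A ∩ (fun (ω : ℕ → α) k => ω (n + k)) ⁻¹' B) =
      (Measure.infinitePi fun _ : ℕ => ν) A * (Measure.infinitePi fun _ : ℕ => ν) B := by
  classical
  have hd : DependsOn (A.indicator (1 : (ℕ → α) → ℝ≥0∞)) (Iio n) := fun x y hxy => by
    have := hAn hxy
    simp only [Set.indicator_apply, Pi.one_apply, this]
  have h := lintegral_past_mul_future ν n (f := A.indicator 1) (g := B.indicator 1)
    ((measurable_const (a := (1 : ℝ≥0∞))).indicator hA) hd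
    ((measurable_const (a := (1 : ℝ≥0∞))).indicator hB)
  rw [lintegral_indicator_one hA, lintegral_indicator_one hB] at h
  rw [← h, ← lintegral_indicator_one (hA.inter ((measurePreserving_shiftNat ν n).measurable hB))]
  refine lintegral_congr fun ω => ?_
  by_cases h1 : ω ∈ A <;> by_cases h2 : (fun k => ω (n + k)) ∈ B <;>
    simp [Set.indicator_apply, h1, h2]

omit ν in
/-- On a countable discrete space a set of the first `n` coordinates is measurable. -/
theorem measurableSet_of_dependsOn [Countable α] [DiscreteMeasurableSpace α] {A : Set (ℕ → α)}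
    {n : ℕ} (hA : DependsOn (· ∈ A) (Iio n)) : MeasurableSet A := by
  classical
  rcases isEmpty_or_nonempty α with hα | ⟨⟨a⟩⟩
  · have : IsEmpty (ℕ → α) := ⟨fun f => hα.false (f 0)⟩
    rw [Set.eq_empty_of_isEmpty A]
    exact MeasurableSet.empty
  let r : (ℕ → α) → (Fin n → α) := fun ω i => ω i
  let e : (Fin n → α) → ℕ → α := fun g i => if h : i < n then g ⟨i, h⟩ else a
  have : A = r ⁻¹' {g | e g ∈ A} := by
    ext ω
    have h : (ω ∈ A) = (e (r ω) ∈ A) := hA fun i hi => by simp [e, r, mem_Iio.1 hi]
    simp [h]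
  rw [this]
  have hr : Measurable r := measurable_pi_lambda _ fun i => measurable_pi_apply (i : ℕ)
  exact hr (MeasurableSet.of_discrete (α := Fin n → α))

end Vale.Agent.P147.Regen
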