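import Mathlib

/-!
# Anticoncentration of iid sums on `ℤ^k`

For a finitely supported probability weight `p` whose support contains a pair `x`, `x + e_i`
for every `i`, the `n`-fold convolution satisfies `p^{*n}(x) ≤ C / (n + 1)^(k/2)`, and for large `n`
the sharp bound `p^{*n}(x) ≤ C_k / (n^(k/2) * √(det Cov))` with `C_k` depending only on `k`.
Proof by Fourier inversion on the torus.
-/

open MeasureTheory Filter Topology Finset Real Matrix
open scoped MatrixOrder

namespace Vale.Agent.P147.Regen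

variable {k : ℕ}

/-- A probability weight supported on the finite set `s`. -/
structure IsWeight (s : Finset (Fin k → ℤ)) (p : (Fin k → ℤ) → ℝ) : Prop where
  nonneg : ∀ x ∈ s, 0 ≤ p x
  sum_eq_one : ∑ x ∈ s, p x = 1

/-- For every axis the support contains two neighbours along that axis. -/
def HasSteps (s : Finset (Fin k → ℤ)) (p : (Fin k → ℤ) → ℝ) : Prop :=
  ∀ i, ∃ x ∈ s, 0 < p x ∧ x + Pi.single i 1 ∈ s ∧ 0 < p (x + Pi.single i 1)

/-- The `n`-fold convolution power, as a sum over `n`-tuples of the support. -/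
noncomputable def convPow (s : Finset (Fin k → ℤ)) (p : (Fin k → ℤ) → ℝ) (n : ℕ)
    (x : Fin k → ℤ) : ℝ :=
  ∑ f ∈ (Fintype.piFinset fun _ : Fin n => s) with ∑ i, f i = x, ∏ i, p (f i)

/-- The inner product of a real vector with a lattice point. -/
noncomputable def dotZ (t : Fin k → ℝ) (x : Fin k → ℤ) : ℝ := ∑ i, t i * (x i : ℝ)

/-- The mean of a weight. -/
noncomputable def meanVec (s : Finset (Fin k → ℤ)) (p : (Fin k → ℤ) → ℝ) : Fin k → ℝ :=
  fun i => ∑ x ∈ s, p x * (x i : ℝ)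

/-- The covariance matrix of a weight. -/
noncomputable def covMat (s : Finset (Fin k → ℤ)) (p : (Fin k → ℤ) → ℝ) :
    Matrix (Fin k) (Fin k) ℝ :=
  fun i j => ∑ x ∈ s, p x * (((x i : ℝ) - meanVec s p i) * ((x j : ℝ) - meanVec s p j))

/-- The variance of `t · x` under a weight. -/
noncomputable def varDir (s : Finset (Fin k → ℤ)) (p : (Fin k → ℤ) → ℝ) (t : Fin k → ℝ) : ℝ :=
  ∑ x ∈ s, p x * (dotZ t x - t ⬝ᵥ meanVec s p) ^ 2

variable {s : Finset (Fin k → ℤ)} {p : (Fin k → ℤ) → ℝ}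

theorem dotZ_add (t : Fin k → ℝ) (x y : Fin k → ℤ) : dotZ t (x + y) = dotZ t x + dotZ t y := by
  simp [dotZ, mul_add, sum_add_distrib]

theorem dotZ_sum {ι : Type*} (t : Fin k → ℝ) (u : Finset ι) (f : ι → Fin k → ℤ) :
    dotZ t (∑ i ∈ u, f i) = ∑ i ∈ u, dotZ t (f i) := by
  simp only [dotZ, Finset.sum_apply, Int.cast_sum, mul_sum]
  exact sum_comm

theorem dotZ_single (t : Fin k → ℝ) (i : Fin k) : dotZ t (Pi.single i 1) = t i := by
  simp [dotZ, Pi.single_apply]

theorem dotProduct_covMat_mulVec (t : Fin k → ℝ) :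
    t ⬝ᵥ (covMat s p *ᵥ t) = varDir s p t := by
  have h : ∀ x : Fin k → ℤ, dotZ t x - t ⬝ᵥ meanVec s p =
      ∑ i, t i * ((x i : ℝ) - meanVec s p i) := fun x => by
    simp [dotZ, dotProduct, mul_sub, sum_sub_distrib]
  simp only [varDir, h, sq, sum_mul_sum]
  simp only [mul_sum, dotProduct, mulVec, covMat, sum_mul]
  rw [sum_comm (γ := Fin k → ℤ)]
  refine sum_congr rfl fun i _ => ?_
  rw [sum_comm (γ := Fin k → ℤ)]
  refine sum_congr rfl fun j _ => sum_congr rfl fun x _ => ?_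
  ring

theorem sum_mul_dotZ_sub_mean (hp : IsWeight s p) (t : Fin k → ℝ) :
    ∑ x ∈ s, p x * (dotZ t x - t ⬝ᵥ meanVec s p) = 0 := by
  have h : t ⬝ᵥ meanVec s p = ∑ x ∈ s, p x * dotZ t x := by
    simp only [dotProduct, meanVec, dotZ, mul_sum]
    rw [sum_comm]
    exact sum_congr rfl fun x _ => sum_congr rfl fun i _ => by ring
  simp only [mul_sub, sum_sub_distrib, ← sum_mul, hp.sum_eq_one, one_mul, h, sub_self]

theorem varDir_nonneg (hp : IsWeight s p) (t : Fin k → ℝ) : 0 ≤ varDir s p t :=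
  sum_nonneg fun x hx => mul_nonneg (hp.nonneg x hx) (sq_nonneg _)

theorem varDir_pos (hp : IsWeight s p) (ha : HasSteps s p) {t : Fin k → ℝ}
    (ht : t ≠ 0) : 0 < varDir s p t := by
  refine (varDir_nonneg hp t).lt_of_ne fun h => ht ?_
  have h0 := (sum_eq_zero_iff_of_nonneg fun x hx =>
    mul_nonneg (hp.nonneg x hx) (sq_nonneg _)).1 h.symm
  have hz : ∀ x ∈ s, 0 < p x → dotZ t x = t ⬝ᵥ meanVec s p := fun x hx hpx =>
    sub_eq_zero.1 (pow_eq_zero_iff two_ne_zero |>.1 ((mul_eq_zero.1 (h0 x hx)).resolve_left hpx.ne'))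
  funext i
  obtain ⟨a, hm, hpa, hm', hpa'⟩ := ha i
  have h1 := hz _ hm' hpa'
  rw [dotZ_add, hz a hm hpa, dotZ_single] at h1
  simpa using h1

theorem covMat_posDef (hp : IsWeight s p) (ha : HasSteps s p) :
    (covMat s p).PosDef := by
  refine posDef_iff_dotProduct_mulVec.2 ⟨Matrix.IsHermitian.ext fun i j => ?_, fun t ht => ?_⟩
  · simp [covMat, mul_comm]
  · simpa [dotProduct_covMat_mulVec] using varDir_pos hp ha ht

/-! ### The characteristic function -/

/-- The characteristic function of a weight. -/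
noncomputable def charFn (s : Finset (Fin k → ℤ)) (p : (Fin k → ℤ) → ℝ) (t : Fin k → ℝ) : ℂ :=
  ∑ x ∈ s, (p x : ℂ) * Complex.exp ((dotZ t x : ℂ) * Complex.I)

@[fun_prop]
theorem continuous_dotZ (x : Fin k → ℤ) : Continuous fun t => dotZ t x := by
  unfold dotZ; fun_prop

@[fun_prop]
theorem continuous_charFn : Continuous (charFn s p) := by
  unfold charFn; fun_prop

theorem charFn_pow (n : ℕ) (t : Fin k → ℝ) :
    charFn s p t ^ n = ∑ f ∈ Fintype.piFinset fun _ : Fin n => s,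
      (↑(∏ i, p (f i)) : ℂ) * Complex.exp ((dotZ t (∑ i, f i) : ℂ) * Complex.I) := by
  rw [charFn, sum_pow']
  refine sum_congr rfl fun f _ => ?_
  rw [prod_mul_distrib, ← Complex.exp_sum, dotZ_sum]
  push_cast
  rw [sum_mul]

theorem normSq_charFn (t : Fin k → ℝ) :
    ‖charFn s p t‖ ^ 2 = ∑ x ∈ s, ∑ y ∈ s, p x * p y * cos (dotZ t x - dotZ t y) := by
  rw [Complex.sq_norm, Complex.normSq_apply, charFn, Complex.re_sum, Complex.im_sum]
  simp only [Complex.re_ofReal_mul, Complex.im_ofReal_mul, Complex.exp_ofReal_mul_I_re,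
    Complex.exp_ofReal_mul_I_im, sum_mul_sum, ← sum_add_distrib, cos_sub]
  exact sum_congr rfl fun x _ => sum_congr rfl fun y _ => by ring

theorem sum_sum_mul_sq (hp : IsWeight s p) (t : Fin k → ℝ) :
    ∑ x ∈ s, ∑ y ∈ s, p x * p y * (dotZ t x - dotZ t y) ^ 2 = 2 * varDir s p t := by
  have h1 := sum_mul_dotZ_sub_mean hp t
  have h2 : varDir s p t = ∑ x ∈ s, p x * (dotZ t x - t ⬝ᵥ meanVec s p) ^ 2 := rfl
  have e : ∀ x y : Fin k → ℤ, p x * p y * (dotZ t x - dotZ t y) ^ 2 =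
      p x * (dotZ t x - t ⬝ᵥ meanVec s p) ^ 2 * p y +
        p x * (p y * (dotZ t y - t ⬝ᵥ meanVec s p) ^ 2) -
        2 * (p x * (dotZ t x - t ⬝ᵥ meanVec s p)) * (p y * (dotZ t y - t ⬝ᵥ meanVec s p)) :=
    fun x y => by ring
  simp only [e, sum_sub_distrib, sum_add_distrib, ← mul_sum, ← sum_mul, ← h2, hp.sum_eq_one, h1]
  ring

theorem normSq_charFn_le_one (hp : IsWeight s p) (t : Fin k → ℝ) : ‖charFn s p t‖ ^ 2 ≤ 1 := by
  rw [normSq_charFn]
  calc _ ≤ ∑ x ∈ s, ∑ y ∈ s, p x * p y := sum_le_sum fun x hx => sum_le_sum fun y hy =>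
        mul_le_of_le_one_right (mul_nonneg (hp.nonneg x hx) (hp.nonneg y hy)) (cos_le_one _)
    _ = 1 := by rw [← sum_mul_sum, hp.sum_eq_one, one_mul]

theorem norm_charFn_lt_one (hp : IsWeight s p) (ha : HasSteps s p)
    {t : Fin k → ℝ} (ht : ∀ i, t i ∈ Set.Icc (-π) π) (ht0 : t ≠ 0) : ‖charFn s p t‖ < 1 := by
  refine (pow_lt_one_iff_of_nonneg (norm_nonneg _) two_ne_zero).1 ?_
  rw [normSq_charFn]
  obtain ⟨i, hi⟩ := Function.ne_iff.1 ht0
  obtain ⟨a, hm, hpa, hm', hpa'⟩ := ha i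
  have hcos : cos (t i) < 1 := by
    refine (cos_le_one _).lt_of_ne fun h => hi ((cos_eq_one_iff_of_lt_of_lt ?_ ?_).1 h)
    · linarith [(ht i).1, pi_pos]
    · linarith [(ht i).2, pi_pos]
  calc _ < ∑ x ∈ s, ∑ y ∈ s, p x * p y := by
        refine sum_lt_sum (fun x hx => sum_le_sum fun y hy =>
          mul_le_of_le_one_right (mul_nonneg (hp.nonneg x hx) (hp.nonneg y hy)) (cos_le_one _))
          ⟨_, hm', sum_lt_sum (fun y hy => mul_le_of_le_one_right
            (mul_nonneg (hp.nonneg _ hm') (hp.nonneg y hy)) (cos_le_one _))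
            ⟨a, hm, ?_⟩⟩
        refine mul_lt_of_lt_one_right (mul_pos hpa' hpa) ?_
        rwa [dotZ_add, dotZ_single, add_sub_cancel_left]
    _ = 1 := by rw [← sum_mul_sum, hp.sum_eq_one, one_mul]

theorem norm_charFn_le_exp (hp : IsWeight s p) {t : Fin k → ℝ}
    (h : ∀ x ∈ s, ∀ y ∈ s, |dotZ t x - dotZ t y| ≤ π) :
    ‖charFn s p t‖ ≤ exp (-(2 / π ^ 2) * varDir s p t) := by
  refine (pow_le_pow_iff_left₀ (norm_nonneg _) (exp_pos _).le two_ne_zero).1 ?_
  rw [normSq_charFn, ← Real.exp_nat_mul]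
  calc _ ≤ ∑ x ∈ s, ∑ y ∈ s, p x * p y * (1 - 2 / π ^ 2 * (dotZ t x - dotZ t y) ^ 2) :=
        sum_le_sum fun x hx => sum_le_sum fun y hy => mul_le_mul_of_nonneg_left
          (cos_le_one_sub_mul_cos_sq (h x hx y hy)) (mul_nonneg (hp.nonneg x hx) (hp.nonneg y hy))
    _ = 1 + -(2 / π ^ 2) * (2 * varDir s p t) := by
        rw [← sum_sum_mul_sq hp]
        simp only [mul_sub, mul_one, sum_sub_distrib, ← sum_mul_sum, hp.sum_eq_one,
          mul_sum]
        rw [sub_eq_add_neg, ← sum_neg_distrib]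
        refine congrArg _ (sum_congr rfl fun x _ => ?_)
        rw [← sum_neg_distrib]
        exact sum_congr rfl fun y _ => by ring
    _ ≤ _ := by
        refine le_trans (le_of_eq ?_) ((add_comm _ _).le.trans (add_one_le_exp _))
        push_cast
        ring

/-! ### The torus and Fourier inversion -/

/-- The torus `(-π, π]^k` with Lebesgue measure. -/
noncomputable def torus (k : ℕ) : Measure (Fin k → ℝ) :=
  Measure.pi fun _ => volume.restrict (Set.Ioc (-π) π)

instance : IsFiniteMeasure (torus k) := by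
  unfold torus; infer_instance

theorem torus_eq : torus k = volume.restrict (Set.univ.pi fun _ => Set.Ioc (-π) π) := by
  rw [torus, volume_pi, Measure.restrict_pi_pi]

theorem torus_real_univ : (torus k).real Set.univ = (2 * π) ^ k := by
  simp [torus, measureReal_def, Measure.pi_univ, ENNReal.toReal_ofReal pi_pos.le,
    show π - -π = 2 * π by ring]

theorem integral_exp_int (m : ℤ) :
    ∫ θ, Complex.exp (((θ * m : ℝ) : ℂ) * Complex.I) ∂volume.restrict (Set.Ioc (-π) π) =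
      if m = 0 then ((2 * π : ℝ) : ℂ) else 0 := by
  rw [← intervalIntegral.integral_of_le (by linarith [pi_pos])]
  split_ifs with hm
  · subst hm; simp; ring
  · have hc : (m : ℂ) * Complex.I ≠ 0 := mul_ne_zero (by exact_mod_cast hm) Complex.I_ne_zero
    simp_rw [show ∀ θ : ℝ, ((θ * m : ℝ) : ℂ) * Complex.I = (m : ℂ) * Complex.I * (θ : ℂ) from
      fun θ => by push_cast; ring]
    rw [integral_exp_mul_complex hc, div_eq_zero_iff, sub_eq_zero]
    left
    rw [Complex.exp_eq_exp_iff_exists_int]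
    exact ⟨m, by push_cast; ring⟩

theorem integral_torus_exp (x : Fin k → ℤ) :
    ∫ t, Complex.exp ((dotZ t x : ℂ) * Complex.I) ∂torus k =
      if x = 0 then (((2 * π) ^ k : ℝ) : ℂ) else 0 := by
  have e : ∀ t : Fin k → ℝ, Complex.exp ((dotZ t x : ℂ) * Complex.I) =
      ∏ i, Complex.exp (((t i * x i : ℝ) : ℂ) * Complex.I) := fun t => by
    rw [← Complex.exp_sum, dotZ]; push_cast; rw [sum_mul]
  simp only [e]
  rw [torus, integral_fintype_prod_eq_prod
    (fun i (θ : ℝ) => Complex.exp (((θ * x i : ℝ) : ℂ) * Complex.I))]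
  simp only [integral_exp_int]
  split_ifs with hx
  · subst hx; simp
  · obtain ⟨i, hi⟩ := Function.ne_iff.1 hx
    exact prod_eq_zero (mem_univ i) (if_neg hi)

theorem convPow_eq_integral (n : ℕ) (x : Fin k → ℤ) :
    (((2 * π) ^ k * convPow s p n x : ℝ) : ℂ) =
      ∫ t, charFn s p t ^ n * Complex.exp ((dotZ t (-x) : ℂ) * Complex.I) ∂torus k := by
  have e : ∀ t, charFn s p t ^ n * Complex.exp ((dotZ t (-x) : ℂ) * Complex.I) =
      ∑ f ∈ Fintype.piFinset fun _ : Fin n => s,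
        (↑(∏ i, p (f i)) : ℂ) * Complex.exp ((dotZ t (∑ i, f i + -x) : ℂ) * Complex.I) := by
    intro t
    rw [charFn_pow, sum_mul]
    refine sum_congr rfl fun f _ => ?_
    rw [mul_assoc, ← Complex.exp_add, dotZ_add]
    push_cast
    ring_nf
  simp only [e]
  rw [integral_finsetSum]
  · simp only [integral_const_mul, integral_torus_exp, add_neg_eq_zero]
    rw [convPow, sum_filter]
    push_cast
    rw [mul_sum]
    exact sum_congr rfl fun f _ => by split_ifs <;> simp [mul_comm]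
  · intro f _
    refine Integrable.const_mul ?_ _
    refine Integrable.of_bound (by fun_prop) 1 (ae_of_all _ fun t => ?_)
    rw [Complex.norm_exp_ofReal_mul_I]

theorem convPow_le_integral (n : ℕ) (x : Fin k → ℤ) :
    (2 * π) ^ k * convPow s p n x ≤ ∫ t, ‖charFn s p t‖ ^ n ∂torus k := by
  calc (2 * π) ^ k * convPow s p n x ≤ |(2 * π) ^ k * convPow s p n x| := le_abs_self _
    _ = ‖∫ t, charFn s p t ^ n * Complex.exp ((dotZ t (-x) : ℂ) * Complex.I) ∂torus k‖ := by
        rw [← convPow_eq_integral, Complex.norm_real, Real.norm_eq_abs]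
    _ ≤ ∫ t, ‖charFn s p t ^ n * Complex.exp ((dotZ t (-x) : ℂ) * Complex.I)‖ ∂torus k :=
        norm_integral_le_integral_norm _
    _ = _ := by simp [Complex.norm_exp_ofReal_mul_I]

theorem exists_norm_charFn_le (hp : IsWeight s p) (ha : HasSteps s p) :
    ∃ r : ℝ, 0 ≤ r ∧ r < 1 ∧ ∀ t : Fin k → ℝ, (∀ i, t i ∈ Set.Icc (-π) π) →
      ∀ n : ℕ, ‖charFn s p t‖ ^ n ≤ exp (-(2 * n / π ^ 2) * varDir s p t) + r ^ n := by
  set M := ∑ x ∈ s, ∑ y ∈ s, ∑ i, |(x i : ℝ) - y i|
  have hM : 0 ≤ M := sum_nonneg fun x _ => sum_nonneg fun y _ => sum_nonneg fun i _ => abs_nonneg _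
  set δ := π / (1 + M)
  have hδ : 0 < δ := by positivity
  set K := Set.Icc (fun _ : Fin k => -π) (fun _ => π) ∩ {t | δ ≤ ‖t‖}
  have hK : IsCompact K := isCompact_Icc.inter_right (isClosed_le continuous_const continuous_norm)
  have hlt : ∀ t ∈ K, ‖charFn s p t‖ < 1 := fun t ht =>
    norm_charFn_lt_one hp ha (fun i => ⟨ht.1.1 i, ht.1.2 i⟩)
      (norm_pos_iff.1 (hδ.trans_le ht.2))
  obtain ⟨r, hr0, hr1, hr⟩ : ∃ r : ℝ, 0 ≤ r ∧ r < 1 ∧ ∀ t ∈ K, ‖charFn s p t‖ ≤ r := by
    rcases K.eq_empty_or_nonempty with h | h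
    · exact ⟨0, le_rfl, one_pos, by simp [h]⟩
    · obtain ⟨t₀, ht₀, hmax⟩ :=
        hK.exists_isMaxOn h (continuous_charFn.norm.continuousOn (s := K))
      exact ⟨_, norm_nonneg _, hlt t₀ ht₀, fun t ht => hmax ht⟩
  refine ⟨r, hr0, hr1, fun t ht n => ?_⟩
  by_cases hb : δ ≤ ‖t‖
  · exact (pow_le_pow_left₀ (norm_nonneg _) (hr t ⟨⟨fun i => (ht i).1, fun i => (ht i).2⟩, hb⟩)
      n).trans (le_add_of_nonneg_left (exp_pos _).le)
  · refine le_add_of_le_of_nonneg ?_ (pow_nonneg hr0 n)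
    refine (pow_le_pow_left₀ (norm_nonneg _) (norm_charFn_le_exp hp fun x hx y hy => ?_) n).trans
      (le_of_eq ?_)
    · have h1 : |dotZ t x - dotZ t y| ≤ δ * M := by
        calc |dotZ t x - dotZ t y| = |∑ i, t i * ((x i : ℝ) - y i)| := by
              simp [dotZ, mul_sub, sum_sub_distrib]
          _ ≤ ∑ i, δ * |(x i : ℝ) - y i| := (abs_sum_le_sum_abs _ _).trans (sum_le_sum fun i _ => by
              rw [abs_mul]
              exact mul_le_mul_of_nonneg_right ((norm_le_pi_norm t i).trans (not_le.1 hb).le)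
                (abs_nonneg _))
          _ ≤ δ * M := by
              rw [← mul_sum]
              exact mul_le_mul_of_nonneg_left ((single_le_sum (f := fun y => ∑ i, |(x i : ℝ) - y i|)
                (fun y _ => sum_nonneg fun i _ => abs_nonneg _) hy).trans
                (single_le_sum (f := fun x => ∑ y ∈ s, ∑ i, |(x i : ℝ) - y i|)
                  (fun x _ => sum_nonneg fun y _ => sum_nonneg fun i _ => abs_nonneg _) hx)) hδ.le
      refine h1.trans ?_
      rw [div_mul_eq_mul_div, div_le_iff₀ (by linarith)]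
      nlinarith [pi_pos]
    · rw [← Real.exp_nat_mul]; ring_nf

/-! ### The Gaussian integral -/

theorem exists_sq_root {C : Matrix (Fin k) (Fin k) ℝ} (hC : C.PosDef) :
    ∃ B : Matrix (Fin k) (Fin k) ℝ, B.det ≠ 0 ∧ |B.det| = √C.det ∧
      ∀ t, ∑ i, (B *ᵥ t) i ^ 2 = t ⬝ᵥ (C *ᵥ t) := by
  set B := CFC.sqrt C
  have hBB : B * B = C := CFC.sqrt_mul_sqrt_self C hC.posSemidef.nonneg
  have hBt : Bᵀ = B := by
    have := (CFC.sqrt_nonneg C).posSemidef.isHermitian
    rwa [Matrix.IsHermitian, conjTranspose_eq_transpose_of_trivial] at this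
  have hdet : B.det * B.det = C.det := by rw [← det_mul, hBB]
  refine ⟨B, fun h => hC.det_pos.ne' (by rw [← hdet, h, mul_zero]), ?_, fun t => ?_⟩
  · rw [← hdet, sqrt_mul_self_eq_abs]
  · rw [← hBB, ← mulVec_mulVec, dotProduct_mulVec t B, ← mulVec_transpose, hBt]
    simp [dotProduct, sq]

theorem integral_exp_neg_quad {C : Matrix (Fin k) (Fin k) ℝ} (hC : C.PosDef) {b : ℝ} (hb : 0 < b) :
    Integrable (fun t => exp (-b * (t ⬝ᵥ (C *ᵥ t)))) ∧
      ∫ t, exp (-b * (t ⬝ᵥ (C *ᵥ t))) = √(π / b) ^ k / √C.det := by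
  obtain ⟨B, hB0, hBabs, hB⟩ := exists_sq_root hC
  have hmap := map_matrix_volume_pi_eq_smul_volume_pi hB0
  set G : (Fin k → ℝ) → ℝ := fun u => ∏ i, exp (-b * u i ^ 2) with hG
  have hGc : Continuous G := by simp only [hG]; fun_prop
  have hGi : Integrable G := Integrable.fintype_prod (f := fun _ x => exp (-b * x ^ 2))
    fun _ => integrable_exp_neg_mul_sq hb
  have hLm : Measurable (toLin' B : (Fin k → ℝ) → Fin k → ℝ) :=
    (LinearMap.continuous_on_pi _).measurable
  have e : (fun t => exp (-b * (t ⬝ᵥ (C *ᵥ t)))) = G ∘ (toLin' B) := by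
    funext t
    simp [hG, ← hB t, mul_sum, ← exp_sum, sum_neg_distrib]
  have hGi' : Integrable G (volume.map (toLin' B)) := by
    rw [hmap]; exact hGi.smul_measure ENNReal.ofReal_ne_top
  rw [e]
  refine ⟨hGi'.comp_measurable hLm, ?_⟩
  simp only [Function.comp_def]
  rw [← integral_map hLm.aemeasurable hGc.aestronglyMeasurable, hmap, integral_smul_measure,
    ENNReal.toReal_ofReal (abs_nonneg _), hG,
    integral_fintype_prod_volume_eq_pow (fun y : ℝ => exp (-b * y ^ 2)),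
    integral_gaussian, smul_eq_mul, abs_inv, hBabs, Fintype.card_fin, inv_mul_eq_div]

/-! ### Anticoncentration -/

theorem convPow_nonneg (hp : IsWeight s p) (n : ℕ) (x : Fin k → ℤ) : 0 ≤ convPow s p n x :=
  sum_nonneg fun _ hf => prod_nonneg fun i _ =>
    hp.nonneg _ (Fintype.mem_piFinset.1 (mem_filter.1 hf).1 i)

theorem convPow_le_one (hp : IsWeight s p) (n : ℕ) (x : Fin k → ℤ) : convPow s p n x ≤ 1 := by
  calc convPow s p n x ≤ ∑ f ∈ Fintype.piFinset fun _ : Fin n => s, ∏ i, p (f i) :=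
        sum_le_sum_of_subset_of_nonneg (filter_subset _ _) fun f hf _ => prod_nonneg fun i _ =>
          hp.nonneg _ (Fintype.mem_piFinset.1 hf i)
    _ = 1 := by rw [← sum_pow', hp.sum_eq_one, one_pow]

/-- The sum over the support of the convolution power, against a test function. -/
theorem sum_convPow_mul (n : ℕ) (F : (Fin k → ℤ) → ℝ) :
    ∑ x ∈ (Fintype.piFinset fun _ : Fin n => s).image (fun f => ∑ i, f i),
        convPow s p n x * F x =
      ∑ f ∈ Fintype.piFinset fun _ : Fin n => s, (∏ i, p (f i)) * F (∑ i, f i) := by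
  rw [← sum_fiberwise_of_maps_to fun f hf =>
    mem_image_of_mem (fun f : Fin n → Fin k → ℤ => ∑ i, f i) hf]
  refine sum_congr rfl fun x _ => ?_
  rw [convPow, sum_mul]
  exact sum_congr rfl fun f hf => by rw [(mem_filter.1 hf).2]

/-- Nonasymptotic bound with an exponentially small error. -/
theorem convPow_le_gauss_add (hp : IsWeight s p) (ha : HasSteps s p) :
    ∃ r : ℝ, 0 ≤ r ∧ r < 1 ∧ ∀ n : ℕ, 1 ≤ n → ∀ x,
      convPow s p n x ≤ √(π / 8) ^ k / (√n ^ k * √(covMat s p).det) + r ^ n := by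
  obtain ⟨r, hr0, hr1, hr⟩ := exists_norm_charFn_le hp ha
  refine ⟨r, hr0, hr1, fun n hn x => ?_⟩
  have hn0 : (0 : ℝ) < n := by exact_mod_cast hn
  have hC := covMat_posDef hp ha
  obtain ⟨hi, hint⟩ := integral_exp_neg_quad hC (b := 2 * n / π ^ 2) (by positivity)
  simp only [dotProduct_covMat_mulVec] at hi hint
  have hit : Integrable (fun t => exp (-(2 * n / π ^ 2) * varDir s p t)) (torus k) := by
    rw [torus_eq]; exact hi.restrict
  have h2 : ∫ t, ‖charFn s p t‖ ^ n ∂torus k ≤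
      √(π / (2 * n / π ^ 2)) ^ k / √(covMat s p).det + (2 * π) ^ k * r ^ n := by
    refine (integral_mono_ae ?_ (hit.add (integrable_const (r ^ n))) ?_).trans ?_
    · refine Integrable.of_bound (by fun_prop) 1 (ae_of_all _ fun t => ?_)
      rw [norm_pow, norm_norm]
      exact pow_le_one₀ (norm_nonneg _)
        ((sq_le_one_iff₀ (norm_nonneg _)).1 (normSq_charFn_le_one hp t))
    · rw [torus_eq]
      filter_upwards [ae_restrict_mem (MeasurableSet.univ_pi fun _ => measurableSet_Ioc)] with t ht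
      exact hr t (fun i => Set.Ioc_subset_Icc_self (ht i trivial)) n
    · simp only [Pi.add_apply]
      rw [integral_add hit (integrable_const _), integral_const, smul_eq_mul, torus_real_univ]
      refine add_le_add ((le_of_eq (by rw [torus_eq])).trans
        ((setIntegral_le_integral hi (ae_of_all _ fun t => (exp_pos _).le)).trans hint.le)) le_rfl
  have h3 := (convPow_le_integral n x).trans h2
  have hpi : (0 : ℝ) < (2 * π) ^ k := by positivity
  rw [← le_div_iff₀' hpi, add_div, mul_div_cancel_left₀ _ hpi.ne'] at h3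
  refine h3.trans (le_of_eq ?_)
  congr 1
  rw [show π / (2 * (n : ℝ) / π ^ 2) = (2 * π) ^ 2 * (π / 8 / n) by field_simp; ring,
    sqrt_mul (by positivity), sqrt_sq (by positivity), sqrt_div (by positivity), mul_pow, div_pow]
  field_simp

theorem tendsto_rpow_mul_geom {r : ℝ} (hr0 : 0 ≤ r) (hr1 : r < 1) :
    Tendsto (fun n : ℕ => √((n : ℝ) + 1) ^ k * r ^ n) atTop (𝓝 0) := by
  have h := (tendsto_pow_const_mul_const_pow_of_lt_one k hr0 hr1).const_mul ((2 : ℝ) ^ k)
  rw [mul_zero] at h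
  refine tendsto_of_tendsto_of_tendsto_of_le_of_le' tendsto_const_nhds h
    (Eventually.of_forall fun n => by positivity) ((eventually_ge_atTop 1).mono fun n hn => ?_)
  have hn1 : (1 : ℝ) ≤ n := by exact_mod_cast hn
  rw [← mul_assoc, ← mul_pow]
  refine mul_le_mul_of_nonneg_right (pow_le_pow_left₀ (sqrt_nonneg _) ?_ k) (pow_nonneg hr0 n)
  exact (Real.sqrt_le_left (by positivity)).2 (by nlinarith)

/-- L1: the `n`-fold convolution is at most `C / (n + 1) ^ (k / 2)`. -/
theorem exists_convPow_le (hp : IsWeight s p) (ha : HasSteps s p) :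
    ∃ C : ℝ, 0 ≤ C ∧ ∀ (n : ℕ) x, convPow s p n x ≤ C / ((n : ℝ) + 1) ^ ((k : ℝ) / 2) := by
  obtain ⟨r, hr0, hr1, h⟩ := convPow_le_gauss_add hp ha
  obtain ⟨M, hM⟩ := (tendsto_rpow_mul_geom (k := k) hr0 hr1).bddAbove_range
  set D := √(π / 8) ^ k / √(covMat s p).det
  have hM0 : 0 ≤ M := le_trans (by positivity) (hM ⟨0, rfl⟩)
  have hD : 0 ≤ D := by positivity
  refine ⟨1 + √2 ^ k * D + M, by positivity, fun n x => ?_⟩
  rw [Real.rpow_div_two_eq_sqrt _ (by positivity), Real.rpow_natCast,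
    le_div_iff₀ (by positivity)]
  rcases Nat.eq_zero_or_pos n with rfl | hn
  · have h2 : 0 ≤ √2 ^ k * D := by positivity
    simp only [CharP.cast_eq_zero, zero_add, sqrt_one, one_pow, mul_one]
    linarith [convPow_le_one hp 0 x]
  · have hn0 : (0 : ℝ) < n := by exact_mod_cast hn
    refine (mul_le_mul_of_nonneg_right (h n hn x) (by positivity)).trans ?_
    rw [add_mul]
    have h1 : √((n : ℝ) + 1) ^ k ≤ √2 ^ k * √n ^ k := by
      rw [← mul_pow, ← sqrt_mul zero_le_two]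
      exact pow_le_pow_left₀ (sqrt_nonneg _) (Real.sqrt_le_sqrt (by
        have : (1 : ℝ) ≤ n := by exact_mod_cast hn
        linarith)) k
    have h2 : √(π / 8) ^ k / (√n ^ k * √(covMat s p).det) * √((n : ℝ) + 1) ^ k ≤ √2 ^ k * D := by
      refine (mul_le_mul_of_nonneg_left h1 (by positivity)).trans (le_of_eq ?_)
      simp only [D]
      field_simp
    have h3 : r ^ n * √((n : ℝ) + 1) ^ k ≤ M := by rw [mul_comm]; exact hM ⟨n, rfl⟩
    linarith

/-- The constant of `eventually_convPow_le`. -/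
noncomputable def antiConcConst (k : ℕ) : ℝ := 2 * √(π / 8) ^ k

theorem antiConcConst_pos : 0 < antiConcConst k := by unfold antiConcConst; positivity

/-- L2: the sharp bound in terms of the covariance, for all large `n`. -/
theorem eventually_convPow_le (hp : IsWeight s p) (ha : HasSteps s p) :
    ∀ᶠ n : ℕ in atTop, ∀ x, convPow s p n x ≤
      antiConcConst k / ((n : ℝ) ^ ((k : ℝ) / 2) * √(covMat s p).det) := by
  obtain ⟨r, hr0, hr1, h⟩ := convPow_le_gauss_add hp ha
  have hd := (covMat_posDef hp ha).det_pos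
  have ht := (tendsto_rpow_mul_geom (k := k) hr0 hr1).eventually_le_const
    (show 0 < √(π / 8) ^ k / √(covMat s p).det by positivity)
  filter_upwards [ht, eventually_ge_atTop 1] with n hn hn1 x
  have hn0 : (0 : ℝ) < n := by exact_mod_cast hn1
  rw [Real.rpow_div_two_eq_sqrt _ hn0.le, Real.rpow_natCast]
  refine (h n hn1 x).trans ?_
  rw [antiConcConst, two_mul, add_div]
  refine add_le_add le_rfl ?_
  have h4 : √(n : ℝ) ^ k * r ^ n ≤ √((n : ℝ) + 1) ^ k * r ^ n :=
    mul_le_mul_of_nonneg_right (pow_le_pow_left₀ (sqrt_nonneg _)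
      (Real.sqrt_le_sqrt (by linarith)) k) (pow_nonneg hr0 n)
  rw [mul_comm (√(n : ℝ) ^ k) √(covMat s p).det, ← div_div, le_div_iff₀ (by positivity), mul_comm]
  exact h4.trans hn

/-! ### Chebyshev -/

theorem sum_pi_succ {α : Type*} [DecidableEq α] (u : Finset α) (n : ℕ)
    (F : (Fin (n + 1) → α) → ℝ) :
    ∑ f ∈ Fintype.piFinset (fun _ : Fin (n + 1) => u), F f =
      ∑ x ∈ u, ∑ f ∈ Fintype.piFinset (fun _ : Fin n => u), F (Fin.cons x f) := by
  rw [← sum_product']
  refine sum_nbij' (fun f => (f 0, Fin.tail f)) (fun q => Fin.cons q.1 q.2) ?_ ?_ ?_ ?_ ?_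
  · intro f hf
    simp only [Fintype.mem_piFinset] at hf
    simpa [Fin.tail] using ⟨hf 0, fun i => hf i.succ⟩
  · rintro ⟨x, g⟩ hq
    simp only [mem_product, Fintype.mem_piFinset] at hq
    simp only [Fintype.mem_piFinset, Fin.forall_fin_succ, Fin.cons_zero, Fin.cons_succ]
    exact hq
  · intro f _; exact Fin.cons_self_tail f
  · rintro ⟨x, g⟩ _; simp
  · intro f _; simp [Fin.cons_self_tail]

theorem sum_moments {α : Type*} [DecidableEq α] {u : Finset α} {q g : α → ℝ}
    (h1 : ∑ x ∈ u, q x = 1) (h0 : ∑ x ∈ u, q x * g x = 0) (n : ℕ) :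
    (∑ f ∈ Fintype.piFinset (fun _ : Fin n => u), (∏ i, q (f i)) * ∑ i, g (f i)) = 0 ∧
    (∑ f ∈ Fintype.piFinset (fun _ : Fin n => u), (∏ i, q (f i)) * (∑ i, g (f i)) ^ 2) =
      n * ∑ x ∈ u, q x * g x ^ 2 := by
  induction n with
  | zero => simp
  | succ n ih =>
    have hone : ∑ f ∈ Fintype.piFinset (fun _ : Fin n => u), ∏ i, q (f i) = 1 := by
      rw [← sum_pow', h1, one_pow]
    constructor
    · rw [sum_pi_succ]
      simp only [Fin.prod_univ_succ, Fin.sum_univ_succ, Fin.cons_zero, Fin.cons_succ, mul_assoc,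
        mul_add, sum_add_distrib, ← mul_sum, ih.1, hone, ← sum_mul, one_mul, mul_zero,
        add_zero, h0]
    · rw [sum_pi_succ]
      have e : ∀ x (f : Fin n → α), (q x * ∏ i, q (f i)) * (g x + ∑ i, g (f i)) ^ 2 =
          q x * g x ^ 2 * ∏ i, q (f i) + 2 * (q x * g x) * ((∏ i, q (f i)) * ∑ i, g (f i)) +
            q x * ((∏ i, q (f i)) * (∑ i, g (f i)) ^ 2) := fun x f => by ring
      simp only [Fin.prod_univ_succ, Fin.sum_univ_succ, Fin.cons_zero, Fin.cons_succ, e,
        sum_add_distrib, ← mul_sum, ih.1, ih.2, hone, ← sum_mul, h1]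
      push_cast
      ring

/-- L2a: Chebyshev for `S_n · t`. -/
theorem chebyshev_dotZ (hp : IsWeight s p) (t : Fin k → ℝ) {A : ℝ} (hA : 0 < A) {n : ℕ}
    (hn : 0 < n) :
    ∑ f ∈ (Fintype.piFinset fun _ : Fin n => s) with
        A * √(n : ℝ) < |dotZ t (∑ i, f i) - n * (t ⬝ᵥ meanVec s p)|, ∏ i, p (f i) ≤
      varDir s p t / A ^ 2 := by
  have hn0 : (0 : ℝ) < n := by exact_mod_cast hn
  obtain ⟨-, h2⟩ := sum_moments hp.sum_eq_one (sum_mul_dotZ_sub_mean hp t) n
  have hf0 : ∀ f ∈ Fintype.piFinset (fun _ : Fin n => s), 0 ≤ ∏ i, p (f i) :=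
    fun f hf => prod_nonneg fun i _ => hp.nonneg _ (Fintype.mem_piFinset.1 hf i)
  have e : ∀ f : Fin n → Fin k → ℤ, dotZ t (∑ i, f i) - n * (t ⬝ᵥ meanVec s p) =
      ∑ i, (dotZ t (f i) - t ⬝ᵥ meanVec s p) := fun f => by simp [dotZ_sum, sum_sub_distrib]
  rw [le_div_iff₀ (by positivity), ← mul_le_mul_iff_of_pos_left hn0, varDir, ← h2, sum_mul, mul_sum]
  refine (sum_le_sum fun f hf => ?_).trans
    (sum_le_sum_of_subset_of_nonneg (filter_subset _ _) fun f hf _ =>
      mul_nonneg (hf0 f hf) (sq_nonneg _))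
  rw [mem_filter, e] at hf
  have hsq : (A * √(n : ℝ)) ^ 2 ≤ (∑ i, (dotZ t (f i) - t ⬝ᵥ meanVec s p)) ^ 2 := by
    rw [← sq_abs (∑ i, _)]; exact pow_le_pow_left₀ (by positivity) hf.2.le 2
  rw [mul_pow, sq_sqrt hn0.le] at hsq
  calc (n : ℝ) * ((∏ i, p (f i)) * A ^ 2) = (∏ i, p (f i)) * (A ^ 2 * n) := by ring
    _ ≤ _ := mul_le_mul_of_nonneg_left hsq (hf0 f hf.1)

end Vale.Agent.P147.Regen
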