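import Vale.Agent.P147.Regen.Budget

/-!
# A meeting in a band, seen in the words up to a common cut
-/

namespace Vale.Agent.P147.Regen

open MeasureTheory Set Filter

variable {d : ℕ} {φ : Site d →+ ℤ}

theorem xWord_add (ω : ℕ → PairW d) (i l : ℕ) :
    xWord ω (i + l) = xWord (shiftSeq i ω) l ++ xWord ω i := by
  induction l with
  | zero => simp [xWord]
  | succ l ih =>
    rw [← Nat.add_assoc, xWord_succ, xWord_succ, ih, List.append_assoc]
    rfl

theorem yWord_add (ω : ℕ → PairW d) (i l : ℕ) :
    yWord ω (i + l) = yWord ω i ++ yWord (shiftSeq i ω) l := by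
  induction l with
  | zero => simp [yWord]
  | succ l ih =>
    rw [← Nat.add_assoc, yWord_succ, yWord_succ, ih, List.append_assoc]
    rfl

theorem height_add (ω : ℕ → PairW d) (i l : ℕ) :
    height φ ω (i + l) = height φ ω i + height φ (shiftSeq i ω) l := by
  simp [height, Finset.sum_range_add, shiftSeq]

/-- A meeting in a band gives, for the words up to a deeper common cut, a contact reached by
each of the two words within the band. -/
theorem meet_word [NeZero d] {ω : ℕ → PairW d} (hω : ∀ i, IsPair φ (ω i)) {o : Site d}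
    (ho : φ o = 0) {a b m : ℕ} {A B : ℤ} (hM : ω ∈ Meet o a b) (hA : A ≤ height φ ω a)
    (hB : height φ ω (b + 1) ≤ B) (hm : B < height φ ω m) :
    φ (o - disp (xWord ω m)) = -height φ ω m ∧
    ∃ i j, i ≤ (xWord ω m).length ∧ j ≤ (yWord ω m).length ∧
      (o - disp (xWord ω m)) + disp ((xWord ω m).take i) = disp ((yWord ω m).take j) ∧
      (∀ i' ≤ i, φ (o - disp (xWord ω m)) + φ (disp ((xWord ω m).take i')) ≤ -A) ∧
      (∀ j' ≤ j, -B ≤ φ (disp ((yWord ω m).take j'))) := by
  have hbm : b + 1 < m := by
    by_contra hle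
    have := height_mono hω (show m ≤ b + 1 by omega)
    omega
  simp only [Meet, mem_ofPred_eq, Finset.not_disjoint_iff] at hM
  obtain ⟨q, hx, hy⟩ := hM
  obtain ⟨ix, hax, hbx, hqx⟩ := mem_xSites.1 hx
  obtain ⟨iy, hay, hby, hqy⟩ := mem_ySites.1 hy
  obtain ⟨kx, hkx, hkxe⟩ := mem_trace.1 hqx
  obtain ⟨ky, hky, hkye⟩ := mem_trace.1 hqy
  have hzlev : φ (o - disp (xWord ω m)) = -height φ ω m := by
    rw [map_sub, ho, level_xWord, zero_sub]
  refine ⟨hzlev, ?_⟩
  -- the position in the upward word
  obtain ⟨l, rfl⟩ : ∃ l, m = ix + 1 + l := ⟨m - (ix + 1), by omega⟩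
  set P := xWord (shiftSeq (ix + 1) ω) l with hP
  have hsplit : xWord ω (ix + 1 + l) = P ++ ((ω ix).1 ++ xWord ω ix) := by
    rw [xWord_add, xWord_succ]
  have hPseg : IsSeg φ (P ++ (ω ix).1) := by
    have h1 : P ++ (ω ix).1 = xWord (shiftSeq ix ω) (1 + l) := by
      rw [xWord_add, hP]
      congr 1
      · congr 1
        funext k; simp [shiftSeq, Nat.add_assoc]
      · simp [xWord, List.range_succ, shiftSeq]
    rw [h1, Nat.add_comm 1 l]
    exact (isSeg_xWord (fun i => hω _) l).1
  have hPdisp : disp (P ++ (ω ix).1) + disp (xWord ω ix) = disp (xWord ω (ix + 1 + l)) := by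
    rw [hsplit, ← List.append_assoc]
    exact (disp_append _ _).symm
  have hstart : o - disp (xWord ω (ix + 1 + l)) + disp P = xTop o ω (ix + 1) := by
    rw [hsplit, disp_append, disp_append, xTop, Finset.sum_range_succ, ← disp_xWord]
    abel
  -- the position in the downward word
  obtain ⟨l', hl'⟩ : ∃ l', ix + 1 + l = iy + 1 + l' := ⟨ix + 1 + l - (iy + 1), by omega⟩
  have hysplit : yWord ω (ix + 1 + l) =
      (yWord ω iy ++ (ω iy).2) ++ yWord (shiftSeq (iy + 1) ω) l' := by
    rw [hl', yWord_add, yWord_succ]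
  refine ⟨P.length + kx, (yWord ω iy).length + ky, ?_, ?_, ?_, fun i' hi' => ?_, fun j' hj' => ?_⟩
  · rw [hsplit]; simp; omega
  · rw [hysplit]; simp; omega
  · have e1 : (xWord ω (ix + 1 + l)).take (P.length + kx) = P ++ (ω ix).1.take kx := by
      rw [hsplit, List.take_length_add_append, List.take_append_of_le_length hkx.le]
    have e2 : (yWord ω (ix + 1 + l)).take ((yWord ω iy).length + ky) =
        yWord ω iy ++ (ω iy).2.take ky := by
      rw [hysplit, List.take_append_of_le_length (by simp; omega), List.take_length_add_append]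
    rw [e1, e2, disp_append, disp_append, ← add_assoc, hstart, ← hkxe, hkye, disp_yWord]
    simp [yTop]
  · have hlen : i' < (P ++ (ω ix).1).length := by simp; omega
    rw [show (xWord ω (ix + 1 + l)).take i' = (P ++ (ω ix).1).take i' by
      rw [hsplit, ← List.append_assoc, List.take_append_of_le_length hlen.le]]
    have h1 := (hPseg.2 i' hlen).2
    have h2 : φ (disp (P ++ (ω ix).1)) + height φ ω ix = height φ ω (ix + 1 + l) := by
      have := congrArg φ hPdisp
      rwa [map_add, level_xWord, level_xWord] at this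
    have h3 := height_mono hω hax
    omega
  · have hseg := (isSeg_xWord hω iy).2
    rw [yWord_succ] at hseg
    have hlen : j' < (yWord ω iy ++ (ω iy).2).length := by simp; omega
    rw [show (yWord ω (ix + 1 + l)).take j' = (yWord ω iy ++ (ω iy).2).take j' by
      rw [hysplit, List.take_append_of_le_length hlen.le]]
    have h1 := (hseg.2 j' hlen).2
    have h2 : φ (disp (yWord ω iy ++ (ω iy).2)) = -height φ ω (iy + 1) := by
      rw [← yWord_succ, disp_yWord]
      have := level_yTop (0 : Site d) hω (iy + 1)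
      simpa [yTop] using this
    simp only [AddMonoidHom.neg_apply, h2] at h1
    have h3 := height_mono hω (show iy + 1 ≤ b + 1 by omega)
    omega

end Vale.Agent.P147.Regen
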