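import Vale.Agent.P147.Regen.Sites
import Vale.Agent.P147.Regen.Pair

/-!
# The branch budget
-/

namespace Vale.Agent.P147.Regen

open MeasureTheory Set Filter
open scoped ENNReal

variable {d : ℕ} {φ : Site d →+ ℤ}

/-- The upward words of a tuple of pairs, from bottom to top. -/
def xWordFin {n : ℕ} (p : Fin n → PairW d) : Word d :=
  ((List.ofFn p).reverse.map Prod.fst).flatten

/-- The downward words of a tuple of pairs. -/
def yWordFin {n : ℕ} (p : Fin n → PairW d) : Word d := ((List.ofFn p).map Prod.snd).flatten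

theorem xWordFin_eq {n : ℕ} (ω : ℕ → PairW d) : xWordFin (fun i : Fin n => ω i) = xWord ω n := by
  simp [xWordFin, xWord, List.ofFn_eq_map, List.map_reverse, Function.comp_def]
  rw [← List.map_coe_finRange_eq_range, List.map_map]
  simp [Function.comp_def]

theorem yWordFin_eq {n : ℕ} (ω : ℕ → PairW d) : yWordFin (fun i : Fin n => ω i) = yWord ω n := by
  simp [yWordFin, yWord, List.ofFn_eq_map, Function.comp_def]
  rw [← List.map_coe_finRange_eq_range, List.map_map]
  simp [Function.comp_def]

theorem xWord_succ (ω : ℕ → PairW d) (n : ℕ) : xWord ω (n + 1) = (ω n).1 ++ xWord ω n := by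
  simp [xWord, List.range_succ]

theorem yWord_succ (ω : ℕ → PairW d) (n : ℕ) : yWord ω (n + 1) = yWord ω n ++ (ω n).2 := by
  simp [yWord, List.range_succ]

theorem disp_xWord (ω : ℕ → PairW d) (n : ℕ) :
    disp (xWord ω n) = ∑ i ∈ Finset.range n, disp (ω i).1 := by
  induction n with
  | zero => simp [xWord, disp]
  | succ n ih => rw [xWord_succ, disp_append, ih, Finset.sum_range_succ]; abel

theorem disp_yWord (ω : ℕ → PairW d) (n : ℕ) :
    disp (yWord ω n) = ∑ i ∈ Finset.range n, disp (ω i).2 := by
  induction n with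
  | zero => simp [yWord, disp]
  | succ n ih => rw [yWord_succ, disp_append, ih, Finset.sum_range_succ]

theorem trace_xWord (o : Site d) (ω : ℕ → PairW d) (n : ℕ) :
    trace (xTop o ω n) (xWord ω n) = xSites o ω 0 n := by
  induction n with
  | zero => simp [xWord, trace, xSites]
  | succ n ih =>
    rw [xWord_succ, trace_append, xTop_succ, sub_add_cancel, ih]
    ext z
    simp only [Finset.mem_union, mem_xSites]
    constructor
    · rintro (h | ⟨i, h1, h2, h⟩)
      · exact ⟨n, Nat.zero_le _, by omega, by rwa [xTop_succ]⟩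
      · exact ⟨i, h1, by omega, h⟩
    · rintro ⟨i, h1, h2, h⟩
      rcases Nat.lt_succ_iff_lt_or_eq.1 h2 with h' | rfl
      · exact Or.inr ⟨i, h1, h', h⟩
      · exact Or.inl (by rwa [xTop_succ] at h)

theorem trace_yWord (y : Site d) (ω : ℕ → PairW d) (n : ℕ) :
    trace y (yWord ω n) = ySites y ω 0 n := by
  induction n with
  | zero => simp [yWord, trace, ySites]
  | succ n ih =>
    rw [yWord_succ, trace_append, disp_yWord, ih]
    ext z
    simp only [Finset.mem_union, mem_ySites]
    constructor
    · rintro (⟨i, h1, h2, h⟩ | h)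
      · exact ⟨i, h1, by omega, h⟩
      · exact ⟨n, Nat.zero_le _, by omega, h⟩
    · rintro ⟨i, h1, h2, h⟩
      rcases Nat.lt_succ_iff_lt_or_eq.1 h2 with h' | rfl
      · exact Or.inl ⟨i, h1, h', h⟩
      · exact Or.inr h

theorem isSeg_xWord [NeZero d] {ω : ℕ → PairW d} (hω : ∀ i, IsPair φ (ω i)) (n : ℕ) :
    IsSeg φ (xWord ω (n + 1)) ∧ IsSeg (-φ) (yWord ω (n + 1)) := by
  induction n with
  | zero => simpa [xWord, yWord, List.range_succ] using ⟨(hω 0).1, (hω 0).2.1⟩
  | succ n ih =>
    rw [xWord_succ _ (n + 1), yWord_succ _ (n + 1)]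
    exact ⟨(hω _).1.append ih.1, ih.2.append (hω _).2.1⟩

theorem level_xWord (ω : ℕ → PairW d) (n : ℕ) :
    φ (disp (xWord ω n)) = height φ ω n := by
  simp [disp_xWord, height]

variable [NeZero d] {μ : Measure (Step d → ℝ)} [IsProbabilityMeasure μ]

theorem wt_nil : wt μ ([] : Word d) = 1 := by simp [wt, qw]

theorem wt_xWord {ω : ℕ → PairW d} (hω : ∀ i, IsPair φ (ω i)) (n : ℕ) :
    wt μ (xWord ω n) * wt μ (yWord ω n) =
      ∏ i ∈ Finset.range n, pairLaw μ φ {ω i} := by
  induction n with
  | zero => simp [xWord, yWord, wt_nil]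
  | succ n ih =>
    rw [Finset.prod_range_succ, pairLaw_singleton μ (hω n), ← ih]
    rcases n with _ | n
    · simp [xWord, yWord, List.range_succ, wt_nil]
    · rw [xWord_succ _ (n + 1), yWord_succ _ (n + 1),
        IsSeg.wt_append μ (hω _).1 (isSeg_xWord hω n).1,
        IsSeg.wt_append μ (isSeg_xWord hω n).2 (hω _).2.1]
      ring

theorem pairLaw_singleton_eq_zero {p : PairW d} (h : ¬ IsPair φ p) : pairLaw μ φ {p} = 0 :=
  measure_mono_null (fun q hq => by rw [mem_singleton_iff.1 hq]; exact h)
    (ae_iff.1 (ae_isPair μ φ))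

/-- The path event attached to a tuple of pairs. -/
def branchEv (φ : Site d →+ ℤ) (c : Word d) {n : ℕ} (p : Fin n → PairW d) : Set (ℕ → Step d) :=
  Pre (xWordFin p ++ c ++ yWordFin p) ∩
    shiftSeq (xWordFin p ++ c ++ yWordFin p).length ⁻¹'
      (Up (-φ) ∩ {v | ∀ k, path (disp (xWordFin p ++ c ++ yWordFin p)) v k ∉
        trace 0 (xWordFin p ++ c ++ yWordFin p)})

theorem measurableSet_avoidTrace (x : Site d) (S : Finset (Site d)) :
    MeasurableSet {v : ℕ → Step d | ∀ k, path x v k ∉ S} := by
  have h : {v : ℕ → Step d | ∀ k, path x v k ∉ S} =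
      ⋂ k, (fun v => path x v k) ⁻¹' (↑S : Set (Site d))ᶜ := by ext v; simp
  rw [h]
  exact MeasurableSet.iInter fun k => ((measurable_pi_apply k).comp (measurable_path x))
    (to_countable _).measurableSet

theorem measurableSet_branchEv (c : Word d) {n : ℕ} (p : Fin n → PairW d) :
    MeasurableSet (branchEv φ c p) :=
  (measurableSet_Pre _).inter (measurable_shiftSeq _
    ((measurableSet_Up (-φ)).inter (measurableSet_avoidTrace _ _)))

theorem path_shift_zero (x : Site d) (u : ℕ → Step d) (n : ℕ) :
    φ (path x u n) = φ x + φ (path 0 u n) := by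
  rw [path_eq_add, map_add]

theorem glue_mem_Pre {b : ℕ → Word d} (hb : ∀ i, 1 ≤ (b i).length) (m : ℕ) :
    glue b ∈ Pre ((List.range m).map b).flatten ∧
      m ≤ ((List.range m).map b).flatten.length := by
  have hlen : ∀ m, m ≤ ((List.range m).map b).flatten.length := by
    intro m
    induction m with
    | zero => exact Nat.zero_le _
    | succ m ih => simp [List.range_succ]; have := hb m; simp at ih; omega
  have hpre : ∀ j l, ((List.range j).map b).flatten <+: ((List.range (j + l)).map b).flatten := by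
    intro j l
    rw [List.range_add, List.map_append, List.flatten_append]
    exact List.prefix_append _ _
  refine ⟨fun k hk => ?_, hlen m⟩
  have hk1 : k < ((List.range (k + 1)).map b).flatten.length := by have := hlen (k + 1); omega
  rw [glue, List.getD_eq_getElem _ _ hk1]
  rcases Nat.le_total (k + 1) m with h | h
  · obtain ⟨l, hl⟩ := Nat.exists_eq_add_of_le h
    subst hl
    exact (hpre (k + 1) l).getElem hk1
  · obtain ⟨l, hl⟩ := Nat.exists_eq_add_of_le h
    exact ((List.IsPrefix.getElem (hl ▸ hpre m l) hk).symm)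

omit [NeZero d] in
theorem mem_trace_take (x : Site d) {s : Word d} {k : ℕ} (hk : k < s.length) :
    x + disp (s.take k) ∈ trace x s := mem_trace.2 ⟨k, hk, rfl⟩

/-- Every point of the glued downward path lies in some pair. -/
theorem path_glue_mem {ω : ℕ → PairW d} (hω : ∀ i, IsPair φ (ω i)) (k : ℕ) :
    ∃ i, path 0 (glue fun i => (ω i).2) k ∈ trace (yTop 0 ω i) (ω i).2 := by
  obtain ⟨hp, hl⟩ := glue_mem_Pre (b := fun i => (ω i).2) (fun i => (hω i).2.1.1) (k + 1)
  have hk : k ≤ ((List.range (k + 1)).map fun i => (ω i).2).flatten.length := by omega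
  have hmem : path 0 (glue fun i => (ω i).2) k ∈ trace 0 (yWord ω (k + 1)) := by
    rw [path_pre hp 0 hk]
    exact mem_trace_take 0 (by rw [yWord]; omega)
  rw [trace_yWord] at hmem
  obtain ⟨i, -, -, hi⟩ := mem_ySites.1 hmem
  exact ⟨i, hi⟩

theorem level_trace_word {x z : Site d} {c : Word d}
    (hin : ∀ k, 0 < k → k < c.length → 1 ≤ φ (disp (c.take k))) (hz : z ∈ trace x c) :
    z = x ∨ φ x + 1 ≤ φ z := by
  obtain ⟨k, hk, rfl⟩ := mem_trace.1 hz
  rcases Nat.eq_zero_or_pos k with rfl | h0
  · left; simp [disp]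
  · right; rw [map_add]; linarith [hin k h0 hk]

variable (c : Word d)

/-- Weight comparison for one tuple of pairs. -/
theorem budget_term (h : Hyp μ φ) (hc : φ (disp c) = 0)
    (hin : ∀ k, 0 < k → k < c.length → 1 ≤ φ (disp (c.take k)))
    {ω : ℕ → PairW d} (hω : ∀ i, IsPair φ (ω i)) (n : ℕ) :
    aUp μ (-φ) * wt μ c *
      pairsLaw μ φ ({ω' | ∀ i < n, ω' i = ω i} ∩ AvoidTop (-disp c) n) ≤
      ann μ 0 (branchEv φ c (fun i : Fin n => ω i)) := by
  classical
  have := isProbabilityMeasure_pairLaw μ φ h
  set o : Site d := -disp c with ho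
  have ho0 : φ o = 0 := by rw [ho, map_neg, hc, neg_zero]
  set w : Word d := xWord ω n ++ c ++ yWord ω n with hw
  have hbr : branchEv φ c (fun i : Fin n => ω i) = Pre w ∩ shiftSeq w.length ⁻¹'
      (Up (-φ) ∩ {v | ∀ k, path (disp w) v k ∉ trace 0 w}) := by
    simp only [branchEv, xWordFin_eq, yWordFin_eq, hw]
  set A : Set (ℕ → PairW d) := {ω' | ∀ i < n, ω' i = ω i} with hA
  -- the event on the continuation
  set S : Set (ℕ → Step d) := {v | ∀ k, path (disp w) v k ∉ trace 0 w} with hS
  set B : Set (ℕ → PairW d) := (fun ω' => glue fun i => (ω' i).2) ⁻¹' S with hB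
  have hA' : MeasurableSet A := measurableSet_of_dependsOn (n := n) (fun x y hxy => by
    simp only [hA, mem_ofPred_eq]
    exact propext (forall₂_congr fun i hi => by rw [hxy i hi]))
  have hAd : DependsOn (· ∈ A) (Iio n) := fun x y hxy => by
    simp only [hA, mem_ofPred_eq]
    exact propext (forall₂_congr fun i hi => by rw [hxy i hi])
  have hglue : Measurable fun ω' : ℕ → PairW d => glue fun i => (ω' i).2 := by
    refine measurable_pi_lambda _ fun k => ?_
    intro T _
    refine measurableSet_of_dependsOn (n := k + 1) fun x y hxy => ?_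
    have : ((List.range (k + 1)).map fun i => (x i).2) = (List.range (k + 1)).map fun i => (y i).2 :=
      List.map_congr_left fun i hi => by rw [hxy i (List.mem_range.1 hi)]
    simp only [mem_preimage, glue, this]
  have hSm : MeasurableSet S := measurableSet_avoidTrace _ _
  have hBm : MeasurableSet B := hglue hSm
  by_cases hne : (({ω' | ∀ i < n, ω' i = ω i} ∩ AvoidTop o n) ∩
      {ω' | ∀ i, IsPair φ (ω' i)}).Nonempty
  swap
  · have hnull : pairsLaw μ φ ({ω' | ∀ i < n, ω' i = ω i} ∩ AvoidTop o n) = 0 := by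
      have hae : ∀ᵐ ω' ∂pairsLaw μ φ, ∀ i, IsPair φ (ω' i) := ae_all_iff.2 fun i =>
        (measurePreserving_eval_infinitePi (fun _ : ℕ => pairLaw μ φ) i).quasiMeasurePreserving.ae
          (ae_isPair μ φ)
      refine measure_mono_null (fun ω' hω' => ?_) (ae_iff.1 hae)
      exact fun hall => hne ⟨ω', hω', hall⟩
    rw [hnull, mul_zero]
    exact zero_le
  obtain ⟨ω₁, ⟨hω₁A, hω₁⟩, hω₁p⟩ := hne
  have hxs : xSites o ω 0 n = xSites o ω₁ 0 n := xSites_congr (fun i hi => (hω₁A i hi).symm) o
  have hys : ySites 0 ω 0 n = ySites 0 ω₁ 0 n := ySites_congr (fun i hi => (hω₁A i hi).symm) 0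
  have hsub : ySites 0 ω₁ 0 n ⊆ ySites 0 ω₁ 0 (n + 1) := fun z hz => by
    obtain ⟨i, h1, h2, h3⟩ := mem_ySites.1 hz
    exact mem_ySites.2 ⟨i, h1, by omega, h3⟩
  -- the three pieces of the word, in the frame of the top
  have htop : xTop o ω n + disp (xWord ω n) = o := by simp [xTop, disp_xWord]
  have hoc : o + disp c = 0 := by simp [ho]
  have htr : trace (xTop o ω n) w = xSites o ω 0 n ∪ trace o c ∪ ySites 0 ω 0 n := by
    rw [hw, trace_append, trace_append, trace_xWord, disp_append, ← add_assoc, htop, hoc,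
      trace_yWord]
  have hdxc : Disjoint (xSites o ω 0 n) (trace o c) := by
    refine Finset.disjoint_left.2 fun z hz hz' => ?_
    obtain ⟨i, -, hi, hzi⟩ := mem_xSites.1 hz
    have h1 := level_xPair hω hzi
    have h2 := le_height hω i
    rcases level_trace_word hin hz' with rfl | h3 <;> omega
  have hdy : Disjoint (xSites o ω 0 n ∪ trace o c) (ySites 0 ω 0 n) := by
    refine Finset.disjoint_left.2 fun z hz hz' => ?_
    rw [Finset.mem_union] at hz
    rcases hz with hz | hz
    · rw [hxs] at hz; rw [hys] at hz'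
      exact Finset.disjoint_left.1 hω₁.1 hz (hsub hz')
    · rcases level_trace_word hin hz with rfl | h3
      · rw [hys] at hz'; exact hω₁.2 (hsub hz')
      · obtain ⟨i, -, hi, hzi⟩ := mem_ySites.1 hz'
        have h1 := level_yPair hω hzi
        have h2 := le_height hω i
        simp only [map_zero, ho0] at h1 h3
        omega
  have hwt : wt μ w = wt μ c * pairsLaw μ φ A := by
    have hl : pairsLaw μ φ A = ∏ i ∈ Finset.range n, pairLaw μ φ {ω i} := by
      rw [show A = Set.pi (↑(Finset.range n)) fun i => ({ω i} : Set (PairW d)) by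
        ext ω'; simp [hA, Set.mem_pi]]
      exact Measure.infinitePi_pi _ fun i _ => measurableSet_singleton _
    rw [hl, ← wt_xWord hω, hw]
    have hd1 : Disjoint (trace 0 (xWord ω n)) (trace (disp (xWord ω n)) c) := by
      have e1 : trace o c = (trace (disp (xWord ω n)) c).image (xTop o ω n + ·) := by
        rw [← trace_translate, htop]
      have e2 : xSites o ω 0 n = (trace 0 (xWord ω n)).image (xTop o ω n + ·) := by
        rw [← trace_translate, add_zero, trace_xWord]
      rw [e1, e2, Finset.disjoint_image (add_right_injective _)] at hdxc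
      exact hdxc
    have hd2 : Disjoint (trace 0 (xWord ω n ++ c)) (trace (disp (xWord ω n ++ c)) (yWord ω n)) := by
      have e1 : ySites 0 ω 0 n =
          (trace (disp (xWord ω n ++ c)) (yWord ω n)).image (xTop o ω n + ·) := by
        rw [← trace_translate, disp_append, ← add_assoc, htop, hoc, trace_yWord]
      have e2 : xSites o ω 0 n ∪ trace o c =
          (trace 0 (xWord ω n ++ c)).image (xTop o ω n + ·) := by
        rw [← trace_translate, add_zero, trace_append, trace_xWord, htop]
      rw [e1, e2, Finset.disjoint_image (add_right_injective _)] at hdy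
      exact hdy
    rw [wt_append _ _ hd2, wt_append _ _ hd1]
    ring
  -- the continuation
  have hcont : pairsLaw μ φ (A ∩ AvoidTop o n) ≤ pairsLaw μ φ A * pairsLaw μ φ B := by
    have hae : ∀ᵐ ω' ∂pairsLaw μ φ, ∀ i, IsPair φ (ω' i) := ae_all_iff.2 fun i =>
      (measurePreserving_eval_infinitePi (fun _ : ℕ => pairLaw μ φ) i).quasiMeasurePreserving.ae
        (ae_isPair μ φ)
    have heq := measure_past_inter_future (pairLaw μ φ) n hA' hAd hBm
    refine le_trans (measure_mono_ae ?_) (le_of_eq heq)
    filter_upwards [hae] with ω' hall hmem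
    obtain ⟨hωA, hav⟩ := hmem
    refine ⟨hωA, ?_⟩
    show ∀ k, path (disp w) (glue fun i => (shiftSeq n ω' i).2) k ∉ trace 0 w
    intro k hk
    have hxt : xTop o ω' n = xTop o ω n := xTop_congr hωA o
    have hyt : yTop 0 ω' n = yTop 0 ω n := yTop_congr hωA 0
    have hk' : xTop o ω n + path (disp w) (glue fun i => (shiftSeq n ω' i).2) k ∈
        xSites o ω 0 n ∪ trace o c ∪ ySites 0 ω 0 n := by
      rw [← htr]
      have := Finset.mem_image_of_mem (xTop o ω n + ·) hk
      rwa [← trace_translate, add_zero] at this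
    have hend : xTop o ω n + disp w = yTop 0 ω n := by
      rw [hw, disp_append, disp_append, ← add_assoc, ← add_assoc, htop, hoc, disp_yWord]
      simp [yTop]
    obtain ⟨i, hi⟩ := path_glue_mem (φ := φ) (ω := shiftSeq n ω') (fun i => hall _) k
    have hi' : xTop o ω n + path (disp w) (glue fun i => (shiftSeq n ω' i).2) k ∈
        trace (yTop 0 ω' (n + i)) (ω' (n + i)).2 := by
      rw [path_eq_add, ← add_assoc, hend, ← hyt, yTop_shift,
        show yTop (yTop 0 ω' n) (shiftSeq n ω') i = yTop 0 ω' n + yTop 0 (shiftSeq n ω') i by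
          simp [yTop], trace_translate]
      exact Finset.mem_image_of_mem _ hi
    have hlev := level_yPair hall hi'
    simp only [map_zero] at hlev
    rw [Finset.mem_union, Finset.mem_union] at hk'
    rw [xSites_congr (fun j hj => (hωA j hj).symm) o,
      ySites_congr (fun j hj => (hωA j hj).symm) 0] at hk'
    rcases Nat.eq_zero_or_pos i with rfl | hipos
    · have hy' : xTop o ω n + path (disp w) (glue fun i => (shiftSeq n ω' i).2) k ∈
          ySites 0 ω' 0 (n + 1) := mem_ySites.2 ⟨n, Nat.zero_le _, by omega, by simpa using hi'⟩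
      rcases hk' with (hk' | hk') | hk'
      · exact Finset.disjoint_left.1 hav.1 hk' hy'
      · rcases level_trace_word hin hk' with he | he
        · exact hav.2 (he ▸ hy')
        · have := le_height hall n; simp only [Nat.add_zero] at hlev; omega
      · obtain ⟨j, -, hj, hzj⟩ := mem_ySites.1 hk'
        have h1 := level_yPair hall hzj
        have h2 := height_mono hall (show j + 1 ≤ n by omega)
        simp only [map_zero, Nat.add_zero] at h1 hlev
        omega
    · have h3 := height_mono hall (show n + 1 ≤ n + i by omega)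
      have h4 := height_lt_succ hall n
      rcases hk' with (hk' | hk') | hk'
      · obtain ⟨j, -, hj, hzj⟩ := mem_xSites.1 hk'
        have h1 := level_xPair hall hzj
        have h2 := height_mono hall (show j + 1 ≤ n by omega)
        omega
      · rcases level_trace_word hin hk' with he | he
        · have := le_height hall n
          rw [he] at hlev; omega
        · have := le_height hall n; omega
      · obtain ⟨j, -, hj, hzj⟩ := mem_ySites.1 hk'
        have h1 := level_yPair hall hzj
        have h2 := height_mono hall (show j + 1 ≤ n by omega)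
        simp only [map_zero] at h1
        omega
  have hann : ann μ 0 (branchEv φ c (fun i : Fin n => ω i)) =
      wt μ w * (aUp μ (-φ) * pairsLaw μ φ B) := by
    rw [hbr, ann_Pre_inter (ae_isEnv μ h.ell) 0 w ((measurableSet_Up (-φ)).inter hSm)
      (fun v hv m hm => hv.2 m (by rwa [zero_add] at hm)), zero_add,
      ann_translate _ ((measurableSet_Up (-φ)).inter hSm), ann_Up_neg_pairs μ φ h hSm]
  rw [hann, hwt]
  calc aUp μ (-φ) * wt μ c * pairsLaw μ φ (A ∩ AvoidTop o n)
      ≤ aUp μ (-φ) * wt μ c * (pairsLaw μ φ A * pairsLaw μ φ B) := by gcongr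
    _ = wt μ c * pairsLaw μ φ A * (aUp μ (-φ) * pairsLaw μ φ B) := by ring

/-- The levels along a branch event. -/
theorem branchEv_spec {hh : Hyp μ φ} (hc : φ (disp c) = 0) {ω : ℕ → PairW d}
    (hω : ∀ i, IsPair φ (ω i)) {n : ℕ} {u : ℕ → Step d}
    (hu : u ∈ branchEv φ c (fun i : Fin n => ω i)) :
    (∀ k < (xWord ω n).length, φ (path 0 u k) < height φ ω n) ∧
    (∀ k ≤ c.length, φ (path 0 u ((xWord ω n).length + k)) =
      height φ ω n + φ (disp (c.take k))) ∧
    (∀ k < (yWord ω n).length,
      0 < φ (path 0 u ((xWord ω n).length + c.length + k))) ∧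
    φ (path 0 u ((xWord ω n).length + c.length + (yWord ω n).length)) = 0 ∧
    (∀ k, (xWord ω n).length + c.length ≤ k → φ (path 0 u k) ≤ height φ ω n) ∧
    u ∈ Pre (xWord ω n ++ c ++ yWord ω n) := by
  simp only [branchEv, xWordFin_eq, yWordFin_eq] at hu
  set a := xWord ω n with ha
  set t := yWord ω n with ht
  obtain ⟨hp, hup, -⟩ := hu
  have hpos : ∀ k ≤ (a ++ c ++ t).length, path 0 u k = disp ((a ++ c ++ t).take k) := fun k hk => by
    rw [path_pre hp 0 hk, zero_add]
  have hH : φ (disp a) = height φ ω n := level_xWord ω n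
  have hT : φ (disp t) = -height φ ω n := by
    have : disp t = yTop 0 ω n := by simp [ht, disp_yWord, yTop]
    rw [this, level_yTop 0 hω, map_zero, zero_sub]
  have hseg : n = 0 ∨ (IsSeg φ a ∧ IsSeg (-φ) t) := by
    rcases n with _ | m
    · exact Or.inl rfl
    · exact Or.inr (isSeg_xWord hω m)
  have hn0 : n = 0 → a.length = 0 ∧ t.length = 0 := by rintro rfl; simp [ha, ht, xWord, yWord]
  refine ⟨fun k hk => ?_, fun k hk => ?_, fun k hk => ?_, ?_, fun k hk => ?_, hp⟩
  · rcases hseg with h0 | hs
    · have := (hn0 h0).1; omega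
    · rw [hpos k (by simp; omega), List.take_append_of_le_length (by simp; omega),
        List.take_append_of_le_length (by omega), ← hH]
      exact (hs.1.2 k hk).2
  · rw [hpos _ (by simp; omega), List.take_append_of_le_length (by simp; omega),
      List.take_length_add_append, disp_append, map_add, hH]
  · rcases hseg with h0 | hs
    · have := (hn0 h0).2; omega
    · rw [hpos _ (by simp; omega), show a.length + c.length + k = (a ++ c).length + k by simp,
        List.take_length_add_append, disp_append, disp_append, map_add, map_add, hH, hc]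
      have := (hs.2.2 k hk).2
      simp only [AddMonoidHom.neg_apply, hT] at this
      omega
  · rw [hpos _ (by simp; omega),
      List.take_of_length_le (by simp; omega), disp_append, disp_append, map_add, map_add, hH, hc,
      hT]
    ring
  · rcases Nat.lt_or_ge k (a ++ c ++ t).length with hk' | hk'
    · obtain ⟨j, rfl⟩ : ∃ j, k = a.length + c.length + j := ⟨k - (a.length + c.length), by omega⟩
      rw [hpos _ hk'.le, show a.length + c.length + j = (a ++ c).length + j by simp,
        List.take_length_add_append, disp_append, disp_append, map_add, map_add, hH, hc]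
      rcases hseg with h0 | hs
      · have := (hn0 h0).2; simp at hk'; omega
      · have := (hs.2.2 j (by simp at hk'; omega)).1
        simp only [AddMonoidHom.neg_apply] at this
        omega
    · obtain ⟨j, rfl⟩ := Nat.exists_eq_add_of_le hk'
      rw [path_shiftSeq hp, zero_add, path_eq_add, map_add, disp_append, disp_append, map_add,
        map_add, hH, hc, hT]
      have := hup.1 j
      simp only [AddMonoidHom.neg_apply] at this
      have h2 : 0 ≤ height φ ω n := le_trans (by positivity) (le_height hω n)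
      omega

theorem take_eq_of_Pre {s t : Word d} {u : ℕ → Step d} (hs : u ∈ Pre s) (ht : u ∈ Pre t)
    {k : ℕ} (hk : k ≤ s.length) (hk' : k ≤ t.length) : s.take k = t.take k := by
  refine List.ext_getElem (by simp; omega) fun i hi hi' => ?_
  simp only [List.getElem_take]
  simp at hi
  rw [← hs i (by omega), ← ht i (by omega)]

/-- Different tuples give disjoint branch events. -/
theorem branchEv_injective (h : Hyp μ φ) (hc : φ (disp c) = 0)
    {ω ω' : ℕ → PairW d} (hω : ∀ i, IsPair φ (ω i)) (hω' : ∀ i, IsPair φ (ω' i)) {n m : ℕ}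
    {u : ℕ → Step d} (hu : u ∈ branchEv φ c (fun i : Fin n => ω i))
    (hu' : u ∈ branchEv φ c (fun i : Fin m => ω' i)) :
    n = m ∧ ∀ i < n, ω i = ω' i := by
  obtain ⟨k₀, hk₀, hmax⟩ := Finset.exists_max_image (Finset.range (c.length + 1))
    (fun k => φ (disp (c.take k))) ⟨0, by simp⟩
  have hK : 0 ≤ φ (disp (c.take k₀)) := by simpa [disp] using hmax 0 (by simp)
  have key : ∀ (ω : ℕ → PairW d), (∀ i, IsPair φ (ω i)) → ∀ n : ℕ,
      u ∈ branchEv φ c (fun i : Fin n => ω i) →
      (∀ k, φ (path 0 u k) ≤ height φ ω n + φ (disp (c.take k₀))) ∧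
        ∃ k, φ (path 0 u k) = height φ ω n + φ (disp (c.take k₀)) := by
    intro ω hω n hu
    obtain ⟨h1, h2, -, -, h5, -⟩ := branchEv_spec (hh := h) c hc hω hu
    refine ⟨fun k => ?_, _, h2 k₀ (Finset.mem_range_succ_iff.1 hk₀)⟩
    rcases Nat.lt_or_ge k (xWord ω n).length with hk | hk
    · linarith [h1 k hk]
    rcases Nat.lt_or_ge k ((xWord ω n).length + c.length) with hk' | hk'
    · obtain ⟨j, rfl⟩ := Nat.exists_eq_add_of_le hk
      rw [h2 j (by omega)]
      linarith [hmax j (Finset.mem_range_succ_iff.2 (by omega))]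
    · linarith [h5 k hk']
  have hH : height φ ω n = height φ ω' m := by
    obtain ⟨ha, k, hk⟩ := key ω hω n hu
    obtain ⟨ha', k', hk'⟩ := key ω' hω' m hu'
    linarith [ha k', ha' k]
  obtain ⟨h1, h2, h3, h4, -, hp⟩ := branchEv_spec (hh := h) c hc hω hu
  obtain ⟨g1, g2, g3, g4, -, gp⟩ := branchEv_spec (hh := h) c hc hω' hu'
  have e0 := h2 0 (Nat.zero_le _)
  have f0 := g2 0 (Nat.zero_le _)
  simp only [List.take_zero, disp_nil, map_zero, add_zero] at e0 f0
  have hla : (xWord ω n).length = (xWord ω' m).length := by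
    rcases lt_trichotomy (xWord ω n).length (xWord ω' m).length with hlt | heq | hgt
    · have := g1 _ hlt; omega
    · exact heq
    · have := h1 _ hgt; omega
  have hxw : xWord ω n = xWord ω' m := by
    have := take_eq_of_Pre hp gp (k := (xWord ω n).length) (by simp) (by simp [hla])
    simpa [List.take_append_of_le_length, hla] using this
  have hlt' : (yWord ω n).length = (yWord ω' m).length := by
    rw [← hla] at g3 g4
    rcases lt_trichotomy (yWord ω n).length (yWord ω' m).length with hlt | heq | hgt
    · have := g3 _ hlt; omega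
    · exact heq
    · have := h3 _ hgt; omega
  have hyw : yWord ω n = yWord ω' m := by
    have := take_eq_of_Pre hp gp (k := (xWord ω n ++ c ++ yWord ω n).length) le_rfl
      (by simp; omega)
    rw [List.take_length, List.take_of_length_le (by simp; omega), hxw] at this
    exact List.append_cancel_left this
  have hlist : (List.range n).map ω = (List.range m).map ω' := by
    refine pairs_unique (φ := φ) (fun x hx => ?_) (fun x hx => ?_) ?_ ?_
    · obtain ⟨i, -, rfl⟩ := List.mem_map.1 hx; exact hω i
    · obtain ⟨i, -, rfl⟩ := List.mem_map.1 hx; exact hω' i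
    · simpa [xWord, List.map_reverse, Function.comp_def] using hxw
    · simpa [yWord, Function.comp_def] using hyw
  have hnm : n = m := by simpa using congrArg List.length hlist
  subst hnm
  exact ⟨rfl, fun i hi => List.map_inj_left.1 hlist i (List.mem_range.2 hi)⟩

/-- The branch budget. -/
theorem budget (h : Hyp μ φ) (c : Word d) (hc : φ (disp c) = 0)
    (hin : ∀ k, 0 < k → k < c.length → 1 ≤ φ (disp (c.take k))) :
    ∑' n, pairsLaw μ φ (AvoidTop (-disp c) n) ≤ (aUp μ (-φ) * wt μ c)⁻¹ := by
  classical
  have := isProbabilityMeasure_pairLaw μ φ h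
  obtain ⟨p₀, hp₀⟩ := (ae_isPair μ φ).exists
  let P := Σ n : ℕ, {p : Fin n → PairW d // ∀ i, IsPair φ (p i)}
  let ext : P → ℕ → PairW d := fun q i => if hi : i < q.1 then q.2.1 ⟨i, hi⟩ else p₀
  have hext : ∀ q i, IsPair φ (ext q i) := fun q i => by
    simp only [ext]; split_ifs
    · exact q.2.2 _
    · exact hp₀
  let E : P → Set (ℕ → Step d) := fun q => branchEv φ c (fun i : Fin q.1 => ext q i)
  have hdisj : Pairwise (Function.onFun Disjoint E) := by
    intro q q' hne
    refine Set.disjoint_left.2 fun u hu hu' => hne ?_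
    obtain ⟨hn, heq⟩ := branchEv_injective c h hc (hext q) (hext q') hu hu'
    obtain ⟨n, p, hp⟩ := q
    obtain ⟨n', p', hp'⟩ := q'
    simp only at hn
    subst hn
    have : p = p' := funext fun i => by simpa [ext] using heq i i.2
    subst this
    rfl
  have hae : ∀ᵐ ω' ∂pairsLaw μ φ, ∀ i, IsPair φ (ω' i) := ae_all_iff.2 fun i =>
    (measurePreserving_eval_infinitePi (fun _ : ℕ => pairLaw μ φ) i).quasiMeasurePreserving.ae
      (ae_isPair μ φ)
  have hn : ∀ n, pairsLaw μ φ (AvoidTop (-disp c) n) ≤
      ∑' p : {p : Fin n → PairW d // ∀ i, IsPair φ (p i)},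
        pairsLaw μ φ ({ω' | ∀ i < n, ω' i = ext ⟨n, p⟩ i} ∩ AvoidTop (-disp c) n) := by
    intro n
    refine le_trans (measure_mono_ae ?_) (measure_iUnion_le _)
    filter_upwards [hae] with ω' hall hmem
    exact mem_iUnion.2 ⟨⟨fun i => ω' i, fun i => hall i⟩,
      fun i hi => by simp [ext, hi], hmem⟩
  have hw0 : wt μ c ≠ 0 := (wt_pos μ h.ell c).ne'
  have hw1 : wt μ c ≠ ∞ :=
    ne_top_of_le_ne_top ENNReal.one_ne_top (wt_le_one (ae_isEnv μ h.ell) c)
  have ha1 : aUp μ (-φ) ≠ ∞ := ne_top_of_le_ne_top ENNReal.one_ne_top (ann_le_one 0 _)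
  rw [ENNReal.le_inv_iff_mul_le]
  calc (∑' n, pairsLaw μ φ (AvoidTop (-disp c) n)) * (aUp μ (-φ) * wt μ c)
      ≤ (∑' q : P, pairsLaw μ φ ({ω' | ∀ i < q.1, ω' i = ext q i} ∩
          AvoidTop (-disp c) q.1)) * (aUp μ (-φ) * wt μ c) := by
        gcongr
        rw [ENNReal.tsum_sigma']
        exact ENNReal.tsum_le_tsum hn
    _ ≤ ∑' q : P, ann μ 0 (E q) := by
        rw [← ENNReal.tsum_mul_right]
        refine ENNReal.tsum_le_tsum fun q => ?_
        rw [mul_comm]
        exact budget_term c h hc hin (hext q) q.1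
    _ = ann μ 0 (⋃ q, E q) :=
        (ann_iUnion 0 (fun q => measurableSet_branchEv c _) hdisj).symm
    _ ≤ 1 := ann_le_one 0 _

end Vale.Agent.P147.Regen
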