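import Vale.Agent.P147.Regen.IndepSeq

/-!
# Second moment of stopped sums
-/

namespace Vale.Agent.P147.Regen

open MeasureTheory ProbabilityTheory Set
open scoped ENNReal

variable {α : Type*} [MeasurableSpace α] (ν : Measure α) [IsProbabilityMeasure ν]

/-- A function of the first `n` coordinates is independent of a function of the coordinate `n`. -/
theorem indepFun_past_next (n : ℕ) {F : (ℕ → α) → ℝ} (hF : Measurable F)
    (hFn : DependsOn F (Iio n)) {g : α → ℝ} (hg : Measurable g) :
    IndepFun F (fun ω => g (ω n)) (Measure.infinitePi fun _ : ℕ => ν) := by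
  classical
  obtain ⟨a⟩ : Nonempty α := nonempty_of_isProbabilityMeasure ν
  have hind : iIndepFun (fun (i : ℕ) (ω : ℕ → α) => ω i) (Measure.infinitePi fun _ : ℕ => ν) :=
    iIndepFun_infinitePi (P := fun _ : ℕ => ν) (X := fun _ p => p) fun _ => measurable_id
  have h := hind.indepFun_finset (Finset.range n) {n} (by simp) fun i => measurable_pi_apply i
  let ext : (Finset.range n → α) → ℕ → α := fun p i =>
    if hi : i ∈ Finset.range n then p ⟨i, hi⟩ else a
  have hext : Measurable ext := measurable_pi_lambda _ fun i => by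
    simp only [ext]; split_ifs
    · exact measurable_pi_apply _
    · exact measurable_const
  have h' := h.comp (φ := F ∘ ext) (ψ := fun p : ({n} : Finset ℕ) → α => g (p ⟨n, by simp⟩))
    (hF.comp hext) (hg.comp (measurable_pi_apply _))
  convert h' using 1
  · funext ω
    refine hFn fun i hi => ?_
    simp [ext, Finset.mem_range, mem_Iio.1 hi]
  · rfl

/-- The second moment of a stopped sum of centred terms grows at most linearly. -/
theorem stopped_sq_le {f : α → ℝ} (hf : Measurable f) (hf2 : Integrable (fun a => f a ^ 2) ν)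
    (h0 : ∫ a, f a ∂ν = 0) (c : ℕ → (ℕ → α) → ℝ) (hc : ∀ j, Measurable (c j))
    (hc01 : ∀ j ω, c j ω = 0 ∨ c j ω = 1) (hcd : ∀ j, DependsOn (c j) (Iio j)) (n : ℕ) :
    Integrable (fun ω => (∑ j ∈ Finset.range n, c j ω * f (ω j)) ^ 2)
        (Measure.infinitePi fun _ : ℕ => ν) ∧
      ∫ ω, (∑ j ∈ Finset.range n, c j ω * f (ω j)) ^ 2 ∂(Measure.infinitePi fun _ : ℕ => ν) ≤
        n * ∫ a, f a ^ 2 ∂ν := by
  set P := Measure.infinitePi fun _ : ℕ => ν with hP
  induction n with
  | zero => simp
  | succ n ih =>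
    obtain ⟨hi, hle⟩ := ih
    set T : (ℕ → α) → ℝ := fun ω => ∑ j ∈ Finset.range n, c j ω * f (ω j) with hT
    have hTm : Measurable T :=
      Finset.measurable_sum _ fun j _ => (hc j).mul (hf.comp (measurable_pi_apply j))
    have hmp := measurePreserving_eval_infinitePi (fun _ : ℕ => ν) n
    have hsq : Integrable (fun ω : ℕ → α => f (ω n) ^ 2) P := hmp.integrable_comp_of_integrable hf2
    have hf1 : Integrable f ν :=
      (((memLp_two_iff_integrable_sq hf.aestronglyMeasurable).2 hf2).integrable one_le_two)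
    have hfn : Integrable (fun ω : ℕ → α => f (ω n)) P := hmp.integrable_comp_of_integrable hf1
    have hT1 : Integrable T P :=
      (((memLp_two_iff_integrable_sq hTm.aestronglyMeasurable).2 hi).integrable one_le_two)
    have hb : ∀ ω, ‖c n ω‖ ≤ 1 := fun ω => by
      rcases hc01 n ω with h | h <;> simp [h]
    have hTc : Integrable (fun ω => T ω * c n ω) P :=
      hT1.mul_bdd (c := 1) (hc n).aestronglyMeasurable (Filter.Eventually.of_forall hb)
    have hcsq : Integrable (fun ω => (c n ω * f (ω n)) ^ 2) P := by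
      refine hsq.mono' (((hc n).mul (hf.comp (measurable_pi_apply n))).pow_const 2).aestronglyMeasurable
        (Filter.Eventually.of_forall fun ω => ?_)
      rcases hc01 n ω with h | h <;> simp [h, sq_nonneg]
    have hdep : DependsOn (fun ω => T ω * c n ω) (Iio n) := fun x y hxy => by
      simp only [hT, hcd n hxy]
      congr 1
      refine Finset.sum_congr rfl fun j hj => ?_
      rw [Finset.mem_range] at hj
      rw [hcd j (fun i hi => hxy i (mem_Iio.2 (lt_trans (mem_Iio.1 hi) hj))),
        hxy j (mem_Iio.2 hj)]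
    have hind : IndepFun (fun ω => T ω * c n ω) (fun ω => f (ω n)) P :=
      indepFun_past_next ν n (F := fun ω => T ω * c n ω) (hTm.mul (hc n)) hdep hf
    have hcross : ∫ ω, T ω * c n ω * f (ω n) ∂P = 0 := by
      rw [hind.integral_fun_mul_eq_mul_integral hTc.aestronglyMeasurable hfn.aestronglyMeasurable]
      have : ∫ ω, f (ω n) ∂P = ∫ a, f a ∂ν := by
        rw [← hmp.map_eq, integral_map hmp.measurable.aemeasurable hf.aestronglyMeasurable]
      rw [this, h0, mul_zero]
    have hcrossi : Integrable (fun ω => T ω * c n ω * f (ω n)) P := hind.integrable_mul hTc hfn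
    have hexp : (fun ω => (∑ j ∈ Finset.range (n + 1), c j ω * f (ω j)) ^ 2) =
        fun ω => (T ω ^ 2 + 2 * (T ω * c n ω * f (ω n))) + (c n ω * f (ω n)) ^ 2 := by
      funext ω
      rw [Finset.sum_range_succ, hT]
      ring
    have h12 : Integrable (fun ω => T ω ^ 2 + 2 * (T ω * c n ω * f (ω n))) P :=
      hi.add (hcrossi.const_mul 2)
    rw [hexp]
    refine ⟨h12.add hcsq, ?_⟩
    rw [integral_add h12 hcsq, integral_add hi (hcrossi.const_mul 2), integral_const_mul, hcross]
    have h3 : ∫ ω, (c n ω * f (ω n)) ^ 2 ∂P ≤ ∫ a, f a ^ 2 ∂ν := by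
      have he : ∫ ω, f (ω n) ^ 2 ∂P = ∫ a, f a ^ 2 ∂ν := by
        rw [← hmp.map_eq, integral_map hmp.measurable.aemeasurable (hf.pow_const 2).aestronglyMeasurable]
      rw [← he]
      refine integral_mono hcsq hsq fun ω => ?_
      rcases hc01 n ω with h | h <;> simp [h, sq_nonneg]
    push_cast
    linarith

/-- Chebyshev bound for a stopped sum. -/
theorem stopped_tail {f : α → ℝ} (hf : Measurable f) (hf2 : Integrable (fun a => f a ^ 2) ν)
    (h0 : ∫ a, f a ∂ν = 0) (c : ℕ → (ℕ → α) → ℝ) (hc : ∀ j, Measurable (c j))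
    (hc01 : ∀ j ω, c j ω = 0 ∨ c j ω = 1) (hcd : ∀ j, DependsOn (c j) (Iio j)) (n : ℕ)
    {r : ℝ} (hr : 0 < r) :
    (Measure.infinitePi fun _ : ℕ => ν) {ω | r ≤ |∑ j ∈ Finset.range n, c j ω * f (ω j)|} ≤
      ENNReal.ofReal (n * (∫ a, f a ^ 2 ∂ν) / r ^ 2) := by
  obtain ⟨hi, hle⟩ := stopped_sq_le ν hf hf2 h0 c hc hc01 hcd n
  have h := mul_meas_ge_le_integral_of_nonneg
    (Filter.Eventually.of_forall fun ω => sq_nonneg _) hi (r ^ 2)
  have hset : {ω : ℕ → α | r ≤ |∑ j ∈ Finset.range n, c j ω * f (ω j)|} =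
      {ω | r ^ 2 ≤ (∑ j ∈ Finset.range n, c j ω * f (ω j)) ^ 2} := by
    ext ω
    simp only [mem_ofPred_eq, sq_le_sq, abs_of_pos hr]
  rw [hset, ← ofReal_measureReal (measure_ne_top _ _)]
  refine ENNReal.ofReal_le_ofReal ?_
  rw [le_div_iff₀ (by positivity)]
  linarith

end Vale.Agent.P147.Regen
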