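import Vale.Agent.P147.Regen.BandWord
import Vale.Agent.P147.Regen.Stopped

/-!
# Common cuts: overshoot and tightness of each lateral displacement
-/

namespace Vale.Agent.P147.Regen

open MeasureTheory Set Filter
open scoped ENNReal

variable {d : ℕ} [NeZero d] {μ : Measure (Step d → ℝ)} [IsProbabilityMeasure μ]
  {φ : Site d →+ ℤ}

/-- The event that level `ℓ` is a common cut at which the two words lie in `S`. -/
def CommonEv (φ : Site d →+ ℤ) (ℓ : ℕ) (S : Set (Word d × Word d)) : Set (ℕ → PairW d) :=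
  {ω | ∃ n, height φ ω n = (ℓ : ℤ) ∧ (xWord ω n, yWord ω n) ∈ S}

omit [NeZero d] in
theorem height_congr {ω ω' : ℕ → PairW d} {i : ℕ} (h : ∀ k < i, ω k = ω' k) :
    height φ ω i = height φ ω' i :=
  Finset.sum_congr rfl fun k hk => by rw [h k (Finset.mem_range.1 hk)]

omit [NeZero d] in
theorem measurableSet_common (ℓ : ℕ) (S : Set (Word d × Word d)) :
    MeasurableSet (CommonEv φ ℓ S) := by
  have : CommonEv φ ℓ S = ⋃ n, {ω | height φ ω n = (ℓ : ℤ) ∧ (xWord ω n, yWord ω n) ∈ S} := by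
    ext ω; simp [CommonEv]
  rw [this]
  refine MeasurableSet.iUnion fun n => measurableSet_of_dependsOn (n := n) fun x y hxy => ?_
  have hx : xWord x n = xWord y n := by
    simp only [xWord]
    congr 1
    exact List.map_congr_left fun i hi => by rw [hxy i (mem_Iio.2 (by simpa using hi))]
  have hy : yWord x n = yWord y n := by
    simp only [yWord]
    congr 1
    exact List.map_congr_left fun i hi => by rw [hxy i (mem_Iio.2 (List.mem_range.1 hi))]
  simp only [mem_ofPred_eq, hx, hy, height_congr fun k hk => hxy k (mem_Iio.2 hk)]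

omit [NeZero d] in
theorem common_unique {ω : ℕ → PairW d} (hω : ∀ i, IsPair φ (ω i)) {n m : ℕ}
    (h : height φ ω n = height φ ω m) : n = m :=
  (strictMono_nat_of_lt_succ (height_lt_succ hω)).injective h

variable (μ) in
/-- Weights of the segments of height `ℓ`. -/
noncomputable def segWt (φ : Site d →+ ℤ) (ℓ : ℕ) (s : Word d) : ℝ≥0∞ :=
  {s | IsSeg φ s ∧ φ (disp s) = (ℓ : ℤ)}.indicator (wt μ) s

theorem common_product (h : Hyp μ φ) {ℓ : ℕ} (hℓ : 1 ≤ ℓ) (S : Set (Word d × Word d)) :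
    pairsLaw μ φ (CommonEv φ ℓ S) =
      ∑' s, ∑' t, S.indicator (fun p => segWt μ φ ℓ p.1 * segWt μ (-φ) ℓ p.2) (s, t) := by
  classical
  rw [CommonEv, pairs_common μ φ h ℓ hℓ S, ← ENNReal.tsum_prod', ← tsum_subtype S
    fun p : Word d × Word d => segWt μ φ ℓ p.1 * segWt μ (-φ) ℓ p.2]
  rw [tsum_subtype S fun p : Word d × Word d => segWt μ φ ℓ p.1 * segWt μ (-φ) ℓ p.2]
  refine (tsum_subtype {p : Word d × Word d | IsSeg φ p.1 ∧ IsSeg (-φ) p.2 ∧
    φ (disp p.1) = (ℓ : ℤ) ∧ φ (disp p.2) = -(ℓ : ℤ) ∧ p ∈ S}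
    fun p => wt μ p.1 * wt μ p.2).trans (tsum_congr fun p => ?_)
  simp only [Set.indicator_apply, segWt, mem_ofPred_eq, AddMonoidHom.neg_apply, neg_eq_iff_eq_neg]
  by_cases h1 : IsSeg φ p.1 <;> by_cases h2 : IsSeg (-φ) p.2 <;>
    by_cases h3 : φ (disp p.1) = (ℓ : ℤ) <;> by_cases h4 : φ (disp p.2) = -(ℓ : ℤ) <;>
    by_cases h5 : p ∈ S <;> simp [h1, h2, h3, h4, h5]

theorem aUp_le_segWt (hell : IsElliptic μ) (hl : IsLevel φ) {ℓ : ℕ} (hℓ : 1 ≤ ℓ) :
    aUp μ φ ≤ ∑' s, segWt μ φ ℓ s := by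
  refine le_trans (aUp_le_segs μ φ hell hl ℓ hℓ) (le_of_eq ?_)
  exact tsum_subtype {s : Word d | IsSeg φ s ∧ φ (disp s) = (ℓ : ℤ)} (wt μ)

theorem segWt_mass_mul_le (h : Hyp μ φ) {ℓ : ℕ} (hℓ : 1 ≤ ℓ) :
    (∑' s, segWt μ φ ℓ s) * ∑' t, segWt μ (-φ) ℓ t ≤ 1 := by
  have := isProbabilityMeasure_pairLaw μ φ h
  have : IsProbabilityMeasure (pairsLaw μ φ) := by rw [pairsLaw]; infer_instance
  refine le_trans (le_of_eq ?_) (prob_le_one (μ := pairsLaw μ φ) (s := CommonEv φ ℓ univ))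
  rw [common_product h hℓ, ← ENNReal.tsum_mul_right]
  simp [ENNReal.tsum_mul_left]

/-- If the sum of two independent quantities is concentrated, so is the first one. -/
theorem exists_center (h : Hyp μ φ) {ℓ : ℕ} (hℓ : 1 ≤ ℓ) (F G : Word d → ℤ) {r : ℝ}
    {ε : ℝ≥0∞} (hε0 : ε ≠ 0) (hεt : ε ≠ ∞)
    (hD : pairsLaw μ φ (CommonEv φ ℓ {p | r ≤ |((F p.1 + G p.2 : ℤ) : ℝ)|}) ≤ ε) :
    ∃ c : ℤ, pairsLaw μ φ (CommonEv φ ℓ {p | r ≤ |((F p.1 - c : ℤ) : ℝ)|}) ≤
      2 * ε / (aUp μ φ * aUp μ (-φ)) := by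
  classical
  set g : Word d → ℝ≥0∞ := fun t =>
    ∑' s, {s | r ≤ |((F s + G t : ℤ) : ℝ)|}.indicator (segWt μ φ ℓ) s with hg
  set M := ∑' t, segWt μ (-φ) ℓ t with hM
  have hdown : aUp μ (-φ) ≤ M := aUp_le_segWt h.ell (isLevel_neg h.lev) hℓ
  have hup : aUp μ φ ≤ ∑' s, segWt μ φ ℓ s := aUp_le_segWt h.ell h.lev hℓ
  have hkey : ∑' t, segWt μ (-φ) ℓ t * g t ≤ ε := by
    refine le_trans (le_of_eq ?_) hD
    rw [common_product h hℓ, ENNReal.tsum_comm]
    refine tsum_congr fun t => ?_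
    simp only [hg, ← ENNReal.tsum_mul_left]
    refine tsum_congr fun s => ?_
    by_cases hs : r ≤ |((F s + G t : ℤ) : ℝ)| <;>
      simp [Set.indicator_apply, hs, mul_comm]
  obtain ⟨t₀, ht₀⟩ : ∃ t, g t ≤ 2 * ε / aUp μ (-φ) := by
    by_contra hne
    simp only [not_exists, not_le] at hne
    have h1 : 2 * ε ≤ ∑' t, segWt μ (-φ) ℓ t * g t := by
      calc 2 * ε = aUp μ (-φ) * (2 * ε / aUp μ (-φ)) := by
            rw [ENNReal.mul_div_cancel h.down.ne'
              (ne_top_of_le_ne_top ENNReal.one_ne_top (ann_le_one 0 _))]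
        _ ≤ M * (2 * ε / aUp μ (-φ)) := mul_le_mul' hdown le_rfl
        _ ≤ _ := by
          rw [hM, ← ENNReal.tsum_mul_right]
          exact ENNReal.tsum_le_tsum fun t => mul_le_mul' le_rfl (hne t).le
    have h2 : 2 * ε ≤ 1 * ε := by rw [one_mul]; exact h1.trans hkey
    exact absurd ((ENNReal.mul_le_mul_iff_left hε0 hεt).1 h2) (by norm_num)
  refine ⟨-G t₀, ?_⟩
  have hMle : M ≤ 1 / aUp μ φ := by
    rw [ENNReal.le_div_iff_mul_le (Or.inl h.up.ne')
      (Or.inl (ne_top_of_le_ne_top ENNReal.one_ne_top (ann_le_one 0 _))), mul_comm]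
    exact (mul_le_mul' hup le_rfl).trans (segWt_mass_mul_le h hℓ)
  calc pairsLaw μ φ (CommonEv φ ℓ {p | r ≤ |((F p.1 - -G t₀ : ℤ) : ℝ)|})
      = g t₀ * M := by
        rw [common_product h hℓ, hg, hM]
        dsimp only
        rw [← ENNReal.tsum_mul_right]
        refine tsum_congr fun s => ?_
        rw [← ENNReal.tsum_mul_left]
        refine tsum_congr fun t => ?_
        by_cases hs : r ≤ |((F s + G t₀ : ℤ) : ℝ)| <;>
          simp [Set.indicator_apply, hs, sub_neg_eq_add]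
    _ ≤ 2 * ε / aUp μ (-φ) * (1 / aUp μ φ) := mul_le_mul' ht₀ hMle
    _ = 2 * ε / (aUp μ φ * aUp μ (-φ)) := by
        rw [div_eq_mul_inv, div_eq_mul_inv, div_eq_mul_inv, one_mul,
          ENNReal.mul_inv (Or.inl h.up.ne') (Or.inr h.down.ne'), mul_assoc]
        ring

/-- Height exceedance. -/
theorem height_markov (h : Hyp μ φ) (m B : ℕ) :
    ((B : ℝ≥0∞) + 1) * pairsLaw μ φ {ω | (B : ℤ) < height φ ω m} ≤
      m * (aUp μ φ * aUp μ (-φ))⁻¹ := by
  have := isProbabilityMeasure_pairLaw μ φ h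
  set f : PairW d → ℝ≥0∞ := fun p => ((φ (disp p.1)).toNat : ℝ≥0∞)
  have hf : Measurable f := measurable_of_countable _
  set F : (ℕ → PairW d) → ℝ≥0∞ := fun ω => ∑ i ∈ Finset.range m, f (ω i)
  have hF : Measurable F :=
    Finset.measurable_sum _ fun i _ => hf.comp (measurable_pi_apply i)
  calc ((B : ℝ≥0∞) + 1) * pairsLaw μ φ {ω | (B : ℤ) < height φ ω m}
      ≤ ((B : ℝ≥0∞) + 1) * pairsLaw μ φ {ω | (B : ℝ≥0∞) + 1 ≤ F ω} := by
        refine mul_le_mul' le_rfl (measure_mono fun ω hω => ?_)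
        simp only [F, f, mem_ofPred_eq, ← Nat.cast_sum, height] at hω ⊢
        have h1 : ∑ i ∈ Finset.range m, φ (disp (ω i).1) ≤
            ((∑ i ∈ Finset.range m, (φ (disp (ω i).1)).toNat : ℕ) : ℤ) := by
          push_cast
          exact Finset.sum_le_sum fun i _ => Int.self_le_toNat _
        have h2 : B + 1 ≤ ∑ i ∈ Finset.range m, (φ (disp (ω i).1)).toNat := by omega
        exact_mod_cast h2
    _ ≤ ∫⁻ ω, F ω ∂pairsLaw μ φ := mul_meas_ge_le_lintegral hF _
    _ ≤ _ := by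
        simp only [F]
        rw [lintegral_finsetSum (f := fun i (ω : ℕ → PairW d) => f (ω i)) _
          fun i _ => hf.comp (measurable_pi_apply i)]
        have h' : ∀ i, ∫⁻ ω, f (ω i) ∂pairsLaw μ φ = ∫⁻ p, f p ∂pairLaw μ φ := fun i => by
          rw [← lintegral_map hf (measurable_pi_apply i), pairsLaw, Measure.infinitePi_map_eval]
        simp only [h', Finset.sum_const, Finset.card_range, nsmul_eq_mul]
        exact mul_le_mul' le_rfl (lintegral_pair_height μ φ h)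

/-- Tail of the height of a pair. -/
noncomputable def heightTail (μ : Measure (Step d → ℝ)) (φ : Site d →+ ℤ) (j : ℕ) : ℝ≥0∞ :=
  pairLaw μ φ {p | (j : ℤ) < φ (disp p.1)}

theorem tsum_heightTail_ne_top (h : Hyp μ φ) : ∑' j, heightTail μ φ j ≠ ∞ := by
  classical
  refine ne_top_of_le_ne_top (ENNReal.inv_ne_top.2 (mul_ne_zero h.up.ne' h.down.ne'))
    (le_trans (le_of_eq ?_) (lintegral_pair_height μ φ h))
  have hm : ∀ j : ℕ, MeasurableSet {p : PairW d | (j : ℤ) < φ (disp p.1)} := fun j =>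
    (to_countable _).measurableSet
  have h1 : ∀ j, heightTail μ φ j =
      ∫⁻ p, {p : PairW d | (j : ℤ) < φ (disp p.1)}.indicator 1 p ∂pairLaw μ φ :=
    fun j => (lintegral_indicator_one (hm j)).symm
  simp only [h1]
  rw [← lintegral_tsum fun j => (measurable_one.indicator (hm j)).aemeasurable]
  refine lintegral_congr fun p => ?_
  rw [tsum_eq_sum (s := Finset.range (φ (disp p.1)).toNat) fun j hj => indicator_of_notMem
    (fun hlt => hj (by simp only [mem_ofPred_eq] at hlt; simp only [Finset.mem_range]; omega)) _]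
  rw [Finset.sum_congr rfl (g := fun _ => (1 : ℝ≥0∞)) fun (j : ℕ) hj => indicator_of_mem
    (show p ∈ {p : PairW d | (j : ℤ) < φ (disp p.1)} by
      simp only [mem_ofPred_eq]; have := Finset.mem_range.1 hj; omega)
    (1 : PairW d → ℝ≥0∞)]
  simp

/-- A common cut is found soon after every level. -/
theorem overshoot_le (h : Hyp μ φ) {ℓ₀ : ℕ} (A₀ : ℕ) :
    pairsLaw μ φ {ω | ¬ ∃ n, (ℓ₀ : ℤ) ≤ height φ ω n ∧ height φ ω n ≤ ℓ₀ + A₀} ≤
      ∑' j, heightTail μ φ (j + A₀) := by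
  classical
  have := isProbabilityMeasure_pairLaw μ φ h
  have : IsProbabilityMeasure (pairsLaw μ φ) := by rw [pairsLaw]; infer_instance
  have hae : ∀ᵐ ω ∂pairsLaw μ φ, ∀ i, IsPair φ (ω i) := ae_all_iff.2 fun i =>
    (measurePreserving_eval_infinitePi (fun _ : ℕ => pairLaw μ φ) i).quasiMeasurePreserving.ae
      (ae_isPair μ φ)
  let G : ℕ → ℕ → Set (ℕ → PairW d) := fun r m => {ω | height φ ω m = (r : ℤ)}
  let H : ℕ → Set (PairW d) := fun j => {p | (j : ℤ) < φ (disp p.1)}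
  have hGd : ∀ r m, DependsOn (· ∈ G r m) (Iio m) := fun r m x y hxy => by
    simp only [G, mem_ofPred_eq, height_congr fun k hk => hxy k (mem_Iio.2 hk)]
  have hGm : ∀ r m, MeasurableSet (G r m) := fun r m => measurableSet_of_dependsOn (hGd r m)
  have hsub : pairsLaw μ φ {ω | ¬ ∃ n, (ℓ₀ : ℤ) ≤ height φ ω n ∧ height φ ω n ≤ ℓ₀ + A₀} ≤
      pairsLaw μ φ (⋃ r ∈ Finset.range ℓ₀, ⋃ m,
        G r m ∩ (fun (ω : ℕ → PairW d) i => ω (m + i)) ⁻¹' {ω | ω 0 ∈ H (ℓ₀ + A₀ - r)}) := by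
    refine measure_mono_ae ?_
    filter_upwards [hae] with ω hω hno
    have hex : ∃ n, (ℓ₀ : ℤ) ≤ height φ ω n := ⟨ℓ₀, le_height hω ℓ₀⟩
    have hn := Nat.find_spec hex
    have hn0 : Nat.find hex ≠ 0 := fun h0 => hno ⟨0, by rw [h0] at hn; exact hn, by
      simp [height_zero]; positivity⟩
    obtain ⟨m, hm⟩ : ∃ m, Nat.find hex = m + 1 := ⟨Nat.find hex - 1, by omega⟩
    have hlt : height φ ω m < ℓ₀ := not_le.1 (Nat.find_min hex (by omega))
    have hpos : 0 ≤ height φ ω m := le_trans (by positivity) (le_height hω m)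
    rw [hm] at hn
    have hbig : ¬ height φ ω (m + 1) ≤ ℓ₀ + A₀ := fun hle => hno ⟨m + 1, hn, hle⟩
    rw [height_succ] at hbig
    refine mem_iUnion₂.2 ⟨(height φ ω m).toNat, Finset.mem_range.2 (by omega),
      mem_iUnion.2 ⟨m, show height φ ω m = (((height φ ω m).toNat : ℕ) : ℤ) by omega,
        show ((ℓ₀ + A₀ - (height φ ω m).toNat : ℕ) : ℤ) < φ (disp (ω (m + 0)).1) by
          simp only [Nat.add_zero]; omega⟩⟩
  refine hsub.trans (le_trans (measure_biUnion_finset_le _ _) ?_)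
  calc ∑ r ∈ Finset.range ℓ₀, pairsLaw μ φ (⋃ m,
        G r m ∩ (fun (ω : ℕ → PairW d) i => ω (m + i)) ⁻¹' {ω | ω 0 ∈ H (ℓ₀ + A₀ - r)})
      ≤ ∑ r ∈ Finset.range ℓ₀, heightTail μ φ (ℓ₀ + A₀ - r) := by
        refine Finset.sum_le_sum fun r _ => ?_
        refine le_trans (measure_iUnion_le _) ?_
        have hH : MeasurableSet {ω : ℕ → PairW d | ω 0 ∈ H (ℓ₀ + A₀ - r)} :=
          measurable_pi_apply 0 (to_countable _).measurableSet
        have hval : pairsLaw μ φ {ω : ℕ → PairW d | ω 0 ∈ H (ℓ₀ + A₀ - r)} =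
            heightTail μ φ (ℓ₀ + A₀ - r) :=
          (measurePreserving_eval_infinitePi (fun _ : ℕ => pairLaw μ φ) 0).measure_preimage
            (to_countable _).measurableSet.nullMeasurableSet
        have hterm : ∀ m, pairsLaw μ φ
            (G r m ∩ (fun (ω : ℕ → PairW d) i => ω (m + i)) ⁻¹' {ω | ω 0 ∈ H (ℓ₀ + A₀ - r)}) =
            pairsLaw μ φ (G r m) * heightTail μ φ (ℓ₀ + A₀ - r) := fun m => by
          rw [← hval]
          exact measure_past_inter_future (pairLaw μ φ) m (hGm r m) (hGd r m) hH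
        simp only [hterm, ENNReal.tsum_mul_right]
        refine le_trans (mul_le_mul' ?_ le_rfl) (one_mul _).le
        rw [← measure_iUnion₀ ?_ fun m => (hGm r m).nullMeasurableSet]
        · exact prob_le_one
        · intro a b hab
          refine measure_mono_null (fun ω hω => ?_) (ae_iff.1 hae)
          exact fun hall => hab (common_unique hall (hω.1.trans hω.2.symm))
    _ = ∑ i ∈ Finset.range ℓ₀, heightTail μ φ (i + 1 + A₀) := by
        rw [← Finset.sum_range_reflect]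
        refine Finset.sum_congr rfl fun i hi => ?_
        rw [show ℓ₀ + A₀ - (ℓ₀ - 1 - i) = i + 1 + A₀ by
          have := Finset.mem_range.1 hi; omega]
    _ ≤ ∑' i, heightTail μ φ (i + 1 + A₀) := ENNReal.sum_le_tsum _
    _ ≤ ∑' j, heightTail μ φ (j + A₀) :=
        ENNReal.tsum_comp_le_tsum_of_injective (f := fun i => i + 1)
          (add_left_injective 1) (fun j => heightTail μ φ (j + A₀))

end Vale.Agent.P147.Regen
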