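import Vale.Agent.P147.Escape
import Vale.Agent.P147.Ergodic

/-!
# Regeneration words for random walk in random environment: basic definitions

Finite step lists (words), their weights under the iid environment, segments, blocks and pairs
of blocks with common cut levels, with respect to an integer level `φ`.
-/

namespace Vale.Agent.P147.Regen

open MeasureTheory Set Filter
open scoped ENNReal

variable {d : ℕ}

/-- Finite step lists. -/
abbrev Word (d : ℕ) : Type := List (Step d)

/-- Displacement of a word. -/
def disp (s : Word d) : Site d := (s.map stp).sum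

/-- The sites visited by the word from `x`, the end point excluded. -/
def trace : Site d → Word d → Finset (Site d)
  | _, [] => ∅
  | x, e :: s => insert x (trace (x + stp e) s)

/-- Step sequences starting with the word `s`. -/
def Pre (s : Word d) : Set (ℕ → Step d) := {u | ∀ k (h : k < s.length), u k = s[k]}

/-- Forget the first `n` steps. -/
def shiftSeq {α : Type*} (n : ℕ) (u : ℕ → α) : ℕ → α := fun k => u (n + k)

/-- The iid environment law. -/
noncomputable def envLaw (μ : Measure (Step d → ℝ)) : Measure (Env d) :=
  Measure.infinitePi fun _ : Site d => μ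

/-- Quenched weight of a word from `x`. -/
noncomputable def qw (w : Env d) : Site d → Word d → ℝ≥0∞
  | _, [] => 1
  | x, e :: s => ENNReal.ofReal (w x e) * qw w (x + stp e) s

/-- Annealed weight of a word. -/
noncomputable def wt (μ : Measure (Step d → ℝ)) (s : Word d) : ℝ≥0∞ := ∫⁻ w, qw w 0 s ∂envLaw μ

/-- Annealed law of the step sequence, as a set function. -/
noncomputable def ann [NeZero d] (μ : Measure (Step d → ℝ)) (x : Site d)
    (A : Set (ℕ → Step d)) : ℝ≥0∞ :=
  ∫⁻ w, W w x A ∂envLaw μ

/-- An admissible level: an additive map changing by at most one at each step and taking the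
value one on some step. -/
def IsLevel (φ : Site d →+ ℤ) : Prop :=
  (∀ e : Step d, |φ (stp e)| ≤ 1) ∧ ∃ e : Step d, φ (stp e) = 1

/-- Escape to plus infinity in the level `φ`. -/
def Esc (φ : Site d →+ ℤ) : Set (ℕ → Step d) :=
  {u | Tendsto (fun n => φ (path 0 u n)) atTop atTop}

/-- Escape without ever going below the starting level. -/
def Up (φ : Site d →+ ℤ) : Set (ℕ → Step d) :=
  {u | ∀ n, 0 ≤ φ (path 0 u n)} ∩ Esc φ

/-- A segment: a nonempty word whose levels before the end are in `[0, final level)`. -/
def IsSeg (φ : Site d →+ ℤ) (s : Word d) : Prop :=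
  0 < s.length ∧ ∀ k < s.length, 0 ≤ φ (disp (s.take k)) ∧ φ (disp (s.take k)) < φ (disp s)

/-- A block: a segment which is not a concatenation of two segments. -/
def IsBlock (φ : Site d →+ ℤ) (s : Word d) : Prop :=
  IsSeg φ s ∧ ∀ s₁ s₂, IsSeg φ s₁ → IsSeg φ s₂ → s ≠ s₁ ++ s₂

/-- A pair: an upward and a downward segment of equal height without a common cut, the upward one
being read backwards from its top and the downward one from its start. -/
def IsPair (φ : Site d →+ ℤ) (p : Word d × Word d) : Prop :=
  IsSeg φ p.1 ∧ IsSeg (-φ) p.2 ∧ φ (disp p.1) = -φ (disp p.2) ∧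
    ∀ a₁ a₂ b₁ b₂, IsSeg φ a₁ → IsSeg φ a₂ → IsSeg (-φ) b₁ → IsSeg (-φ) b₂ →
      p.1 = a₁ ++ a₂ → p.2 = b₁ ++ b₂ → φ (disp a₂) ≠ -φ (disp b₁)

/-- Pairs of words with a common cut structure. -/
abbrev PairW (d : ℕ) : Type := Word d × Word d

instance : MeasurableSpace (Word d) := ⊤
instance : DiscreteMeasurableSpace (Word d) := ⟨fun _ => trivial⟩

/-- The law of a block. -/
noncomputable def blockLaw (μ : Measure (Step d → ℝ)) (φ : Site d →+ ℤ) : Measure (Word d) :=
  Measure.sum fun s : {s : Word d // IsBlock φ s} => wt μ s.1 • Measure.dirac s.1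

/-- The law of a pair. -/
noncomputable def pairLaw (μ : Measure (Step d → ℝ)) (φ : Site d →+ ℤ) : Measure (PairW d) :=
  Measure.sum fun p : {p : PairW d // IsPair φ p} =>
    (wt μ p.1.1 * wt μ p.1.2) • Measure.dirac p.1

/-- Independent pairs. -/
noncomputable def pairsLaw (μ : Measure (Step d → ℝ)) (φ : Site d →+ ℤ) :
    Measure (ℕ → PairW d) :=
  Measure.infinitePi fun _ => pairLaw μ φ

/-- Start of the upper end of the `i`-th upward word read backwards from top `o`. -/
def xTop (o : Site d) (ω : ℕ → PairW d) (i : ℕ) : Site d :=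
  o - ∑ k ∈ Finset.range i, disp (ω k).1

/-- Start of the `i`-th downward word from `y`. -/
def yTop (y : Site d) (ω : ℕ → PairW d) (i : ℕ) : Site d :=
  y + ∑ k ∈ Finset.range i, disp (ω k).2

/-- Sites of the upward words with indices in `[a, b)`. -/
def xSites (o : Site d) (ω : ℕ → PairW d) (a b : ℕ) : Finset (Site d) :=
  (Finset.Ico a b).biUnion fun i => trace (xTop o ω (i + 1)) (ω i).1

/-- Sites of the downward words with indices in `[a, b)`. -/
def ySites (y : Site d) (ω : ℕ → PairW d) (a b : ℕ) : Finset (Site d) :=
  (Finset.Ico a b).biUnion fun i => trace (yTop y ω i) (ω i).2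

end Vale.Agent.P147.Regen
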