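import Vale.Agent.P147.Regen.Defs

/-!
# Regeneration: chains, bands and the hypotheses
-/

namespace Vale.Agent.P147.Regen

open MeasureTheory Set Filter
open scoped ENNReal

variable {d : ℕ}

/-- Unboundedness from above in the level `φ`. -/
def Unb (φ : Site d →+ ℤ) : Set (ℕ → Step d) := {u | ∀ M : ℤ, ∃ n, M ≤ φ (path 0 u n)}

/-- Probability of escaping upwards without backtracking. -/
noncomputable def aUp [NeZero d] (μ : Measure (Step d → ℝ)) (φ : Site d →+ ℤ) : ℝ≥0∞ :=
  ann μ 0 (Up φ)

/-- Both directions of the level `φ` are escape directions. -/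
structure Hyp [NeZero d] (μ : Measure (Step d → ℝ)) (φ : Site d →+ ℤ) : Prop where
  ell : IsElliptic μ
  lev : IsLevel φ
  up : 0 < aUp μ φ
  down : 0 < aUp μ (-φ)

/-- Independent blocks. -/
noncomputable def blocksLaw (μ : Measure (Step d → ℝ)) (φ : Site d →+ ℤ) :
    Measure (ℕ → Word d) :=
  Measure.infinitePi fun _ => blockLaw μ φ

/-- The step sequence made of a sequence of nonempty words. -/
def glue [NeZero d] (b : ℕ → Word d) (n : ℕ) : Step d :=
  (((List.range (n + 1)).map b).flatten).getD n (0, true)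

/-- Mean number of steps of a block. -/
noncomputable def meanLen (μ : Measure (Step d → ℝ)) (φ : Site d →+ ℤ) : ℝ≥0∞ :=
  ∫⁻ s, (s.length : ℝ≥0∞) ∂blockLaw μ φ

/-- The first `n` upward words of the pairs, as one word from bottom to top. -/
def xWord (ω : ℕ → PairW d) (n : ℕ) : Word d :=
  ((List.range n).reverse.map fun i => (ω i).1).flatten

/-- The first `n` downward words of the pairs, as one word. -/
def yWord (ω : ℕ → PairW d) (n : ℕ) : Word d :=
  ((List.range n).map fun i => (ω i).2).flatten

/-- Total height of the first `n` pairs. -/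
def height (φ : Site d →+ ℤ) (ω : ℕ → PairW d) (n : ℕ) : ℤ :=
  ∑ i ∈ Finset.range n, φ (disp (ω i).1)

/-- The upward sites of the pairs in `[a, b)` meet the downward sites of the pairs in `[a, b]`,
for top offset `o` (the upward word of a pair can touch the downward word of the next one). -/
def Meet (o : Site d) (a b : ℕ) : Set (ℕ → PairW d) :=
  {ω | ¬ Disjoint (xSites o ω a b) (ySites 0 ω a (b + 1))}

/-- Avoidance of the first `n` pairs for top offset `o`, also avoiding the top itself. -/
def AvoidTop (o : Site d) (n : ℕ) : Set (ℕ → PairW d) :=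
  {ω | Disjoint (xSites o ω 0 n) (ySites 0 ω 0 (n + 1)) ∧ o ∉ ySites 0 ω 0 (n + 1)}

/-- Meetings in a band after a free buffer are uniformly unlikely. -/
def BandSmall (μ : Measure (Step d → ℝ)) (φ : Site d →+ ℤ) : Prop :=
  ∀ η : ℝ, 0 < η → ∃ N : ℕ, ∀ n ≥ N, ∀ o : Site d, φ o = 0 →
    pairsLaw μ φ (Meet o n (4 * n)) ≤ ENNReal.ofReal η

/-- Lateral coordinates: drop the coordinate `i₀`. -/
def lat {k : ℕ} (i₀ : Fin (k + 1)) : Site (k + 1) →+ (Fin k → ℤ) where
  toFun x := fun j => x (i₀.succAbove j)
  map_zero' := rfl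
  map_add' _ _ := rfl

/-- Lateral increment of a pair. -/
def vlat {k : ℕ} (i₀ : Fin (k + 1)) (p : PairW (k + 1)) : Fin k → ℤ :=
  lat i₀ (disp p.1 + disp p.2)

end Vale.Agent.P147.Regen
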