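import Vale.Agent.P147.Regen.PairLists

/-!
# Two independent block chains and their decomposition into pairs
-/

namespace Vale.Agent.P147.Regen

open MeasureTheory Set Filter
open scoped ENNReal

/-! ### Sequences beginning with a list -/

section Beg

variable {α : Type*}

/-- Sequences beginning with the list `L`. -/
def Beg (L : List α) : Set (ℕ → α) := {u | ∀ k (h : k < L.length), u k = L[k]}

theorem mem_Beg_iff {L : List α} {u : ℕ → α} : u ∈ Beg L ↔ (List.range L.length).map u = L := by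
  constructor
  · intro h
    refine List.ext_getElem (by simp) fun k h1 h2 => ?_
    simpa using h k h2
  · intro h k hk
    simpa using (List.getElem_of_eq h.symm hk).symm

theorem Beg_nil : Beg ([] : List α) = univ := by ext u; simp [Beg]

theorem Beg_cons (a : α) (L : List α) :
    Beg (a :: L) = {u | u 0 = a} ∩ (fun u k => u (1 + k)) ⁻¹' Beg L := by
  ext u
  simp only [Beg, mem_inter_iff, mem_preimage, mem_ofPred_eq, List.length_cons]
  constructor
  · intro h
    refine ⟨h 0 (by omega), fun k hk => ?_⟩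
    have := h (k + 1) (by omega)
    simpa [Nat.add_comm] using this
  · rintro ⟨h0, h⟩ k hk
    cases k with
    | zero => exact h0
    | succ k => simpa [Nat.add_comm] using h k (by omega)

theorem compat_of_mem_Beg {L L' : List α} {u : ℕ → α} (h : u ∈ Beg L) (h' : u ∈ Beg L') :
    Compat L L' := by
  rcases le_total L.length L'.length with hl | hl
  · exact Or.inl (List.prefix_iff_getElem.2 ⟨hl, fun k hk => (h k hk).symm.trans (h' k (by omega))⟩)
  · exact Or.inr (List.prefix_iff_getElem.2 ⟨hl, fun k hk => (h' k hk).symm.trans (h k (by omega))⟩)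

theorem mem_Beg_congr {L : List α} {u u' : ℕ → α} (h : ∀ k < L.length, u k = u' k) :
    u ∈ Beg L ↔ u' ∈ Beg L := by
  constructor
  · intro hu k hk; rw [← h k hk]; exact hu k hk
  · intro hu k hk; rw [h k hk]; exact hu k hk

variable [MeasurableSpace α] [MeasurableSingletonClass α]

theorem measurableSet_Beg (L : List α) : MeasurableSet (Beg L) := by
  have : Beg L = ⋂ k : Fin L.length, (fun u : ℕ → α => u k) ⁻¹' {L[k]} := by
    ext u
    simp only [Beg, mem_ofPred_eq, mem_iInter, mem_preimage, mem_singleton_iff]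
    exact ⟨fun h k => h k k.2, fun h k hk => h ⟨k, hk⟩⟩
  rw [this]
  exact MeasurableSet.iInter fun k => measurable_pi_apply _ (measurableSet_singleton _)

variable (ν : Measure α) [IsProbabilityMeasure ν]

theorem infinitePi_Beg (L : List α) :
    (Measure.infinitePi fun _ : ℕ => ν) (Beg L) = (L.map fun a => ν {a}).prod := by
  induction L with
  | nil => simp [Beg_nil]
  | cons a L ih =>
    have hA : MeasurableSet {u : ℕ → α | u 0 = a} := by
      have : {u : ℕ → α | u 0 = a} = (fun u : ℕ → α => u 0) ⁻¹' {a} := rfl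
      rw [this]
      exact measurable_pi_apply 0 (measurableSet_singleton a)
    rw [Beg_cons, measure_past_inter_future ν 1 hA (fun u u' h => by
        simp only [mem_ofPred_eq, h 0 (by simp)]) (measurableSet_Beg L), ih, List.map_cons,
      List.prod_cons]
    congr 1
    exact ((measurePreserving_eval_infinitePi (fun _ : ℕ => ν) 0).measure_preimage
      (measurableSet_singleton a).nullMeasurableSet)

omit ν in
theorem measurable_of_dependsOn [Countable α] [DiscreteMeasurableSpace α] {β : Type*}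
    [MeasurableSpace β] {f : (ℕ → α) → β} {n : ℕ} (hf : DependsOn f (Iio n)) : Measurable f :=
  fun B _ => measurableSet_of_dependsOn (n := n) fun x y h => by
    simp only [mem_preimage, hf h]

/-- The value at time `i` is independent of what happened before. -/
theorem lintegral_past_mul_eval (i : ℕ) {g : (ℕ → α) → ℝ≥0∞} (hg : Measurable g)
    (hgi : DependsOn g (Iio i)) {f : α → ℝ≥0∞} (hf : Measurable f) :
    ∫⁻ ω, g ω * f (ω i) ∂(Measure.infinitePi fun _ : ℕ => ν) =
      (∫⁻ ω, g ω ∂(Measure.infinitePi fun _ : ℕ => ν)) * ∫⁻ a, f a ∂ν := by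
  have h := lintegral_past_mul_future ν i hg hgi (g := fun ω => f (ω 0))
    (hf.comp (measurable_pi_apply 0))
  simp only [Nat.add_zero] at h
  rw [h]
  congr 1
  exact (measurePreserving_eval_infinitePi (fun _ : ℕ => ν) 0).lintegral_comp hf

theorem list_sum_eq_tsum (f : α → ℝ≥0∞) (a : α) (L : List α) :
    (L.map f).sum = ∑' k : ℕ, if k < L.length then f (L.getD k a) else 0 := by
  induction L with
  | nil => simp
  | cons b L ih =>
    rw [tsum_eq_zero_add' ENNReal.summable, List.map_cons, List.sum_cons, ih]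
    simp

/-- Wald's inequality for an exhausting disjoint family of cylinders of two independent
sequences. -/
theorem wald_stop [Countable α] [DiscreteMeasurableSpace α] (ν' : Measure α)
    [IsProbabilityMeasure ν'] {ι : Type*} [Countable ι] (La Lb : ι → List α) (w : ι → ℝ≥0∞)
    (hw : ∀ i, (Measure.infinitePi fun _ : ℕ => ν) (Beg (La i)) *
      (Measure.infinitePi fun _ : ℕ => ν') (Beg (Lb i)) = w i)
    (hdisj : ∀ i j, Compat (La i) (La j) → Compat (Lb i) (Lb j) → i = j)
    (htot : ∑' i, w i = 1) (f : α → ℝ≥0∞) :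
    ∑' i, w i * ((La i).map f).sum ≤ (∫⁻ a, f a ∂ν) * ∑' i, w i * (La i).length := by
  classical
  obtain ⟨a⟩ : Nonempty α := nonempty_of_isProbabilityMeasure ν
  let P := Measure.infinitePi fun _ : ℕ => ν
  let P' := Measure.infinitePi fun _ : ℕ => ν'
  let C : ι → Set ((ℕ → α) × (ℕ → α)) := fun i => Beg (La i) ×ˢ Beg (Lb i)
  have hCm : ∀ i, MeasurableSet (C i) := fun i => (measurableSet_Beg _).prod (measurableSet_Beg _)
  have hCw : ∀ i, (P.prod P') (C i) = w i := fun i => (Measure.prod_prod _ _).trans (hw i)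
  have hCd : Pairwise (Function.onFun Disjoint C) := fun i j hij =>
    Set.disjoint_left.2 fun z hi hj => hij
      (hdisj i j (compat_of_mem_Beg hi.1 hj.1) (compat_of_mem_Beg hi.2 hj.2))
  have hlen : ∀ i, w i * ((La i).length : ℝ≥0∞) = ∑' k : ℕ, if k < (La i).length then w i else 0 := by
    intro i
    rw [show ((La i).length : ℝ≥0∞) = ∑ _k ∈ Finset.range (La i).length, 1 by simp,
      Finset.mul_sum, tsum_eq_sum (s := Finset.range (La i).length) fun k hk => if_neg (by simpa using hk)]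
    refine Finset.sum_congr rfl fun k hk => ?_
    rw [if_pos (Finset.mem_range.1 hk), mul_one]
  have hR : ∑' i, w i * ((La i).length : ℝ≥0∞) =
      ∑' k : ℕ, ∑' i, if k < (La i).length then w i else 0 := by
    simp only [hlen]
    exact ENNReal.tsum_comm
  have hLS : ∑' i, w i * ((La i).map f).sum =
      ∑' k : ℕ, ∑' i, w i * (if k < (La i).length then f ((La i).getD k a) else 0) := by
    simp only [list_sum_eq_tsum f a, ← ENNReal.tsum_mul_left]
    exact ENNReal.tsum_comm
  rw [hR, hLS, ← ENNReal.tsum_mul_left]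
  refine ENNReal.tsum_le_tsum fun k => ?_
  set Ck : Set ((ℕ → α) × (ℕ → α)) := ⋃ i : {i // (La i).length ≤ k}, C i.1 with hCk
  have hCkm : MeasurableSet Ck := MeasurableSet.iUnion fun i => hCm _
  -- the left side lives on the complement of `Ck`
  have hL : ∑' i, w i * (if k < (La i).length then f ((La i).getD k a) else 0) ≤
      ∫⁻ z in Ckᶜ, f (z.1 k) ∂P.prod P' := by
    calc ∑' i, w i * (if k < (La i).length then f ((La i).getD k a) else 0)
        = ∑' i : {i // k < (La i).length}, w i.1 * f ((La i.1).getD k a) := by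
          rw [show (∑' i, w i * (if k < (La i).length then f ((La i).getD k a) else 0)) =
            ∑' i, ({i | k < (La i).length} : Set ι).indicator
              (fun i => w i * f ((La i).getD k a)) i from tsum_congr fun i => by
              simp [Set.indicator_apply]]
          exact (tsum_subtype _ _).symm
      _ = ∑' i : {i // k < (La i).length}, ∫⁻ z in C i.1, f (z.1 k) ∂P.prod P' := by
          refine tsum_congr fun i => ?_
          rw [setLIntegral_congr_fun (hCm _) (g := fun _ => f ((La i.1).getD k a)) fun z hz => ?_,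
            setLIntegral_const, hCw, mul_comm]
          show f (z.1 k) = f ((La i.1).getD k a)
          rw [List.getD_eq_getElem _ _ i.2, hz.1 k i.2]
      _ = ∫⁻ z in ⋃ i : {i // k < (La i).length}, C i.1, f (z.1 k) ∂P.prod P' :=
          (lintegral_iUnion (s := fun i : {i // k < (La i).length} => C i.1) (fun i => hCm _)
            (fun i j hij => hCd (Subtype.val_injective.ne hij)) _).symm
      _ ≤ _ := by
          refine lintegral_mono_set fun z hz hz' => ?_
          obtain ⟨i, hi⟩ := mem_iUnion.1 hz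
          obtain ⟨j, hj⟩ := mem_iUnion.1 hz'
          have he := hdisj i.1 j.1 (compat_of_mem_Beg hi.1 hj.1) (compat_of_mem_Beg hi.2 hj.2)
          have := j.2
          rw [← he] at this
          exact absurd i.2 (by omega)
  refine hL.trans ?_
  have hfm : Measurable f := Measurable.of_discrete
  have hfk : Measurable fun z : (ℕ → α) × (ℕ → α) => f (z.1 k) :=
    hfm.comp ((measurable_pi_apply k).comp measurable_fst)
  -- independence of the value at time `k`
  have hind : ∫⁻ z in Ckᶜ, f (z.1 k) ∂P.prod P' = (∫⁻ a, f a ∂ν) * (P.prod P') Ckᶜ := by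
    rw [← lintegral_indicator hCkm.compl, ← setLIntegral_one Ckᶜ, ← lintegral_indicator hCkm.compl,
      lintegral_prod_symm' _ (hfk.indicator hCkm.compl),
      lintegral_prod_symm' _ (measurable_const.indicator hCkm.compl),
      ← lintegral_const_mul _ ((measurable_const.indicator hCkm.compl).lintegral_prod_left')]
    refine lintegral_congr fun y => ?_
    have hd : DependsOn (fun x => Ckᶜ.indicator (fun _ => (1 : ℝ≥0∞)) (x, y)) (Iio k) := by
      intro x x' h
      have hiff : (x, y) ∈ Ck ↔ (x', y) ∈ Ck := by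
        simp only [hCk, mem_iUnion, C, mem_prod]
        refine exists_congr fun i => and_congr_left fun _ => mem_Beg_congr fun j hj => ?_
        exact h j (mem_Iio.2 (lt_of_lt_of_le hj i.2))
      simp only [Set.indicator_apply, mem_compl_iff, hiff]
    calc ∫⁻ x, Ckᶜ.indicator (fun z => f (z.1 k)) (x, y) ∂P
        = ∫⁻ x, Ckᶜ.indicator (fun _ => (1 : ℝ≥0∞)) (x, y) * f (x k) ∂P :=
          lintegral_congr fun x => by by_cases hx : (x, y) ∈ Ckᶜ <;> simp [hx]
      _ = _ := by
          rw [lintegral_past_mul_eval ν k (measurable_of_dependsOn hd) hd hfm, mul_comm]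
  rw [hind]
  refine mul_le_mul' le_rfl (le_of_eq ?_)
  have h1 : (P.prod P') Ck = ∑' i, if k < (La i).length then 0 else w i := by
    rw [hCk, measure_iUnion (f := fun i : {i // (La i).length ≤ k} => C i.1)
      (fun i j hij => hCd (Subtype.val_injective.ne hij)) fun i => hCm _]
    simp only [hCw]
    rw [show (∑' i, if k < (La i).length then 0 else w i) =
      ∑' i, ({i | (La i).length ≤ k} : Set ι).indicator w i from tsum_congr fun i => by
        simp only [Set.indicator_apply, mem_ofPred_eq]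
        split_ifs <;> first | rfl | omega]
    exact tsum_subtype _ _
  have h2 : (P.prod P') Ck + ∑' i, (if k < (La i).length then w i else 0) = 1 := by
    rw [h1, ← ENNReal.tsum_add, ← htot]
    exact tsum_congr fun i => by split_ifs <;> simp
  have h3 : (P.prod P') Ck + (P.prod P') Ckᶜ = 1 := by
    rw [measure_add_measure_compl hCkm, measure_univ]
  exact (ENNReal.add_right_inj (ne_top_of_le_ne_top ENNReal.one_ne_top prob_le_one)).1
    (h3.trans h2.symm)

end Beg

/-! ### The two chains -/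

variable {d : ℕ} [NeZero d] {μ : Measure (Step d → ℝ)} [IsProbabilityMeasure μ] {φ : Site d →+ ℤ}

theorem Hyp.probUp (h : Hyp μ φ) : IsProbabilityMeasure (blockLaw μ φ) :=
  isProbabilityMeasure_blockLaw μ φ h.ell h.lev h.up

theorem Hyp.probDown (h : Hyp μ φ) : IsProbabilityMeasure (blockLaw μ (-φ)) :=
  isProbabilityMeasure_blockLaw μ (-φ) h.ell (isLevel_neg h.lev) h.down

/-- The independent block chains in the two directions. -/
noncomputable def chains (μ : Measure (Step d → ℝ)) (φ : Site d →+ ℤ) :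
    Measure ((ℕ → Word d) × (ℕ → Word d)) :=
  (blocksLaw μ φ).prod (blocksLaw μ (-φ))

/-- The chains begin with the blocks of the list of pairs. -/
def Cyl (φ : Site d →+ ℤ) (P : List (PairW d)) : Set ((ℕ → Word d) × (ℕ → Word d)) :=
  Beg (xBlocks φ P) ×ˢ Beg (yBlocks φ P)

theorem measurableSet_Cyl (φ : Site d →+ ℤ) (P : List (PairW d)) : MeasurableSet (Cyl φ P) :=
  (measurableSet_Beg _).prod (measurableSet_Beg _)

theorem blocksLaw_Beg [IsProbabilityMeasure (blockLaw μ φ)] {L : List (Word d)}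
    (hL : ∀ b ∈ L, IsBlock φ b) : blocksLaw μ φ (Beg L) = (L.map (wt μ)).prod := by
  rw [blocksLaw, infinitePi_Beg]
  exact congrArg List.prod (List.map_congr_left fun b hb => blockLaw_singleton μ (hL b hb))

theorem chains_marg (h : Hyp μ φ) {P : List (PairW d)} (hP : AllPairs φ P) :
    blocksLaw μ φ (Beg (xBlocks φ P)) * blocksLaw μ (-φ) (Beg (yBlocks φ P)) = wtP μ P := by
  have := h.probUp
  have := h.probDown
  obtain ⟨p1, p2⟩ := xBlocks_spec hP
  obtain ⟨q1, q2⟩ := yBlocks_spec hP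
  rw [blocksLaw_Beg p1, blocksLaw_Beg q1, wtP_eq μ hP, ← p2, ← q2,
    wt_flatten μ (φ := φ) fun b hb => (p1 b (List.mem_reverse.1 hb)).1,
    wt_flatten μ (φ := -φ) fun b hb => (q1 b hb).1, List.map_reverse, List.prod_reverse]

theorem Hyp.probBlocks (h : Hyp μ φ) : IsProbabilityMeasure (blocksLaw μ φ) := by
  have := h.probUp; unfold blocksLaw; infer_instance

theorem Hyp.probBlocks' (h : Hyp μ φ) : IsProbabilityMeasure (blocksLaw μ (-φ)) := by
  have := h.probDown; unfold blocksLaw; infer_instance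

theorem chains_Cyl (h : Hyp μ φ) {P : List (PairW d)} (hP : AllPairs φ P) :
    chains μ φ (Cyl φ P) = wtP μ P := by
  have := h.probBlocks
  have := h.probBlocks'
  rw [chains, Cyl, Measure.prod_prod, chains_marg h hP]

theorem compat_of_mem_Cyl {P Q : List (PairW d)} (hP : AllPairs φ P) (hQ : AllPairs φ Q)
    {z : (ℕ → Word d) × (ℕ → Word d)} (h : z ∈ Cyl φ P) (h' : z ∈ Cyl φ Q) : Compat P Q :=
  pairs_compat hP hQ (compat_of_mem_Beg h.1 h'.1) (compat_of_mem_Beg h.2 h'.2)

/-- A family of lists of pairs, none beginning another, has weight at most one. -/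
theorem tsum_wtP_le_one (h : Hyp μ φ) {ι : Type*} [Countable ι] (P : ι → List (PairW d))
    (hP : ∀ i, AllPairs φ (P i)) (hd : ∀ i j, Compat (P i) (P j) → i = j) :
    ∑' i, wtP μ (P i) ≤ 1 := by
  have := h.probBlocks
  have := h.probBlocks'
  calc ∑' i, wtP μ (P i) = ∑' i, chains μ φ (Cyl φ (P i)) :=
        tsum_congr fun i => (chains_Cyl h (hP i)).symm
    _ = chains μ φ (⋃ i, Cyl φ (P i)) := by
        refine (measure_iUnion (fun i j hij => ?_) fun i => measurableSet_Cyl φ (P i)).symm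
        exact Set.disjoint_left.2 fun z hi hj => hij (hd i j (compat_of_mem_Cyl (hP i) (hP j) hi hj))
    _ ≤ 1 := by
        have : IsProbabilityMeasure (chains μ φ) := by unfold chains; infer_instance
        exact prob_le_one

/-- Lists of pairs of a given length. -/
abbrev PLn (φ : Site d →+ ℤ) (n : ℕ) : Type :=
  {P : List (PairW d) // AllPairs φ P ∧ P.length = n}

/-- Lists of pairs of a given height. -/
abbrev PLh (φ : Site d →+ ℤ) (m : ℤ) : Type :=
  {P : List (PairW d) // AllPairs φ P ∧ htL φ P = m}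

theorem PLn_inj {n : ℕ} {P Q : PLn φ n} (h : Compat P.1 Q.1) : P = Q :=
  Subtype.ext (h.elim (fun h => h.eq_of_length (P.2.2.trans Q.2.2.symm))
    fun h => (h.eq_of_length (Q.2.2.trans P.2.2.symm)).symm)

theorem PLh_inj {m : ℤ} {P Q : PLh φ m} (h : Compat P.1 Q.1) : P = Q :=
  Subtype.ext (h.elim (fun h => (prefix_htL Q.2.1 h).2 (P.2.2.trans Q.2.2.symm))
    fun h => ((prefix_htL P.2.1 h).2 (Q.2.2.trans P.2.2.symm)).symm)

/-- The total weight of the pairs. -/
noncomputable def qTot (μ : Measure (Step d → ℝ)) (φ : Site d →+ ℤ) : ℝ≥0∞ :=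
  ∑' p : {p : PairW d // IsPair φ p}, wt μ p.1.1 * wt μ p.1.2

theorem qTot_le_one (h : Hyp μ φ) : qTot μ φ ≤ 1 := by
  refine le_of_eq_of_le (tsum_congr fun p => ?_) (tsum_wtP_le_one h
    (fun p : {p : PairW d // IsPair φ p} => [p.1]) (fun p => ?_) fun p q hpq => ?_)
  · simp [wtP]
  · simpa [AllPairs] using p.2
  · refine Subtype.ext ?_
    rcases hpq with hh | hh <;> simpa [eq_comm] using hh

theorem tsum_PLn_pow (n : ℕ) : ∑' P : PLn φ n, wtP μ P.1 = qTot μ φ ^ n := by
  induction n with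
  | zero =>
    rw [pow_zero, tsum_eq_single (⟨[], fun p hp => absurd hp List.not_mem_nil, rfl⟩ : PLn φ 0)
      fun P hP => absurd (Subtype.ext (List.length_eq_zero_iff.1 P.2.2)) hP]
    simp [wtP]
  | succ n ih =>
    let e : {p : PairW d // IsPair φ p} × PLn φ n → PLn φ (n + 1) := fun z =>
      ⟨z.1.1 :: z.2.1, fun q hq => by
        rcases List.mem_cons.1 hq with rfl | hq
        · exact z.1.2
        · exact z.2.2.1 q hq, by simp [z.2.2.2]⟩
    have he : Function.Bijective e := by
      constructor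
      · rintro ⟨p, P⟩ ⟨q, Q⟩ h
        simp only [e, Subtype.mk.injEq, List.cons.injEq] at h
        exact Prod.ext (Subtype.ext h.1) (Subtype.ext h.2)
      · rintro ⟨L, hL, hn⟩
        cases L with
        | nil => simp at hn
        | cons p L => exact ⟨(⟨p, hL.head⟩, ⟨L, hL.tail, by simpa using hn⟩), rfl⟩
    simp only [qTot] at ih ⊢
    rw [← (Equiv.ofBijective e he).tsum_eq fun P => wtP μ P.1, ENNReal.tsum_prod', pow_succ',
      ← ENNReal.tsum_mul_right]
    refine tsum_congr fun p => ?_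
    rw [← ih, ← ENNReal.tsum_mul_left]
    exact tsum_congr fun P => by simp [e, wtP]

/-- Lists of pairs of height `ℓ` are the same as two segments of height `ℓ`. -/
theorem tsum_PLh_segs (ℓ : ℕ) (hℓ : 1 ≤ ℓ) (S : Set (Word d × Word d)) :
    ∑' P : {P : List (PairW d) // AllPairs φ P ∧ htL φ P = (ℓ : ℤ) ∧ (xw P, yw P) ∈ S}, wtP μ P.1 =
      ∑' p : {p : Word d × Word d // IsSeg φ p.1 ∧ IsSeg (-φ) p.2 ∧ φ (disp p.1) = (ℓ : ℤ) ∧
        φ (disp p.2) = -(ℓ : ℤ) ∧ p ∈ S}, wt μ p.1.1 * wt μ p.1.2 := by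
  have hne : ∀ P : List (PairW d), htL φ P = (ℓ : ℤ) → P ≠ [] := by
    rintro P h rfl
    simp [htL] at h
    omega
  let e : {P : List (PairW d) // AllPairs φ P ∧ htL φ P = (ℓ : ℤ) ∧ (xw P, yw P) ∈ S} →
      {p : Word d × Word d // IsSeg φ p.1 ∧ IsSeg (-φ) p.2 ∧ φ (disp p.1) = (ℓ : ℤ) ∧
        φ (disp p.2) = -(ℓ : ℤ) ∧ p ∈ S} := fun P =>
    ⟨(xw P.1, yw P.1), (seg_xw P.2.1 (hne _ P.2.2.1)).1, (seg_xw P.2.1 (hne _ P.2.2.1)).2,
      by rw [disp_xw, P.2.2.1], by rw [disp_yw P.2.1, P.2.2.1], P.2.2.2⟩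
  have he : Function.Bijective e := by
    constructor
    · intro P Q h
      simp only [e, Subtype.mk.injEq, Prod.mk.injEq] at h
      exact Subtype.ext (pairs_unique' P.2.1 Q.2.1 h.1 h.2)
    · rintro ⟨⟨s, t⟩, hs, ht, h1, h2, hS⟩
      obtain ⟨P, hP, rfl, rfl⟩ := exists_pairs hs ht (by dsimp only at h1 h2 ⊢; omega)
      exact ⟨⟨P, hP, by rw [← disp_xw]; exact h1, hS⟩, rfl⟩
  rw [← (Equiv.ofBijective e he).tsum_eq fun p => wt μ p.1.1 * wt μ p.1.2]
  exact tsum_congr fun P => wtP_eq μ P.2.1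

/-- Every height is a common cut with probability at least `a a'`. -/
theorem mul_le_tsum_PLh (h : Hyp μ φ) (ℓ : ℕ) (hℓ : 1 ≤ ℓ) :
    aUp μ φ * aUp μ (-φ) ≤ ∑' P : PLh φ (ℓ : ℤ), wtP μ P.1 := by
  refine (mul_le_mul' (aUp_le_segs μ φ h.ell h.lev ℓ hℓ)
    (aUp_le_segs μ (-φ) h.ell (isLevel_neg h.lev) ℓ hℓ)).trans ?_
  rw [← ENNReal.tsum_mul_right]
  simp only [← ENNReal.tsum_mul_left]
  rw [← ENNReal.tsum_prod]
  let g : {s : Word d // IsSeg φ s ∧ φ (disp s) = (ℓ : ℤ)} ×
      {t : Word d // IsSeg (-φ) t ∧ (-φ) (disp t) = (ℓ : ℤ)} →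
      {p : Word d × Word d // IsSeg φ p.1 ∧ IsSeg (-φ) p.2 ∧ φ (disp p.1) = (ℓ : ℤ) ∧
        φ (disp p.2) = -(ℓ : ℤ) ∧ p ∈ (Set.univ : Set (Word d × Word d))} := fun z =>
    ⟨(z.1.1, z.2.1), z.1.2.1, z.2.2.1, z.1.2.2,
      by have := z.2.2.2; simp only [AddMonoidHom.neg_apply] at this ⊢; omega, trivial⟩
  have hg : Function.Injective g := fun z z' he => by
    simp only [g, Subtype.mk.injEq, Prod.mk.injEq] at he
    exact Prod.ext (Subtype.ext he.1) (Subtype.ext he.2)
  have hle := ENNReal.tsum_comp_le_tsum_of_injective hg fun p => wt μ p.1.1 * wt μ p.1.2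
  rw [← tsum_PLh_segs ℓ hℓ] at hle
  refine hle.trans (le_of_eq ?_)
  exact (Equiv.subtypeEquivRight fun P => by simp).tsum_eq (fun P : PLh φ (ℓ : ℤ) => wtP μ P.1)

theorem qTot_eq_one (h : Hyp μ φ) : qTot μ φ = 1 := by
  refine le_antisymm (qTot_le_one h) (le_of_not_gt fun hlt => ?_)
  set c := aUp μ φ * aUp μ (-φ) with hc
  have hN : ∀ N : ℕ, (N : ℝ≥0∞) * c ≤ (1 - qTot μ φ)⁻¹ := by
    intro N
    let g : (Σ m : Fin N, PLh φ (((m : ℕ) + 1 : ℕ) : ℤ)) → (Σ k : ℕ, PLn φ k) :=
      fun z => ⟨z.2.1.length, z.2.1, z.2.2.1, rfl⟩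
    have hg : Function.Injective g := by
      rintro ⟨m, P, hP, hm⟩ ⟨m', Q, hQ, hm'⟩ he
      have e : P = Q := congrArg (fun z : (Σ k : ℕ, PLn φ k) => z.2.1) he
      subst e
      obtain rfl : m = m' := Fin.ext (by rw [hm] at hm'; omega)
      rfl
    calc (N : ℝ≥0∞) * c = ∑ _m : Fin N, c := by simp
      _ ≤ ∑ m : Fin N, ∑' P : PLh φ (((m : ℕ) + 1 : ℕ) : ℤ), wtP μ P.1 :=
          Finset.sum_le_sum fun m _ => mul_le_tsum_PLh h ((m : ℕ) + 1) (Nat.le_add_left 1 _)
      _ = ∑' z : (Σ m : Fin N, PLh φ (((m : ℕ) + 1 : ℕ) : ℤ)), wtP μ z.2.1 := by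
          rw [ENNReal.tsum_sigma' fun z : (Σ m : Fin N, PLh φ (((m : ℕ) + 1 : ℕ) : ℤ)) =>
            wtP μ z.2.1, tsum_fintype]
      _ ≤ ∑' z : (Σ k : ℕ, PLn φ k), wtP μ z.2.1 :=
          ENNReal.tsum_comp_le_tsum_of_injective hg fun z : (Σ k : ℕ, PLn φ k) => wtP μ z.2.1
      _ = ∑' k : ℕ, qTot μ φ ^ k := by
          rw [ENNReal.tsum_sigma' fun z : (Σ k : ℕ, PLn φ k) => wtP μ z.2.1]
          exact tsum_congr fun k => tsum_PLn_pow k
      _ = _ := ENNReal.tsum_geometric _
  have htop : (1 - qTot μ φ)⁻¹ ≠ ∞ := ENNReal.inv_ne_top.2 (tsub_pos_of_lt hlt).ne'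
  have hc0 : c ≠ 0 := mul_ne_zero h.up.ne' h.down.ne'
  obtain ⟨N, hN'⟩ := ENNReal.exists_nat_mul_gt hc0 htop
  exact absurd (hN N) (not_le.2 hN')

theorem tsum_PLn (h : Hyp μ φ) (n : ℕ) : ∑' P : PLn φ n, wtP μ P.1 = 1 := by
  rw [tsum_PLn_pow, qTot_eq_one h, one_pow]

theorem ae_mem_Cyl (h : Hyp μ φ) (n : ℕ) :
    ∀ᵐ z ∂chains μ φ, z ∈ ⋃ P : PLn φ n, Cyl φ P.1 := by
  have := h.probBlocks
  have := h.probBlocks'
  have : IsProbabilityMeasure (chains μ φ) := by unfold chains; infer_instance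
  refine (mem_ae_iff_prob_eq_one (MeasurableSet.iUnion fun P : PLn φ n =>
    measurableSet_Cyl φ P.1)).2 ?_
  refine (measure_iUnion (fun (P Q : PLn φ n) hPQ => ?_) fun P => measurableSet_Cyl φ P.1).trans ?_
  · exact Set.disjoint_left.2 fun z hi hj =>
      hPQ (PLn_inj (compat_of_mem_Cyl P.2.1 Q.2.1 hi hj))
  · exact (tsum_congr fun P => chains_Cyl h P.2.1).trans (tsum_PLn h n)

/-- A function of the chains which is constant on the cylinders of `n` pairs. -/
theorem lintegral_chains (h : Hyp μ φ) (n : ℕ) {G : (ℕ → Word d) × (ℕ → Word d) → ℝ≥0∞}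
    (F : List (PairW d) → ℝ≥0∞) (hG : ∀ P : PLn φ n, ∀ z ∈ Cyl φ P.1, G z = F P.1) :
    ∫⁻ z, G z ∂chains μ φ = ∑' P : PLn φ n, wtP μ P.1 * F P.1 := by
  rw [← Measure.restrict_eq_self_of_ae_mem (ae_mem_Cyl h n),
    lintegral_iUnion (fun P => measurableSet_Cyl φ P.1) (fun P Q hPQ => Set.disjoint_left.2
      fun z hi hj => hPQ (PLn_inj (compat_of_mem_Cyl P.2.1 Q.2.1 hi hj)))]
  refine tsum_congr fun P => ?_
  rw [setLIntegral_congr_fun (measurableSet_Cyl φ P.1) (hG P), setLIntegral_const,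
    chains_Cyl h P.2.1, mul_comm]

/-- Visits of a single chain at a level. -/
theorem lintegral_chain_visit [IsProbabilityMeasure (blockLaw μ φ)] (g : ℤ → Word d → ℝ≥0∞)
    (hg : ∀ b, ∑' m : ℤ, g m b ≤ b.length) :
    ∫⁻ ω, ∑' i : ℕ, g (∑ k ∈ Finset.range i, φ (disp (ω k))) (ω i) ∂blocksLaw μ φ
      ≤ meanLen μ φ := by
  classical
  let H : ℕ → (ℕ → Word d) → ℤ := fun i ω => ∑ k ∈ Finset.range i, φ (disp (ω k))
  have hdep : ∀ i (m : ℤ), DependsOn (fun ω => if H i ω = m then (1 : ℝ≥0∞) else 0) (Iio i) := by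
    intro i m ω ω' h
    have : H i ω = H i ω' := Finset.sum_congr rfl fun k hk => by
      rw [h k (mem_Iio.2 (Finset.mem_range.1 hk))]
    simp only [this]
  have hsplit : ∀ i ω, g (H i ω) (ω i) =
      ∑' m : ℤ, (if H i ω = m then (1 : ℝ≥0∞) else 0) * g m (ω i) := fun i ω => by
    rw [tsum_eq_single (H i ω) fun m hm => by simp [Ne.symm hm]]
    simp
  have hm1 : ∀ i (m : ℤ), Measurable fun ω => if H i ω = m then (1 : ℝ≥0∞) else 0 :=
    fun i m => measurable_of_dependsOn (hdep i m)
  have hm2 : ∀ i (m : ℤ), Measurable fun ω : ℕ → Word d => g m (ω i) :=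
    fun i m => (Measurable.of_discrete (f := g m)).comp (measurable_pi_apply i)
  have hm3 : ∀ i (m : ℤ), Measurable fun ω : ℕ → Word d =>
      (if H i ω = m then (1 : ℝ≥0∞) else 0) * g m (ω i) := fun i m => (hm1 i m).mul (hm2 i m)
  calc ∫⁻ ω, ∑' i : ℕ, g (H i ω) (ω i) ∂blocksLaw μ φ
      = ∑' i : ℕ, ∑' m : ℤ, ∫⁻ ω, (if H i ω = m then (1 : ℝ≥0∞) else 0) * g m (ω i)
          ∂blocksLaw μ φ := by
        simp only [hsplit]
        rw [lintegral_tsum fun i => (Measurable.tsum fun m => hm3 i m).aemeasurable]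
        exact tsum_congr fun i => lintegral_tsum fun m => (hm3 i m).aemeasurable
    _ = ∑' i : ℕ, ∑' m : ℤ, (∫⁻ ω, (if H i ω = m then (1 : ℝ≥0∞) else 0) ∂blocksLaw μ φ) *
          ∫⁻ b, g m b ∂blockLaw μ φ := tsum_congr fun i => tsum_congr fun m =>
        lintegral_past_mul_eval (blockLaw μ φ) i (hm1 i m) (hdep i m) Measurable.of_discrete
    _ = ∑' m : ℤ, (∫⁻ ω, ∑' i : ℕ, (if H i ω = m then (1 : ℝ≥0∞) else 0) ∂blocksLaw μ φ) *
          ∫⁻ b, g m b ∂blockLaw μ φ := by
        rw [ENNReal.tsum_comm]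
        refine tsum_congr fun m => ?_
        rw [ENNReal.tsum_mul_right, lintegral_tsum fun i => (hm1 i m).aemeasurable]
    _ ≤ ∑' m : ℤ, 1 * ∫⁻ b, g m b ∂blockLaw μ φ := by
        refine ENNReal.tsum_le_tsum fun m => mul_le_mul' ?_ le_rfl
        have hpos : ∀ᵐ ω ∂blocksLaw μ φ, ∀ i, IsBlock φ (ω i) := ae_all_iff.2 fun i =>
          (measurePreserving_eval_infinitePi (fun _ : ℕ => blockLaw μ φ) i).quasiMeasurePreserving.ae
            (ae_isBlock μ φ)
        have : IsProbabilityMeasure (blocksLaw μ φ) := by unfold blocksLaw; infer_instance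
        refine (lintegral_mono_ae (g := fun _ => 1) (hpos.mono fun ω hω => ?_)).trans (by simp)
        have hinj : StrictMono fun i => H i ω := strictMono_nat_of_lt_succ fun i => by
          simp only [H, Finset.sum_range_succ]
          linarith [seg_height_pos (hω i).1]
        by_cases hex : ∃ i, H i ω = m
        · obtain ⟨i, hi⟩ := hex
          rw [tsum_eq_single i fun j hj => if_neg fun hj' => hj (hinj.injective (hj'.trans hi.symm))]
          simp [hi]
        · simp [not_exists.1 hex]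
    _ = ∫⁻ b, ∑' m : ℤ, g m b ∂blockLaw μ φ := by
        simp only [one_mul]
        rw [lintegral_tsum fun m => Measurable.of_discrete.aemeasurable]
    _ ≤ meanLen μ φ := lintegral_mono fun b => hg b

end Vale.Agent.P147.Regen
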