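import Vale.Agent.P147.Regen.Weight
import Vale.Agent.P147.Regen.Defs2
import Vale.Agent.P147.Regen.IndepSeq

/-!
# Levels and translations of pair chains
-/

namespace Vale.Agent.P147.Regen

open MeasureTheory Set Filter
open scoped ENNReal

variable {d : ℕ} {φ : Site d →+ ℤ}

theorem seg_height_pos {s : Word d} (h : IsSeg φ s) : 0 < φ (disp s) := by
  simpa [disp] using (h.2 0 h.1).2

theorem seg_level_trace {s : Word d} (h : IsSeg φ s) {x z : Site d} (hz : z ∈ trace x s) :
    φ x ≤ φ z ∧ φ z < φ x + φ (disp s) := by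
  obtain ⟨k, hk, rfl⟩ := mem_trace.1 hz
  have := h.2 k hk
  simp only [map_add]
  omega

theorem xTop_succ (o : Site d) (ω : ℕ → PairW d) (i : ℕ) :
    xTop o ω (i + 1) = xTop o ω i - disp (ω i).1 := by
  simp [xTop, Finset.sum_range_succ, sub_sub]

theorem yTop_succ (y : Site d) (ω : ℕ → PairW d) (i : ℕ) :
    yTop y ω (i + 1) = yTop y ω i + disp (ω i).2 := by
  simp [yTop, Finset.sum_range_succ, add_assoc]

theorem height_zero (φ : Site d →+ ℤ) (ω : ℕ → PairW d) : height φ ω 0 = 0 := by simp [height]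

theorem height_succ (φ : Site d →+ ℤ) (ω : ℕ → PairW d) (i : ℕ) :
    height φ ω (i + 1) = height φ ω i + φ (disp (ω i).1) := Finset.sum_range_succ _ _

theorem level_xTop (o : Site d) (ω : ℕ → PairW d) (i : ℕ) :
    φ (xTop o ω i) = φ o - height φ ω i := by simp [xTop, height]

theorem level_yTop (y : Site d) {ω : ℕ → PairW d} (hω : ∀ i, IsPair φ (ω i)) (i : ℕ) :
    φ (yTop y ω i) = φ y - height φ ω i := by
  induction i with
  | zero => simp [yTop, height]
  | succ i ih =>
    rw [yTop_succ, map_add, ih, height_succ, (hω i).2.2.1]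
    ring

theorem height_lt_succ {ω : ℕ → PairW d} (hω : ∀ i, IsPair φ (ω i)) (i : ℕ) :
    height φ ω i < height φ ω (i + 1) := by
  rw [height_succ]; linarith [seg_height_pos (hω i).1]

theorem height_mono {ω : ℕ → PairW d} (hω : ∀ i, IsPair φ (ω i)) : Monotone (height φ ω) :=
  monotone_nat_of_le_succ fun i => (height_lt_succ hω i).le

theorem le_height {ω : ℕ → PairW d} (hω : ∀ i, IsPair φ (ω i)) (i : ℕ) :
    (i : ℤ) ≤ height φ ω i := by
  induction i with
  | zero => simp [height_zero]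
  | succ i ih => have := height_lt_succ hω i; push_cast; omega

theorem mem_xSites {o z : Site d} {ω : ℕ → PairW d} {a b : ℕ} :
    z ∈ xSites o ω a b ↔ ∃ i, a ≤ i ∧ i < b ∧ z ∈ trace (xTop o ω (i + 1)) (ω i).1 := by
  simp [xSites, and_assoc]

theorem mem_ySites {y z : Site d} {ω : ℕ → PairW d} {a b : ℕ} :
    z ∈ ySites y ω a b ↔ ∃ i, a ≤ i ∧ i < b ∧ z ∈ trace (yTop y ω i) (ω i).2 := by
  simp [ySites, and_assoc]

theorem level_xPair {o z : Site d} {ω : ℕ → PairW d} (hω : ∀ i, IsPair φ (ω i)) {i : ℕ}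
    (hz : z ∈ trace (xTop o ω (i + 1)) (ω i).1) :
    φ o - height φ ω (i + 1) ≤ φ z ∧ φ z < φ o - height φ ω i := by
  have h := seg_level_trace (hω i).1 hz
  rw [level_xTop, height_succ] at h
  rw [height_succ]
  omega

theorem level_yPair {y z : Site d} {ω : ℕ → PairW d} (hω : ∀ i, IsPair φ (ω i)) {i : ℕ}
    (hz : z ∈ trace (yTop y ω i) (ω i).2) :
    φ y - height φ ω (i + 1) < φ z ∧ φ z ≤ φ y - height φ ω i := by
  have h := seg_level_trace (hω i).2.1 hz
  have h3 := (hω i).2.2.1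
  simp only [AddMonoidHom.neg_apply] at h
  rw [level_yTop y hω] at h
  rw [height_succ]
  omega

/-- Two chains can only touch in the same pair, or at a cut level. -/
theorem pair_index_of_contact {o z : Site d} (ho : φ o = 0) {ω : ℕ → PairW d}
    (hω : ∀ i, IsPair φ (ω i)) {i j : ℕ} (hx : z ∈ trace (xTop o ω (i + 1)) (ω i).1)
    (hy : z ∈ trace (yTop 0 ω j) (ω j).2) : j = i ∨ j = i + 1 := by
  have h1 := level_xPair hω hx
  have h2 := level_yPair hω hy
  simp only [ho, map_zero] at h1 h2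
  by_contra hne
  rcases Nat.lt_or_ge j i with h | h
  · have := height_mono hω (show j + 1 ≤ i by omega); omega
  · have := height_mono hω (show i + 1 + 1 ≤ j by omega)
    have := height_lt_succ hω (i + 1)
    omega

/-- Avoidance extends over a band without meetings. -/
theorem avoidTop_extend {o : Site d} (ho : φ o = 0) {ω : ℕ → PairW d}
    (hω : ∀ i, IsPair φ (ω i)) {a b : ℕ} (hA : ω ∈ AvoidTop o a) (hM : ω ∉ Meet o a b) :
    ω ∈ AvoidTop o b := by
  simp only [Meet, mem_ofPred_eq, not_not] at hM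
  refine ⟨Finset.disjoint_left.2 fun z hx hy => ?_, fun hy => ?_⟩
  · obtain ⟨i, -, hib, hzi⟩ := mem_xSites.1 hx
    obtain ⟨j, -, hjb, hzj⟩ := mem_ySites.1 hy
    have hij := pair_index_of_contact ho hω hzi hzj
    rcases Nat.lt_or_ge i a with h | h
    · exact Finset.disjoint_left.1 hA.1 (mem_xSites.2 ⟨i, Nat.zero_le _, h, hzi⟩)
        (mem_ySites.2 ⟨j, Nat.zero_le _, by omega, hzj⟩)
    · exact Finset.disjoint_left.1 hM (mem_xSites.2 ⟨i, h, hib, hzi⟩)
        (mem_ySites.2 ⟨j, by omega, hjb, hzj⟩)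
  · obtain ⟨j, -, hjb, hzj⟩ := mem_ySites.1 hy
    have h2 := level_yPair hω hzj
    simp only [ho, map_zero] at h2
    rcases Nat.eq_zero_or_pos j with rfl | hj
    · exact hA.2 (mem_ySites.2 ⟨0, le_rfl, by omega, hzj⟩)
    · have := le_height hω j; omega

theorem xTop_shift (o : Site d) (ω : ℕ → PairW d) (j i : ℕ) :
    xTop o ω (j + i) = xTop (xTop o ω j) (shiftSeq j ω) i := by
  simp [xTop, shiftSeq, Finset.sum_range_add, sub_sub]

theorem yTop_shift (y : Site d) (ω : ℕ → PairW d) (j i : ℕ) :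
    yTop y ω (j + i) = yTop (yTop y ω j) (shiftSeq j ω) i := by
  simp [yTop, shiftSeq, Finset.sum_range_add, add_assoc]

theorem xSites_shift (o : Site d) (ω : ℕ → PairW d) (j a b : ℕ) :
    xSites o ω (j + a) (j + b) = xSites (xTop o ω j) (shiftSeq j ω) a b := by
  ext z
  simp only [mem_xSites]
  constructor
  · rintro ⟨i, h1, h2, h⟩
    obtain ⟨i, rfl⟩ : ∃ i', i = j + i' := ⟨i - j, by omega⟩
    exact ⟨i, by omega, by omega, by rwa [← xTop_shift, ← Nat.add_assoc]⟩
  · rintro ⟨i, h1, h2, h⟩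
    exact ⟨j + i, by omega, by omega, by rwa [Nat.add_assoc, xTop_shift]⟩

theorem ySites_shift (y : Site d) (ω : ℕ → PairW d) (j a b : ℕ) :
    ySites y ω (j + a) (j + b) = ySites (yTop y ω j) (shiftSeq j ω) a b := by
  ext z
  simp only [mem_ySites]
  constructor
  · rintro ⟨i, h1, h2, h⟩
    obtain ⟨i, rfl⟩ : ∃ i', i = j + i' := ⟨i - j, by omega⟩
    exact ⟨i, by omega, by omega, by rwa [← yTop_shift]⟩
  · rintro ⟨i, h1, h2, h⟩
    exact ⟨j + i, by omega, by omega, by rwa [yTop_shift]⟩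

theorem xSites_translate (c o : Site d) (ω : ℕ → PairW d) (a b : ℕ) :
    xSites (c + o) ω a b = (xSites o ω a b).image (c + ·) := by
  ext z
  simp only [mem_xSites, Finset.mem_image]
  constructor
  · rintro ⟨i, h1, h2, h⟩
    rw [show xTop (c + o) ω (i + 1) = c + xTop o ω (i + 1) by simp [xTop]; abel,
      trace_translate, Finset.mem_image] at h
    obtain ⟨z', hz', rfl⟩ := h
    exact ⟨z', ⟨i, h1, h2, hz'⟩, rfl⟩
  · rintro ⟨z', ⟨i, h1, h2, h⟩, rfl⟩
    refine ⟨i, h1, h2, ?_⟩
    rw [show xTop (c + o) ω (i + 1) = c + xTop o ω (i + 1) by simp [xTop]; abel, trace_translate]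
    exact Finset.mem_image_of_mem _ h

theorem ySites_translate (c y : Site d) (ω : ℕ → PairW d) (a b : ℕ) :
    ySites (c + y) ω a b = (ySites y ω a b).image (c + ·) := by
  ext z
  simp only [mem_ySites, Finset.mem_image]
  constructor
  · rintro ⟨i, h1, h2, h⟩
    rw [show yTop (c + y) ω i = c + yTop y ω i by simp [yTop, add_assoc],
      trace_translate, Finset.mem_image] at h
    obtain ⟨z', hz', rfl⟩ := h
    exact ⟨z', ⟨i, h1, h2, hz'⟩, rfl⟩
  · rintro ⟨z', ⟨i, h1, h2, h⟩, rfl⟩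
    refine ⟨i, h1, h2, ?_⟩
    rw [show yTop (c + y) ω i = c + yTop y ω i by simp [yTop, add_assoc], trace_translate]
    exact Finset.mem_image_of_mem _ h

/-- The relative offset after `j` pairs. -/
def offAfter (o : Site d) (ω : ℕ → PairW d) (j : ℕ) : Site d := xTop o ω j - yTop 0 ω j

theorem offAfter_eq (o : Site d) (ω : ℕ → PairW d) (j : ℕ) :
    offAfter o ω j = o - ∑ k ∈ Finset.range j, (disp (ω k).1 + disp (ω k).2) := by
  simp [offAfter, xTop, yTop, Finset.sum_add_distrib, sub_sub]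

theorem level_offAfter {o : Site d} (ho : φ o = 0) {ω : ℕ → PairW d}
    (hω : ∀ i, IsPair φ (ω i)) (j : ℕ) : φ (offAfter o ω j) = 0 := by
  simp [offAfter, level_xTop, level_yTop _ hω, ho]

theorem meet_shift (o : Site d) (ω : ℕ → PairW d) (j a b : ℕ) :
    ω ∈ Meet o (j + a) (j + b) ↔ shiftSeq j ω ∈ Meet (offAfter o ω j) a b := by
  simp only [Meet, mem_ofPred_eq, Nat.add_assoc, xSites_shift, ySites_shift]
  refine not_congr ?_
  conv_lhs =>
    rw [show xTop o ω j = yTop 0 ω j + offAfter o ω j by simp [offAfter],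
      show ySites (yTop 0 ω j) (shiftSeq j ω) a (b + 1) =
        ySites (yTop 0 ω j + 0) (shiftSeq j ω) a (b + 1) by rw [add_zero],
      xSites_translate, ySites_translate, Finset.disjoint_image (add_right_injective _)]

theorem xTop_congr {ω ω' : ℕ → PairW d} {i : ℕ} (h : ∀ k < i, ω k = ω' k) (o : Site d) :
    xTop o ω i = xTop o ω' i := by
  simp only [xTop]
  congr 1
  exact Finset.sum_congr rfl fun k hk => by rw [h k (Finset.mem_range.1 hk)]

theorem yTop_congr {ω ω' : ℕ → PairW d} {i : ℕ} (h : ∀ k < i, ω k = ω' k) (y : Site d) :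
    yTop y ω i = yTop y ω' i := by
  simp only [yTop]
  congr 1
  exact Finset.sum_congr rfl fun k hk => by rw [h k (Finset.mem_range.1 hk)]

theorem xSites_congr {ω ω' : ℕ → PairW d} {a b : ℕ} (h : ∀ k < b, ω k = ω' k) (o : Site d) :
    xSites o ω a b = xSites o ω' a b := by
  ext z
  simp only [mem_xSites]
  constructor <;> rintro ⟨i, h1, h2, hz⟩ <;> refine ⟨i, h1, h2, ?_⟩
  · rwa [← h i h2, ← xTop_congr (fun k hk => h k (by omega)) o]
  · rwa [h i h2, xTop_congr (fun k hk => h k (by omega)) o]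

theorem ySites_congr {ω ω' : ℕ → PairW d} {a b : ℕ} (h : ∀ k < b, ω k = ω' k) (y : Site d) :
    ySites y ω a b = ySites y ω' a b := by
  ext z
  simp only [mem_ySites]
  constructor <;> rintro ⟨i, h1, h2, hz⟩ <;> refine ⟨i, h1, h2, ?_⟩
  · rwa [← h i h2, ← yTop_congr (fun k hk => h k (by omega)) y]
  · rwa [h i h2, yTop_congr (fun k hk => h k (by omega)) y]

theorem dependsOn_avoidTop (o : Site d) (n : ℕ) :
    DependsOn (· ∈ AvoidTop o n) (Iio (n + 1)) := by
  intro ω ω' h
  have hx := xSites_congr (a := 0) (b := n) (fun k hk => h k (mem_Iio.2 (by omega))) o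
  have hy := ySites_congr (a := 0) (b := n + 1) (fun k hk => h k (mem_Iio.2 hk)) (0 : Site d)
  simp only [AvoidTop, mem_ofPred_eq, hx, hy]

theorem dependsOn_meet (o : Site d) (a b : ℕ) : DependsOn (· ∈ Meet o a b) (Iio (b + 1)) := by
  intro ω ω' h
  have hx := xSites_congr (a := a) (b := b) (fun k hk => h k (mem_Iio.2 (by omega))) o
  have hy := ySites_congr (a := a) (b := b + 1) (fun k hk => h k (mem_Iio.2 hk)) (0 : Site d)
  simp only [Meet, mem_ofPred_eq, hx, hy]

theorem measurableSet_avoidTop (o : Site d) (n : ℕ) : MeasurableSet (AvoidTop o n) :=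
  measurableSet_of_dependsOn (dependsOn_avoidTop o n)

theorem measurableSet_meet (o : Site d) (a b : ℕ) : MeasurableSet (Meet o a b) :=
  measurableSet_of_dependsOn (dependsOn_meet o a b)

end Vale.Agent.P147.Regen
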