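import Vale.Agent.P147.Regen.Seg
import Vale.Agent.P147.Regen.Sites

/-!
# Lists of pairs: unique decomposition of two segments of equal height at their common cuts
-/

namespace Vale.Agent.P147.Regen

open MeasureTheory Set Filter
open scoped ENNReal

variable {d : ℕ} [NeZero d] {φ : Site d →+ ℤ}

/-- One list begins the other. -/
def Compat {α : Type*} (L L' : List α) : Prop := L <+: L' ∨ L' <+: L

theorem Compat.symm {α : Type*} {L L' : List α} (h : Compat L L') : Compat L' L := Or.symm h

theorem compat_heads {α : Type*} {A B R R' : List α} (h : Compat (A ++ R) (B ++ R')) :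
    Compat A B := by
  rcases h with h | h
  · exact List.prefix_or_prefix_of_prefix ((List.prefix_append A R).trans h) (List.prefix_append B R')
  · exact List.prefix_or_prefix_of_prefix (List.prefix_append A R) ((List.prefix_append B R').trans h)

theorem compat_tails {α : Type*} {A R R' : List α} (h : Compat (A ++ R) (A ++ R')) :
    Compat R R' :=
  h.imp (List.prefix_append_right_inj A).1 (List.prefix_append_right_inj A).1

/-! ### Lists of segments -/

theorem disp_flatten (L : List (Word d)) : disp L.flatten = (L.map disp).sum := by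
  induction L with
  | nil => simp [disp_nil]
  | cons s L ih => simp [disp_append, ih]

theorem disp_flatten_reverse (L : List (Word d)) : disp L.reverse.flatten = disp L.flatten := by
  rw [disp_flatten, disp_flatten, List.map_reverse, List.sum_reverse]

theorem seg_ne_nil {s : Word d} (h : IsSeg φ s) : s ≠ [] :=
  List.length_pos_iff.1 h.1

theorem seg_flatten {L : List (Word d)} (hne : L ≠ []) (h : ∀ s ∈ L, IsSeg φ s) :
    IsSeg φ L.flatten := by
  induction L with
  | nil => exact absurd rfl hne
  | cons s L ih =>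
    rcases L with _ | ⟨t, L⟩
    · simpa using h s (List.mem_cons_self ..)
    · rw [List.flatten_cons]
      exact IsSeg.append (h s (List.mem_cons_self ..))
        (ih (by simp) fun u hu => h u (List.mem_cons_of_mem _ hu))

theorem height_flatten_nonneg {L : List (Word d)} (h : ∀ s ∈ L, IsSeg φ s) :
    0 ≤ φ (disp L.flatten) ∧ (L ≠ [] → 0 < φ (disp L.flatten)) := by
  by_cases hL : L = []
  · subst hL; simp [disp_nil]
  · have := IsSeg.height_pos (seg_flatten hL h)
    exact ⟨this.le, fun _ => this⟩

theorem eq_nil_of_height {L : List (Word d)} (h : ∀ s ∈ L, IsSeg φ s)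
    (h0 : φ (disp L.flatten) = 0) : L = [] := by
  by_contra hL
  have := (height_flatten_nonneg h).2 hL
  omega

theorem prefix_height_le {L L' : List (Word d)} (h : ∀ s ∈ L', IsSeg φ s) (hp : L <+: L') :
    φ (disp L.flatten) ≤ φ (disp L'.flatten) ∧
      (φ (disp L.flatten) = φ (disp L'.flatten) → L = L') := by
  obtain ⟨M, rfl⟩ := hp
  have hM : ∀ s ∈ M, IsSeg φ s := fun s hs => h s (List.mem_append_right _ hs)
  rw [List.flatten_append, disp_append, map_add]
  refine ⟨by linarith [(height_flatten_nonneg hM).1], fun he => ?_⟩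
  rw [eq_nil_of_height hM (by linarith), List.append_nil]

theorem wt_flatten (μ : Measure (Step d → ℝ)) [IsProbabilityMeasure μ]
    {L : List (Word d)} (h : ∀ s ∈ L, IsSeg φ s) : wt μ L.flatten = (L.map (wt μ)).prod := by
  induction L with
  | nil => simp [wt, qw]
  | cons s L ih =>
    have hL : ∀ t ∈ L, IsSeg φ t := fun t ht => h t (List.mem_cons_of_mem _ ht)
    rw [List.flatten_cons, List.map_cons, List.prod_cons, ← ih hL]
    rcases eq_or_ne L [] with rfl | hne
    · simp [wt, qw]
    · exact IsSeg.wt_append μ (h s (List.mem_cons_self ..)) (seg_flatten hne hL)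

/-! ### Block lists -/

open Classical in
/-- The blocks of a segment. -/
noncomputable def blks (φ : Site d →+ ℤ) (s : Word d) : List (Word d) :=
  if h : ∃ L : List (Word d), (∀ b ∈ L, IsBlock φ b) ∧ L.flatten = s then h.choose else []

theorem blks_spec {s : Word d} (h : IsSeg φ s) :
    (∀ b ∈ blks φ s, IsBlock φ b) ∧ (blks φ s).flatten = s := by
  obtain ⟨L, -, h1, h2⟩ := exists_blocks h
  have he : ∃ L : List (Word d), (∀ b ∈ L, IsBlock φ b) ∧ L.flatten = s := ⟨L, h1, h2⟩
  rw [blks, dif_pos he]
  exact he.choose_spec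

theorem blks_seg {s : Word d} (h : IsSeg φ s) : ∀ b ∈ blks φ s, IsSeg φ b :=
  fun b hb => ((blks_spec h).1 b hb).1

/-- All entries are pairs. -/
def AllPairs (φ : Site d →+ ℤ) (P : List (PairW d)) : Prop := ∀ p ∈ P, IsPair φ p

theorem AllPairs.tail {p : PairW d} {P : List (PairW d)} (h : AllPairs φ (p :: P)) :
    AllPairs φ P := fun q hq => h q (List.mem_cons_of_mem _ hq)

theorem AllPairs.head {p : PairW d} {P : List (PairW d)} (h : AllPairs φ (p :: P)) :
    IsPair φ p := h p (List.mem_cons_self ..)

/-- The upward words of a list of pairs, as one word from bottom to top. -/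
def xw (P : List (PairW d)) : Word d := (P.reverse.map Prod.fst).flatten

/-- The downward words of a list of pairs, as one word. -/
def yw (P : List (PairW d)) : Word d := (P.map Prod.snd).flatten

/-- The height of a list of pairs. -/
def htL (φ : Site d →+ ℤ) (P : List (PairW d)) : ℤ := (P.map fun p => φ (disp p.1)).sum

/-- The upward blocks of a list of pairs, from the top downwards. -/
noncomputable def xBlocks (φ : Site d →+ ℤ) (P : List (PairW d)) : List (Word d) :=
  (P.map fun p => (blks φ p.1).reverse).flatten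

/-- The downward blocks of a list of pairs. -/
noncomputable def yBlocks (φ : Site d →+ ℤ) (P : List (PairW d)) : List (Word d) :=
  (P.map fun p => blks (-φ) p.2).flatten

theorem xw_cons (p : PairW d) (P : List (PairW d)) : xw (p :: P) = xw P ++ p.1 := by
  simp [xw]

theorem yw_cons (p : PairW d) (P : List (PairW d)) : yw (p :: P) = p.2 ++ yw P := by
  simp [yw]

theorem xw_append (P Q : List (PairW d)) : xw (P ++ Q) = xw Q ++ xw P := by
  simp [xw]

theorem yw_append (P Q : List (PairW d)) : yw (P ++ Q) = yw P ++ yw Q := by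
  simp [yw]

theorem xBlocks_cons (p : PairW d) (P : List (PairW d)) :
    xBlocks φ (p :: P) = (blks φ p.1).reverse ++ xBlocks φ P := by
  simp [xBlocks]

theorem yBlocks_cons (p : PairW d) (P : List (PairW d)) :
    yBlocks φ (p :: P) = blks (-φ) p.2 ++ yBlocks φ P := by
  simp [yBlocks]

theorem xBlocks_spec {P : List (PairW d)} (h : AllPairs φ P) :
    (∀ b ∈ xBlocks φ P, IsBlock φ b) ∧ (xBlocks φ P).reverse.flatten = xw P := by
  induction P with
  | nil => simp [xBlocks, xw]
  | cons p P ih =>
    obtain ⟨h1, h2⟩ := ih h.tail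
    obtain ⟨g1, g2⟩ := blks_spec h.head.1
    rw [xBlocks_cons]
    refine ⟨fun b hb => ?_, ?_⟩
    · rcases List.mem_append.1 hb with hb | hb
      · exact g1 b (List.mem_reverse.1 hb)
      · exact h1 b hb
    · simp [xw_cons, h2, g2]

theorem yBlocks_spec {P : List (PairW d)} (h : AllPairs φ P) :
    (∀ b ∈ yBlocks φ P, IsBlock (-φ) b) ∧ (yBlocks φ P).flatten = yw P := by
  induction P with
  | nil => simp [yBlocks, yw]
  | cons p P ih =>
    obtain ⟨h1, h2⟩ := ih h.tail
    obtain ⟨g1, g2⟩ := blks_spec h.head.2.1
    rw [yBlocks_cons]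
    refine ⟨fun b hb => ?_, ?_⟩
    · rcases List.mem_append.1 hb with hb | hb
      · exact g1 b hb
      · exact h1 b hb
    · simp [yw_cons, h2, g2]

theorem disp_xw (φ : Site d →+ ℤ) (P : List (PairW d)) : φ (disp (xw P)) = htL φ P := by
  induction P with
  | nil => simp [xw, htL, disp_nil]
  | cons p P ih => simp [xw_cons, disp_append, ih, htL, add_comm]

theorem disp_yw {P : List (PairW d)} (h : AllPairs φ P) : φ (disp (yw P)) = -htL φ P := by
  induction P with
  | nil => simp [yw, htL, disp_nil]
  | cons p P ih =>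
    have h3 := h.head.2.2.1
    simp [yw_cons, disp_append, ih h.tail, htL]
    omega

theorem length_le_htL {P : List (PairW d)} (h : AllPairs φ P) : (P.length : ℤ) ≤ htL φ P := by
  induction P with
  | nil => simp [htL]
  | cons p P ih =>
    have := ih h.tail
    have := seg_height_pos h.head.1
    simp [htL] at *
    omega

theorem prefix_htL {P Q : List (PairW d)} (h : AllPairs φ Q) (hp : P <+: Q) :
    htL φ P ≤ htL φ Q ∧ (htL φ P = htL φ Q → P = Q) := by
  obtain ⟨M, rfl⟩ := hp
  have hM : AllPairs φ M := fun q hq => h q (List.mem_append_right _ hq)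
  have := length_le_htL hM
  have e : htL φ (P ++ M) = htL φ P + htL φ M := by simp [htL]
  rw [e]
  refine ⟨by omega, fun he => ?_⟩
  have : M.length = 0 := by omega
  rw [List.length_eq_zero_iff.1 this, List.append_nil]

theorem seg_xw {P : List (PairW d)} (h : AllPairs φ P) (hne : P ≠ []) :
    IsSeg φ (xw P) ∧ IsSeg (-φ) (yw P) := by
  refine ⟨seg_flatten (by simpa using hne) fun s hs => ?_,
    seg_flatten (by simpa using hne) fun s hs => ?_⟩
  · simp only [List.mem_map, List.mem_reverse] at hs
    obtain ⟨p, hp, rfl⟩ := hs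
    exact (h p hp).1
  · simp only [List.mem_map] at hs
    obtain ⟨p, hp, rfl⟩ := hs
    exact (h p hp).2.1

/-- Two pairs whose block lists begin each other are equal. -/
theorem pair_eq_of_compat_le {p p' : PairW d} (hp : IsPair φ p) (hp' : IsPair φ p')
    (hle : φ (disp p.1) ≤ φ (disp p'.1))
    (hx : Compat (blks φ p.1).reverse (blks φ p'.1).reverse)
    (hy : Compat (blks (-φ) p.2) (blks (-φ) p'.2)) : p = p' := by
  obtain ⟨a1, a2⟩ := blks_spec hp.1
  obtain ⟨a1', a2'⟩ := blks_spec hp'.1
  obtain ⟨b1, b2⟩ := blks_spec hp.2.1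
  obtain ⟨b1', b2'⟩ := blks_spec hp'.2.1
  have hr : ∀ {q : PairW d}, IsPair φ q → ∀ s ∈ (blks φ q.1).reverse, IsSeg φ s :=
    fun hq s hs => blks_seg hq.1 s (List.mem_reverse.1 hs)
  have hX : (blks φ p.1).reverse <+: (blks φ p'.1).reverse := by
    rcases hx with h | h
    · exact h
    · have h2 := prefix_height_le (hr hp) h
      rw [disp_flatten_reverse, disp_flatten_reverse, a2, a2'] at h2
      rw [h2.2 (le_antisymm h2.1 hle)]
  have hY : blks (-φ) p.2 <+: blks (-φ) p'.2 := by
    rcases hy with h | h
    · exact h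
    · have h2 := prefix_height_le (blks_seg hp.2.1) h
      rw [b2, b2'] at h2
      rw [h2.2 (le_antisymm h2.1 (by
        have h3 := hp.2.2.1; have h4 := hp'.2.2.1
        simp only [AddMonoidHom.neg_apply]; omega))]
  obtain ⟨M, hM⟩ := hX
  obtain ⟨M', hM'⟩ := hY
  have hMs : ∀ s ∈ M, IsSeg φ s := fun s hs =>
    hr hp' s (hM ▸ List.mem_append_right _ hs)
  have hM's : ∀ s ∈ M', IsSeg (-φ) s := fun s hs =>
    blks_seg hp'.2.1 s (hM' ▸ List.mem_append_right _ hs)
  have e1 : p'.1 = M.reverse.flatten ++ p.1 := by
    have := congrArg List.reverse hM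
    rw [List.reverse_append, List.reverse_reverse, List.reverse_reverse] at this
    rw [← a2', ← this, List.flatten_append, a2]
  have e2 : p'.2 = p.2 ++ M'.flatten := by rw [← b2', ← hM', List.flatten_append, b2]
  by_cases hMe : M = []
  · have e1' : p'.1 = p.1 := by simpa [hMe] using e1
    have hz : φ (disp M'.flatten) = 0 := by
      have h3 := hp.2.2.1; have h4 := hp'.2.2.1
      rw [e1', e2, disp_append, map_add] at h4
      omega
    have hz' : M' = [] := eq_nil_of_height hM's (by simp [hz])
    exact Prod.ext e1'.symm (by simpa [hz'] using e2.symm)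
  · by_cases hMe' : M' = []
    · exfalso
      have h3 := hp.2.2.1; have h4 := hp'.2.2.1
      rw [e1, disp_append, disp_flatten_reverse, map_add, e2, hMe'] at h4
      simp only [List.flatten_nil, List.append_nil] at h4
      have := (height_flatten_nonneg hMs).2 hMe
      omega
    · exact absurd hp.2.2.1 (hp'.2.2.2 M.reverse.flatten p.1 p.2 M'.flatten
        (seg_flatten (by simpa using hMe) fun s hs => hMs s (List.mem_reverse.1 hs)) hp.1 hp.2.1
        (seg_flatten hMe' hM's) e1 e2)

theorem pair_eq_of_compat {p p' : PairW d} (hp : IsPair φ p) (hp' : IsPair φ p')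
    (hx : Compat (blks φ p.1).reverse (blks φ p'.1).reverse)
    (hy : Compat (blks (-φ) p.2) (blks (-φ) p'.2)) : p = p' := by
  rcases le_total (φ (disp p.1)) (φ (disp p'.1)) with h | h
  · exact pair_eq_of_compat_le hp hp' h hx hy
  · exact (pair_eq_of_compat_le hp' hp h hx.symm hy.symm).symm

/-- Lists of pairs are determined by their blocks, up to continuation. -/
theorem pairs_compat {P Q : List (PairW d)} (hP : AllPairs φ P) (hQ : AllPairs φ Q)
    (hx : Compat (xBlocks φ P) (xBlocks φ Q)) (hy : Compat (yBlocks φ P) (yBlocks φ Q)) :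
    Compat P Q := by
  induction P generalizing Q with
  | nil => exact Or.inl List.nil_prefix
  | cons p P ih =>
    cases Q with
    | nil => exact Or.inr List.nil_prefix
    | cons q Q =>
      rw [xBlocks_cons, xBlocks_cons] at hx
      rw [yBlocks_cons, yBlocks_cons] at hy
      obtain rfl := pair_eq_of_compat hP.head hQ.head (compat_heads hx) (compat_heads hy)
      exact (ih hP.tail hQ.tail (compat_tails hx) (compat_tails hy)).imp
        (fun h => List.cons_prefix_cons.2 ⟨rfl, h⟩) fun h => List.cons_prefix_cons.2 ⟨rfl, h⟩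

theorem pairs_unique' {P Q : List (PairW d)} (hP : AllPairs φ P) (hQ : AllPairs φ Q)
    (hx : xw P = xw Q) (hy : yw P = yw Q) : P = Q := by
  obtain ⟨p1, p2⟩ := xBlocks_spec hP
  obtain ⟨q1, q2⟩ := xBlocks_spec hQ
  obtain ⟨r1, r2⟩ := yBlocks_spec hP
  obtain ⟨s1, s2⟩ := yBlocks_spec hQ
  have ex : xBlocks φ P = xBlocks φ Q := List.reverse_injective
    (blocks_unique (fun b hb => p1 b (List.mem_reverse.1 hb))
      (fun b hb => q1 b (List.mem_reverse.1 hb)) (by rw [p2, q2, hx]))
  have ey : yBlocks φ P = yBlocks φ Q := blocks_unique r1 s1 (by rw [r2, s2, hy])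
  have hh : htL φ P = htL φ Q := by rw [← disp_xw, ← disp_xw, hx]
  rcases pairs_compat hP hQ (Or.inl (ex ▸ List.prefix_rfl)) (Or.inl (ey ▸ List.prefix_rfl)) with
    h | h
  · exact (prefix_htL hQ h).2 hh
  · exact ((prefix_htL hP h).2 hh.symm).symm

/-- The decomposition of two segments into pairs is unique. -/
theorem pairs_unique {φ : Site d →+ ℤ} {p q : List (PairW d)} (hp : ∀ x ∈ p, IsPair φ x)
    (hq : ∀ x ∈ q, IsPair φ x)
    (hx : (p.reverse.map Prod.fst).flatten = (q.reverse.map Prod.fst).flatten)
    (hy : (p.map Prod.snd).flatten = (q.map Prod.snd).flatten) : p = q :=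
  pairs_unique' hp hq hx hy

/-- Two segments of equal height split into pairs. -/
theorem exists_pairs {s t : Word d} (hs : IsSeg φ s) (ht : IsSeg (-φ) t)
    (he : φ (disp s) = -φ (disp t)) : ∃ P, AllPairs φ P ∧ xw P = s ∧ yw P = t := by
  obtain ⟨n, hn⟩ : ∃ n : ℕ, φ (disp s) ≤ n :=
    ⟨(φ (disp s)).toNat, Int.self_le_toNat _⟩
  induction n generalizing s t with
  | zero =>
    have := seg_height_pos hs
    simp at hn
    omega
  | succ n ih =>
    by_cases hp : IsPair φ (s, t)
    · exact ⟨[(s, t)], by simpa [AllPairs] using hp, by simp [xw], by simp [yw]⟩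
    · simp only [IsPair, hs, ht, he, true_and, not_forall, not_not, exists_prop] at hp
      obtain ⟨a1, a2, b1, b2, ha1, ha2, hb1, hb2, rfl, rfl, hh⟩ := hp
      have h1 := seg_height_pos ha1
      have h2 := seg_height_pos ha2
      simp only [disp_append, map_add] at he hn
      push_cast at hn
      obtain ⟨P, hP, hPx, hPy⟩ := ih ha2 hb1 hh (by omega)
      obtain ⟨Q, hQ, hQx, hQy⟩ := ih ha1 hb2 (by omega) (by omega)
      refine ⟨P ++ Q, fun p hp => (List.mem_append.1 hp).elim (hP p) (hQ p), ?_, ?_⟩
      · rw [xw_append, hPx, hQx]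
      · rw [yw_append, hPy, hQy]

/-- The weight of a list of pairs. -/
noncomputable def wtP (μ : Measure (Step d → ℝ)) (P : List (PairW d)) : ℝ≥0∞ :=
  (P.map fun p => wt μ p.1 * wt μ p.2).prod

theorem wtP_eq (μ : Measure (Step d → ℝ)) [IsProbabilityMeasure μ]
    {P : List (PairW d)} (h : AllPairs φ P) : wtP μ P = wt μ (xw P) * wt μ (yw P) := by
  rw [xw, yw, wt_flatten μ (φ := φ) fun s hs => ?_, wt_flatten μ (φ := -φ) fun s hs => ?_]
  · simp [wtP, List.prod_map_mul, List.map_reverse, List.prod_reverse, Function.comp_def]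
  · simp only [List.mem_map] at hs
    obtain ⟨p, hp, rfl⟩ := hs
    exact (h p hp).2.1
  · simp only [List.mem_map, List.mem_reverse] at hs
    obtain ⟨p, hp, rfl⟩ := hs
    exact (h p hp).1

/-! ### Concatenation of a sequence of words -/

theorem prefix_map_range {α : Type*} (b : ℕ → α) {m n : ℕ} (h : m ≤ n) :
    (List.range m).map b <+: (List.range n).map b := by
  obtain ⟨k, rfl⟩ := Nat.exists_eq_add_of_le h
  rw [List.range_add, List.map_append]
  exact List.prefix_append _ _

theorem le_length_flatten {L : List (Word d)} (h : ∀ s ∈ L, s ≠ []) :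
    L.length ≤ L.flatten.length := by
  induction L with
  | nil => simp
  | cons s L ih =>
    have := ih fun t ht => h t (List.mem_cons_of_mem _ ht)
    have := List.length_pos_iff.2 (h s (List.mem_cons_self ..))
    rw [List.flatten_cons, List.length_append, List.length_cons]
    omega

theorem glue_eq (b : ℕ → Word d) (m : ℕ) (hb : ∀ s ∈ (List.range m).map b, s ≠ [])
    (k : ℕ) (hk : k < ((List.range m).map b).flatten.length) :
    glue b k = ((List.range m).map b).flatten[k] := by
  unfold glue
  rcases le_total m (k + 1) with h | h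
  · obtain ⟨M, hM⟩ := prefix_map_range b h
    rw [← hM, List.flatten_append, List.getD_append _ _ _ _ hk, List.getD_eq_getElem _ _ hk]
  · obtain ⟨M, hM⟩ := prefix_map_range b h
    have hlen : k < ((List.range (k + 1)).map b).flatten.length := by
      refine lt_of_lt_of_le ?_ (le_length_flatten fun s hs => hb s ?_)
      · simp
      · rw [← hM]; exact List.mem_append_left _ hs
    have hlen' : k < (((List.range (k + 1)).map b ++ M).flatten).length := by
      rw [List.flatten_append, List.length_append]
      exact lt_of_lt_of_le hlen (Nat.le_add_right _ _)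
    rw [List.getD_eq_getElem _ _ hlen, ← List.getElem_of_eq (congrArg List.flatten hM) hlen']
    simp [List.getElem_append_left hlen]

/-! ### Visits of levels -/

/-- The number of times before its end at which the word is at the relative level `m`. -/
def vis (φ : Site d →+ ℤ) : Word d → ℤ → ℕ
  | [], _ => 0
  | e :: s, m => (if m = 0 then 1 else 0) + vis φ s (m - φ (stp e))

theorem vis_append (φ : Site d →+ ℤ) (s t : Word d) (m : ℤ) :
    vis φ (s ++ t) m = vis φ s m + vis φ t (m - φ (disp s)) := by
  induction s generalizing m with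
  | nil => simp [vis, disp_nil]
  | cons e s ih =>
    simp only [List.cons_append, vis, ih, disp_cons, map_add]
    rw [sub_add_eq_sub_sub, add_assoc]

theorem card_trace_level_le (φ : Site d →+ ℤ) (x : Site d) (s : Word d) (a : ℤ) :
    ((trace x s).filter fun z => φ z = a).card ≤ vis φ s (a - φ x) := by
  induction s generalizing x with
  | nil => simp [trace, vis]
  | cons e s ih =>
    have h := ih (x + stp e)
    rw [map_add, sub_add_eq_sub_sub] at h
    simp only [trace, vis, Finset.filter_insert]
    by_cases ha : φ x = a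
    · rw [if_pos ha, if_pos (by omega)]
      exact (Finset.card_insert_le _ _).trans (by omega)
    · rw [if_neg ha, if_neg (by omega)]
      omega

theorem tsum_vis (φ : Site d →+ ℤ) (s : Word d) :
    ∑' m : ℤ, (vis φ s m : ℝ≥0∞) = s.length := by
  induction s with
  | nil => simp [vis]
  | cons e s ih =>
    simp only [vis, Nat.cast_add, List.length_cons]
    rw [ENNReal.tsum_add]
    have h1 : ∑' m : ℤ, ((if m = 0 then 1 else 0 : ℕ) : ℝ≥0∞) = 1 := by
      rw [tsum_eq_single (0 : ℤ) fun m hm => by simp [hm]]
      simp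
    have h2 : ∑' m : ℤ, (vis φ s (m - φ (stp e)) : ℝ≥0∞) = s.length := by
      rw [← ih]
      exact (Equiv.subRight (φ (stp e))).tsum_eq fun m => (vis φ s m : ℝ≥0∞)
    rw [h1, h2, Nat.cast_one, add_comm]

end Vale.Agent.P147.Regen
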