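import Vale.Agent.P147.Regen.SegGlue

/-!
# Regeneration in a single direction: segments, blocks and the renewal structure
-/

namespace Vale.Agent.P147.Regen

open MeasureTheory Set Filter SegAux
open scoped ENNReal

variable {d : ℕ}

theorem isLevel_neg {φ : Site d →+ ℤ} (h : IsLevel φ) : IsLevel (-φ) := by
  refine ⟨fun e => by simpa using h.1 e, ?_⟩
  obtain ⟨⟨i, b⟩, he⟩ := h.2
  refine ⟨(i, !b), ?_⟩
  have hneg : stp ((i, !b) : Step d) = -stp (i, b) := by
    cases b <;> simp [stp, ← Pi.single_neg]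
  simp [hneg, he]

theorem IsSeg.height_pos {φ : Site d →+ ℤ} {s : Word d} (h : IsSeg φ s) :
    0 < φ (disp s) := by
  have := h.2 0 h.1
  simp [disp_nil] at this
  exact this

theorem IsSeg.append {φ : Site d →+ ℤ} {s t : Word d} (hs : IsSeg φ s) (ht : IsSeg φ t) :
    IsSeg φ (s ++ t) :=
  ⟨by have := hs.1; simp; omega, isPSeg_append hs.2 ht.2⟩

theorem IsSeg.level_trace {φ : Site d →+ ℤ} {s : Word d} (h : IsSeg φ s) {x z : Site d}
    (hz : z ∈ trace x s) : φ x ≤ φ z ∧ φ z < φ x + φ (disp s) := by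
  obtain ⟨k, hk, rfl⟩ := mem_trace.1 hz
  have := h.2 k hk
  rw [map_add]
  constructor <;> linarith [this.1, this.2]

theorem IsSeg.cut_unique {φ : Site d →+ ℤ} {a b a' b' : Word d} (ha : IsSeg φ a)
    (_hb : IsSeg φ b) (ha' : IsSeg φ a') (_hb' : IsSeg φ b') (he : a ++ b = a' ++ b')
    (hh : φ (disp a) = φ (disp a')) : a = a' := by
  rcases List.append_eq_append_iff.1 he with ⟨r, rfl, -⟩ | ⟨r, rfl, -⟩
  · rcases eq_or_ne r [] with rfl | hr
    · simp
    · have := (ha'.2 a.length (by simp [List.length_pos_iff.2 hr])).2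
      rw [List.take_left] at this
      omega
  · rcases eq_or_ne r [] with rfl | hr
    · simp
    · have := (ha.2 a'.length (by simp [List.length_pos_iff.2 hr])).2
      rw [List.take_left] at this
      omega

theorem exists_blocks {φ : Site d →+ ℤ} {s : Word d} (h : IsSeg φ s) :
    ∃ L : List (Word d), L ≠ [] ∧ (∀ b ∈ L, IsBlock φ b) ∧ L.flatten = s := by
  induction hn : s.length using Nat.strong_induction_on generalizing s with
  | _ n ih =>
    subst hn
    by_cases hb : IsBlock φ s
    · exact ⟨[s], by simp, fun b hb' => by rwa [List.mem_singleton.1 hb'], by simp⟩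
    · simp only [IsBlock, h, true_and, not_forall, ne_eq, not_not] at hb
      obtain ⟨s₁, s₂, h₁, h₂, rfl⟩ := hb
      obtain ⟨L₁, hne, hL₁, e₁⟩ := ih _ (by have := h₂.1; simp; omega) h₁ rfl
      obtain ⟨L₂, -, hL₂, e₂⟩ := ih _ (by have := h₁.1; simp; omega) h₂ rfl
      exact ⟨L₁ ++ L₂, by simp [hne],
        fun b hb' => (List.mem_append.1 hb').elim (hL₁ b) (hL₂ b), by simp [e₁, e₂]⟩

theorem blocks_unique {φ : Site d →+ ℤ} {L L' : List (Word d)} (hL : ∀ b ∈ L, IsBlock φ b)
    (hL' : ∀ b ∈ L', IsBlock φ b) (h : L.flatten = L'.flatten) : L = L' := by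
  have key : ∀ (b r : Word d) (M M' : List (Word d)), IsBlock φ (b ++ r) → IsBlock φ b →
      (∀ c ∈ M, IsBlock φ c) → M.flatten = r ++ M'.flatten → r = [] := by
    intro b r M M' hbr hb hM he
    by_contra hr
    have hlen := List.length_pos_iff.2 hr
    refine hbr.2 b r hb.1 ⟨hlen, fun k hk => ?_⟩ rfl
    have h1 := (pseg_level_le (pseg_flatten fun c hc => (hM c hc).1) k).1
    rw [he, List.take_append_of_le_length hk.le] at h1
    have h2 := hbr.1.2 (b.length + k) (by simp; omega)
    have e : (b ++ r).take (b.length + k) = b ++ r.take k := by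
      rw [List.take_append, List.take_of_length_le (by omega), Nat.add_sub_cancel_left]
    rw [e, disp_append, map_add, disp_append, map_add] at h2
    exact ⟨h1, by omega⟩
  induction L generalizing L' with
  | nil =>
    cases L' with
    | nil => rfl
    | cons b' L' =>
      have := (hL' b' (List.mem_cons_self ..)).1.1
      have h' := congrArg List.length h
      simp at h'
      omega
  | cons b L ih =>
    have hb := hL b (List.mem_cons_self ..)
    cases L' with
    | nil =>
      have := hb.1.1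
      have h' := congrArg List.length h
      simp at h'
      simp [h'.1] at this
    | cons b' L' =>
      have hb' := hL' b' (List.mem_cons_self ..)
      have hLt : ∀ c ∈ L, IsBlock φ c := fun c hc => hL c (List.mem_cons_of_mem _ hc)
      have hLt' : ∀ c ∈ L', IsBlock φ c := fun c hc => hL' c (List.mem_cons_of_mem _ hc)
      rw [List.flatten_cons, List.flatten_cons] at h
      rcases List.append_eq_append_iff.1 h with ⟨r, rfl, he⟩ | ⟨r, rfl, he⟩
      · obtain rfl := key b r L L' hb' hb hLt he
        rw [List.nil_append] at he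
        rw [List.append_nil, ih hLt hLt' he]
      · obtain rfl := key b' r L' L hb hb' hLt' he
        rw [List.nil_append] at he
        rw [List.append_nil, ih hLt hLt' he.symm]

variable [NeZero d] (μ : Measure (Step d → ℝ)) [IsProbabilityMeasure μ] (φ : Site d →+ ℤ)

omit [NeZero d] in
theorem measurableSet_Esc : MeasurableSet (Esc φ) := measurableSet_EscAux φ

omit [NeZero d] in
theorem measurableSet_Up : MeasurableSet (Up φ) := measurableSet_UpAux φ

omit [NeZero d] in
theorem measurableSet_Unb : MeasurableSet (Unb φ) := measurableSet_UnbAux φ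

theorem aUp_pos (hell : IsElliptic μ) (h : 0 < ann μ 0 (Esc φ)) : 0 < aUp μ φ := by
  refine pos_iff_ne_zero.2 fun ha => h.ne' ?_
  have hUp := measurableSet_UpAux φ
  have hcover : Esc φ ⊆ ⋃ s : Word d, Pre s ∩ shiftSeq s.length ⁻¹' Up φ := by
    intro u hu
    obtain ⟨N, hN⟩ := eventually_atTop.1 (tendsto_atTop.1 (mem_Esc.1 hu) 0)
    obtain ⟨m, -, hmin⟩ := Finset.exists_min_image (Finset.range (N + 1)) (fun i => lev φ u i)
      ⟨0, by simp⟩
    refine mem_iUnion.2 ⟨pref u m, pref_mem u m, ?_⟩
    show shiftSeq (pref u m).length u ∈ Up φ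
    rw [pref_length, mem_Up_shift]
    refine ⟨fun j _ => ?_, hu⟩
    rcases le_or_gt j N with hj | hj
    · exact hmin j (Finset.mem_range.2 (Nat.lt_succ_of_le hj))
    · have h1 : lev φ u m ≤ 0 := lev_zero φ u ▸ hmin 0 (by simp)
      exact h1.trans (hN j hj.le)
  rw [← annM_apply μ (measurableSet_EscAux φ)]
  refine measure_mono_null hcover ((measure_iUnion_null_iff (μ := annM μ)).2 fun s => ?_)
  rw [annM_apply μ ((measurableSet_Pre s).inter (measurable_shiftSeq _ hUp)), ann]
  have h0 : ann μ (0 + disp s) (Up φ) = 0 := by rw [ann_translate _ hUp]; exact ha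
  rw [ann, lintegral_eq_zero_iff (measurable_W _ hUp)] at h0
  rw [lintegral_eq_zero_iff (measurable_W 0
    ((measurableSet_Pre s).inter (measurable_shiftSeq _ hUp)))]
  filter_upwards [h0, ae_isEnv μ hell] with w hw he
  simp only [Pi.zero_apply] at hw ⊢
  rw [W_Pre_inter he 0 s hUp, hw, mul_zero]

theorem ann_unb_diff_esc (hell : IsElliptic μ) (_hl : IsLevel φ) (ha : 0 < aUp μ φ) (x : Site d) :
    ann μ x (Unb φ \ Esc φ) = 0 := by
  have hm := (measurableSet_UnbAux φ).diff (measurableSet_EscAux φ)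
  rw [ann_translate x hm, ← annM_apply μ hm, annM_unb_diff_esc μ hell ha]

theorem IsSeg.wt_append {φ : Site d →+ ℤ} {s t : Word d} (hs : IsSeg φ s) (ht : IsSeg φ t) :
    wt μ (s ++ t) = wt μ s * wt μ t :=
  wt_append_pseg μ (isRec_of_pseg hs.2) ht.2

theorem isProbabilityMeasure_blockLaw (hell : IsElliptic μ) (_hl : IsLevel φ)
    (ha : 0 < aUp μ φ) : IsProbabilityMeasure (blockLaw μ φ) :=
  isProb_blockLaw μ hell ha

omit [NeZero d] [IsProbabilityMeasure μ] in
theorem blockLaw_singleton {φ : Site d →+ ℤ} {s : Word d} (h : IsBlock φ s) :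
    blockLaw μ φ {s} = wt μ s :=
  blockLaw_one μ h

omit [NeZero d] [IsProbabilityMeasure μ] in
theorem ae_isBlock : ∀ᵐ s ∂blockLaw μ φ, IsBlock φ s := blockLaw_ae μ φ

theorem ann_Up_inter (hell : IsElliptic μ) (_hl : IsLevel φ) (ha : 0 < aUp μ φ)
    {A : Set (ℕ → Step d)} (hA : MeasurableSet A) :
    ann μ 0 (Up φ ∩ A) = aUp μ φ * blocksLaw μ φ (glue ⁻¹' A) :=
  ann_Up_glue μ hell ha hA

theorem aUp_le_segs (hell : IsElliptic μ) (hl : IsLevel φ) (n : ℕ) (hn : 1 ≤ n) :
    aUp μ φ ≤ ∑' s : {s : Word d // IsSeg φ s ∧ φ (disp s) = n}, wt μ s.1 := by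
  rw [aUp_eq, ← tsum_congr fun s : {s : Word d // IsSeg φ s ∧ φ (disp s) = n} =>
    annM_Pre μ hell s.1]
  refine le_trans (measure_mono ?_) (measure_iUnion_le _)
  intro u hu
  obtain ⟨hnn, hesc⟩ := mem_Up.1 hu
  classical
  have hex : ∃ m, (n : ℤ) ≤ lev φ u m := by
    obtain ⟨m, hm⟩ := eventually_atTop.1 (tendsto_atTop.1 (mem_Esc.1 hesc) n)
    exact ⟨m, hm m le_rfl⟩
  set m := Nat.find hex with hm
  have h1 : (n : ℤ) ≤ lev φ u m := Nat.find_spec hex
  have h2 : ∀ k < m, lev φ u k < n := fun k hk => not_le.1 (Nat.find_min hex hk)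
  have hm0 : 0 < m := by
    rcases Nat.eq_zero_or_pos m with h0 | h0
    · rw [h0, lev_zero] at h1; omega
    · exact h0
  have heq : lev φ u m = n := by
    obtain ⟨j, hj⟩ : ∃ j, m = j + 1 := ⟨m - 1, by omega⟩
    have hstep : lev φ u (j + 1) = lev φ u j + φ (stp (u j)) := by
      simp only [lev, path_succ, map_add]
    have := (abs_le.1 (hl.1 (u j))).2
    have := h2 j (by omega)
    rw [← hj] at hstep
    omega
  refine mem_iUnion.2 ⟨⟨pref u m, ?_, ?_⟩, pref_mem u m⟩
  · rw [isSeg_iff (pref_mem u m), pref_length]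
    exact ⟨hm0, fun k hk => ⟨hnn k, heq ▸ h2 k hk⟩⟩
  · rw [lev_pref, heq]

theorem lintegral_block_height (hell : IsElliptic μ) (hl : IsLevel φ) (ha : 0 < aUp μ φ) :
    ∫⁻ s, ((φ (disp s)).toNat : ℝ≥0∞) ∂blockLaw μ φ ≤ (aUp μ φ)⁻¹ := by
  classical
  rw [lintegral_blockLaw]
  set tailP : ℕ → ℝ≥0∞ := fun j => ∑' b : {b : Word d // IsBlock φ b},
    if j < (φ (disp b.1)).toNat then wt μ b.1 else 0 with htail
  have hsum : ∑' b : {b : Word d // IsBlock φ b}, wt μ b.1 * ((φ (disp b.1)).toNat : ℝ≥0∞) =
      ∑' j, tailP j := by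
    rw [htail, ENNReal.tsum_comm]
    refine tsum_congr fun b => ?_
    rw [tsum_eq_sum (s := Finset.range (φ (disp b.1)).toNat) fun j hj =>
      if_neg (by simpa using hj)]
    rw [Finset.sum_congr rfl fun j hj => if_pos (Finset.mem_range.1 hj), Finset.sum_const,
      Finset.card_range, nsmul_eq_mul, mul_comm]
  rw [hsum]
  refine ENNReal.tsum_le_of_sum_range_le fun n => ?_
  rcases n.eq_zero_or_pos with rfl | hn
  · simp
  obtain ⟨N, rfl⟩ : ∃ N, n = N + 1 := ⟨n - 1, by omega⟩
  rw [ENNReal.le_inv_iff_mul_le]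
  -- renewals before level `N` followed by a block jumping over it
  let I := {p : Word d × Word d //
    (IsPSeg φ p.1 ∧ φ (disp p.1) ≤ N) ∧ IsBlock φ p.2 ∧ (N : ℤ) < φ (disp p.1) + φ (disp p.2)}
  let E : I → Set (ℕ → Step d) := fun p =>
    Pre (p.1.1 ++ p.1.2) ∩ shiftSeq (p.1.1 ++ p.1.2).length ⁻¹' Up φ
  have hmass : ∀ p : I, annM μ (E p) = wt μ p.1.1 * wt μ p.1.2 * aUp μ φ := fun p => by
    rw [← wt_append_pseg μ (isRec_of_pseg p.2.1.1) (pseg_of_seg p.2.2.1.1), aUp_eq]
    exact annM_rec_inter μ hell (isRec_of_pseg (isPSeg_append p.2.1.1 (pseg_of_seg p.2.2.1.1)))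
      (measurableSet_UpAux φ) (Up_subset_NB φ)
  have hdisj : Pairwise (Function.onFun Disjoint E) := by
    intro p q hne
    refine disjoint_left.2 fun u hp hq => hne (Subtype.ext ?_)
    obtain ⟨⟨s, b⟩, ⟨hs, hsN⟩, hb, hbN⟩ := p
    obtain ⟨⟨s', b'⟩, ⟨hs', hs'N⟩, hb', hb'N⟩ := q
    simp only at hs hsN hb hbN hs' hs'N hb' hb'N
    simp only [E, mem_inter_iff, mem_preimage] at hp hq
    -- `s` and `s'` end at cuts
    have cut : ∀ (a c : Word d), IsPSeg φ a → IsSeg φ c → u ∈ Pre (a ++ c) →
        shiftSeq (a ++ c).length u ∈ Up φ →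
        shiftSeq a.length u ∈ Up φ := by
      intro a c ha hc hu hup
      rw [mem_Up_shift] at hup ⊢
      refine ⟨fun j hj => ?_, hup.2⟩
      obtain ⟨hua, -⟩ := Pre_append hu
      rcases lt_or_ge j (a ++ c).length with hjl | hjl
      · have e : φ (disp ((a ++ c).take j)) = lev φ u j := lev_take φ hu hjl.le
        rw [level_append, lev_end φ hua] at e
        split_ifs at e with hc'
        · rw [Nat.le_antisymm hc' hj]
        · have := (pseg_level_le (pseg_of_seg hc) (j - a.length)).1
          omega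
      · have h5 := hup.1 j hjl
        rw [← lev_end φ hu, disp_append, map_add, lev_end φ hua] at h5
        have := pseg_height_nonneg (pseg_of_seg hc)
        omega
    have c0 := cut s b hs hb.1 hp.1 hp.2
    have c0' := cut s' b' hs' hb'.1 hq.1 hq.2
    obtain ⟨hus, hub⟩ := Pre_append hp.1
    obtain ⟨hus', hub'⟩ := Pre_append hq.1
    have r0 := (isRec_iff hus).1 (isRec_of_pseg hs)
    have r0' := (isRec_iff hus').1 (isRec_of_pseg hs')
    -- a block over level `N` leaves no cut strictly inside
    have noCut : ∀ (a c a' : Word d), IsPSeg φ a → IsBlock φ c → IsPSeg φ a' →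
        φ (disp a') ≤ N → (N : ℤ) < φ (disp a) + φ (disp c) → u ∈ Pre a →
        shiftSeq a.length u ∈ Pre c → shiftSeq (a ++ c).length u ∈ Up φ → u ∈ Pre a' →
        shiftSeq a'.length u ∈ Up φ → ¬ a.length < a'.length := by
      intro a c a' _ha hc ha' hN hNc hua huc hupc hua' hupa' hlt
      have ra' := (isRec_iff hua').1 (isRec_of_pseg ha')
      have hend : lev φ u (a ++ c).length = φ (disp a) + φ (disp c) := by
        rw [List.length_append, lev_add, ← lev_end φ hua, ← lev_end φ huc]
      have hlt2 : a'.length < a.length + c.length := by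
        by_contra hge
        have h6 : lev φ u a'.length ≤ N := lev_end φ hua' ▸ hN
        have h7 := (mem_Up_shift.1 hupc).1 a'.length (by simp; omega)
        omega
      refine block_no_cut hc huc (j := a'.length - a.length) (by omega) (by omega)
        (fun i hi => ?_) (fun j hj => ?_)
      · have h8 := ra' (a.length + i) (by omega)
        have e1 := lev_add φ u a.length i
        have e2 := lev_add φ u a.length (a'.length - a.length)
        rw [show a.length + (a'.length - a.length) = a'.length by omega] at e2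
        omega
      · have h8 := (mem_Up_shift.1 hupa').1 (a.length + j) (by omega)
        have e1 := lev_add φ u a.length j
        have e2 := lev_add φ u a.length (a'.length - a.length)
        rw [show a.length + (a'.length - a.length) = a'.length by omega] at e2
        omega
    have hlen : s.length = s'.length := le_antisymm
      (not_lt.1 (noCut s' b' s hs' hb' hs hsN hb'N hus' hub' hq.2 hus c0))
      (not_lt.1 (noCut s b s' hs hb hs' hs'N hbN hus hub hp.2 hus' c0'))
    obtain rfl : s = s' := by rw [← pref_eq hus, ← pref_eq hus', hlen]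
    have cend : ∀ c : Word d, shiftSeq (s ++ c).length u ∈ Up φ →
        shiftSeq c.length (shiftSeq s.length u) ∈ NB φ := fun c hc => by
      have e : shiftSeq c.length (shiftSeq s.length u) = shiftSeq (s ++ c).length u := by
        funext i; simp [shiftSeq, Nat.add_assoc]
      rw [e]; exact Up_subset_NB φ hc
    have hbb := eq_of_blocks hb hb' hub hub' (cend b hp.2) (cend b' hq.2)
    subst hbb
    rfl
  have htot : ∑' p : I, annM μ (E p) ≤ aUp μ φ := by
    rw [← measure_iUnion hdisj fun p => (measurableSet_Pre _).inter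
      (measurable_shiftSeq _ (measurableSet_UpAux φ)), aUp_eq]
    refine measure_mono (iUnion_subset fun p => ?_)
    rintro u ⟨hu, hup⟩
    obtain ⟨hcut, hesc⟩ := mem_Up_shift.1 hup
    have hps := isPSeg_append p.2.1.1 (pseg_of_seg p.2.2.1.1)
    refine mem_Up.2 ⟨fun m => ?_, hesc⟩
    rcases lt_or_ge m (p.1.1 ++ p.1.2).length with hm | hm
    · exact ((isPSeg_iff hu).1 hps m hm).1
    · have h9 : 0 ≤ lev φ u (p.1.1 ++ p.1.2).length := lev_end φ hu ▸ pseg_height_nonneg hps
      exact h9.trans (hcut m hm)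
  have hw1 : ∑' p : I, wt μ p.1.1 * wt μ p.1.2 ≤ 1 := by
    simp only [hmass, ENNReal.tsum_mul_right] at htot
    exact (ENNReal.mul_le_mul_iff_left ha.ne' (aUp_ne_top μ φ)).1 (by simpa using htot)
  -- at least `aUp` of renewal mass at every level
  have hu : ∀ k ≤ N, aUp μ φ ≤
      ∑' s : {s : Word d // IsPSeg φ s ∧ φ (disp s) = (k : ℕ)}, wt μ s.1 := by
    intro k _
    rcases k.eq_zero_or_pos with rfl | hk
    · refine le_trans ?_ (ENNReal.le_tsum ⟨[], pseg_nil φ, by simp [disp_nil]⟩)
      simpa [wt, qw] using aUp_le_one μ φ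
    · exact (aUp_le_segs μ φ hell hl k hk).trans (ENNReal.tsum_mono_subtype _
        fun s hs => ⟨hs.1.2, hs.2⟩)
  calc (∑ j ∈ Finset.range (N + 1), tailP j) * aUp μ φ
      = ∑ k ∈ Finset.range (N + 1), aUp μ φ * tailP (N - k) := by
        rw [← Finset.sum_range_reflect, Finset.sum_mul]
        exact Finset.sum_congr rfl fun k _ => by simp [mul_comm]
    _ ≤ ∑ k ∈ Finset.range (N + 1),
          (∑' s : {s : Word d // IsPSeg φ s ∧ φ (disp s) = (k : ℕ)}, wt μ s.1) * tailP (N - k) :=
        Finset.sum_le_sum fun k hk =>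
          mul_le_mul_of_nonneg_right (hu k (by simp at hk; omega)) zero_le
    _ ≤ ∑' p : I, wt μ p.1.1 * wt μ p.1.2 := by
        let J := Σ k : Finset.range (N + 1),
          {s : Word d // IsPSeg φ s ∧ φ (disp s) = ((k : ℕ) : ℤ)} ×
            {b : {b : Word d // IsBlock φ b} // N - (k : ℕ) < (φ (disp b.1)).toNat}
        let g : J → I := fun x => ⟨(x.2.1.1, x.2.2.1.1), ⟨x.2.1.2.1, by
            have := Finset.mem_range.1 x.1.2
            rw [x.2.1.2.2]; omega⟩, x.2.2.1.2, by
            have := x.2.2.2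
            have := Finset.mem_range.1 x.1.2
            show (N : ℤ) < φ (disp x.2.1.1) + φ (disp x.2.2.1.1)
            rw [x.2.1.2.2]; omega⟩
        have hg : Function.Injective g := by
          rintro ⟨k, s, b⟩ ⟨k', s', b'⟩ he
          replace he := congrArg Subtype.val he
          simp only [g, Prod.mk.injEq] at he
          have hk : k = k' := by
            apply Subtype.ext
            have a1 := s.2.2
            rw [he.1, s'.2.2] at a1
            exact_mod_cast a1.symm
          subst hk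
          obtain rfl : s = s' := Subtype.ext he.1
          obtain rfl : b = b' := Subtype.ext (Subtype.ext he.2)
          rfl
        refine le_trans (le_of_eq ?_) (ENNReal.tsum_comp_le_tsum_of_injective hg _)
        rw [← Finset.sum_coe_sort, ENNReal.tsum_sigma', tsum_fintype]
        refine Finset.sum_congr rfl fun k _ => ?_
        rw [ENNReal.tsum_prod', ← ENNReal.tsum_mul_right]
        refine tsum_congr fun s => ?_
        dsimp only [g]
        rw [ENNReal.tsum_mul_left]
        congr 1
        refine Eq.trans ?_ (tsum_subtype {b : {b : Word d // IsBlock φ b} |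
          N - (k : ℕ) < (φ (disp b.1)).toNat} fun b => wt μ b.1).symm
        exact tsum_congr fun b => by simp [Set.indicator_apply]
    _ ≤ 1 := hw1

end Vale.Agent.P147.Regen
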