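import Vale.Agent.P147.Regen.SegAnn

/-!
# Regeneration: the law of the upward walk as glued independent blocks
-/

namespace Vale.Agent.P147.Regen

open MeasureTheory Set Filter
open scoped ENNReal

variable {d : ℕ}

namespace SegAux

theorem blockLaw_apply (μ : Measure (Step d → ℝ)) (φ : Site d →+ ℤ) (T : Set (Word d)) :
    blockLaw μ φ T = ∑' b : {b : Word d // IsBlock φ b}, T.indicator (fun s => wt μ s) b.1 := by
  rw [blockLaw, Measure.sum_apply _ MeasurableSet.of_discrete]
  refine tsum_congr fun b => ?_
  rw [Measure.smul_apply, Measure.dirac_apply, smul_eq_mul]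
  by_cases h : b.1 ∈ T <;> simp [h]

theorem blockLaw_one (μ : Measure (Step d → ℝ)) {φ : Site d →+ ℤ} {s : Word d}
    (h : IsBlock φ s) : blockLaw μ φ {s} = wt μ s := by
  rw [blockLaw_apply, tsum_eq_single ⟨s, h⟩]
  · simp
  · intro b hb
    have : b.1 ≠ s := fun he => hb (Subtype.ext he)
    simp [this]

theorem blockLaw_ae (μ : Measure (Step d → ℝ)) (φ : Site d →+ ℤ) :
    ∀ᵐ s ∂blockLaw μ φ, IsBlock φ s := by
  rw [ae_iff, blockLaw_apply]
  exact ENNReal.tsum_eq_zero.2 fun b => by simp [b.2]

theorem lintegral_blockLaw (μ : Measure (Step d → ℝ)) (φ : Site d →+ ℤ) (f : Word d → ℝ≥0∞) :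
    ∫⁻ s, f s ∂blockLaw μ φ = ∑' b : {b : Word d // IsBlock φ b}, wt μ b.1 * f b.1 := by
  rw [blockLaw, lintegral_sum_measure]
  simp [lintegral_smul_measure]

/-- The words are nonempty. -/
def AllPos (b : ℕ → Word d) : Prop := ∀ i, b i ≠ []

theorem length_flatten_ge {b : ℕ → Word d} (hb : AllPos b) (n : ℕ) :
    n ≤ ((List.range n).map b).flatten.length := by
  induction n with
  | zero => simp
  | succ n ih =>
    have := List.length_pos_iff.2 (hb n)
    simp [List.range_succ, List.flatten_append] at ih ⊢
    omega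

theorem cyl_split {b : Word d} {u : ℕ → Step d} (hu : u ∈ Pre b) (n : ℕ) (t : ℕ → Step d) :
    u ∈ cyl n t ↔ (∀ k (hk : k < b.length), k < n → b[k] = t k) ∧
      shiftSeq b.length u ∈ cyl (n - b.length) (shiftSeq b.length t) := by
  constructor
  · exact fun h => ⟨fun k hk hkn => by rw [← hu k hk]; exact h k hkn,
      fun k hk => h (b.length + k) (by omega)⟩
  · rintro ⟨h1, h2⟩ k hk
    rcases lt_or_ge k b.length with hkb | hkb
    · rw [hu k hkb]; exact h1 k hkb hk
    · obtain ⟨i, rfl⟩ := Nat.exists_eq_add_of_le hkb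
      exact h2 i (by omega)

variable [NeZero d]

theorem glue_zero {b : ℕ → Word d} (hb : AllPos b) : glue b ∈ Pre (b 0) := by
  intro k hk
  have hlen := length_flatten_ge hb (k + 1)
  rw [glue, List.getD_eq_getElem _ _ (by omega)]
  have : ((List.range (k + 1)).map b).flatten =
      b 0 ++ (((List.range k).map fun i => b (i + 1))).flatten := by
    rw [List.range_succ_eq_map, List.map_cons, List.flatten_cons, List.map_map]
    rfl
  simp only [this]
  rw [List.getElem_append_left hk]

theorem glue_shift {b : ℕ → Word d} (hb : AllPos b) :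
    shiftSeq (b 0).length (glue b) = glue (shiftSeq 1 b) := by
  have hb' : AllPos (shiftSeq 1 b) := fun i => hb _
  funext n
  show glue b ((b 0).length + n) = glue (shiftSeq 1 b) n
  set L := (b 0).length
  have hL : 0 < L := List.length_pos_iff.2 (hb 0)
  have h1 : ((List.range (L + n + 1)).map b).flatten =
      b 0 ++ ((List.range (L + n)).map (shiftSeq 1 b)).flatten := by
    rw [List.range_succ_eq_map, List.map_cons, List.flatten_cons, List.map_map]
    congr 2
    apply List.map_congr_left
    intro i _
    simp [shiftSeq, Nat.add_comm]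
  have h2 : ((List.range (n + 1)).map (shiftSeq 1 b)).flatten <+:
      ((List.range (L + n)).map (shiftSeq 1 b)).flatten := by
    have e : List.range (L + n) =
        List.range (n + 1) ++ (List.range (L - 1)).map ((n + 1) + ·) := by
      rw [← List.range_add]; congr 1; omega
    rw [e, List.map_append, List.flatten_append]
    exact List.prefix_append _ _
  have hlen := length_flatten_ge hb' (n + 1)
  rw [glue, glue, h1, List.getD_eq_getElem _ _ (by
      rw [List.length_append]; have := h2.length_le; omega),
    List.getD_eq_getElem _ _ (by omega), List.getElem_append_right (by omega),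
    h2.getElem (by omega)]
  simp only [L, Nat.add_sub_cancel_left]

theorem measurable_glue : Measurable (glue : (ℕ → Word d) → ℕ → Step d) := by
  refine measurable_pi_lambda _ fun n => ?_
  have : (fun b : ℕ → Word d => glue b n) =
      (fun g : Fin (n + 1) → Word d => ((List.ofFn g).flatten).getD n (0, true)) ∘
        fun b i => b i := by
    funext b
    simp only [Function.comp, glue]
    congr 2
    exact List.ext_getElem (by simp) fun i _ _ => by
      rw [List.getElem_map, List.getElem_range, List.getElem_ofFn]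
  rw [this]
  exact Measurable.of_discrete.comp (measurable_pi_lambda _ fun i => measurable_pi_apply _)

variable (μ : Measure (Step d → ℝ)) [IsProbabilityMeasure μ] {φ : Site d →+ ℤ}

theorem isProb_blockLaw (hell : IsElliptic μ) (ha : 0 < aUp μ φ) :
    IsProbabilityMeasure (blockLaw μ φ) := by
  refine ⟨?_⟩
  rw [blockLaw_apply]
  simpa using tsum_block_wt μ hell ha

omit [NeZero d] [IsProbabilityMeasure μ] in
/-- The first block and the rest are independent. -/
theorem blocks_split [IsProbabilityMeasure (blockLaw μ φ)] (b : Word d)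
    {S : Set (ℕ → Word d)} (hS : MeasurableSet S) :
    blocksLaw μ φ ({ω | ω 0 = b} ∩ shiftSeq 1 ⁻¹' S) =
      blockLaw μ φ {b} * blocksLaw μ φ S := by
  have : IsProbabilityMeasure (blocksLaw μ φ) := by unfold blocksLaw; infer_instance
  have hT := measurable_shiftSeq (α := Word d) 1
  have h0 : MeasurableSet {ω : ℕ → Word d | ω 0 = b} :=
    (measurable_pi_apply (X := fun _ : ℕ => Word d) 0) (measurableSet_singleton b)
  have key : ((blocksLaw μ φ).restrict {ω | ω 0 = b}).map (shiftSeq 1) =
      blockLaw μ φ {b} • blocksLaw μ φ := by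
    refine ext_cyls fun n p => ?_
    rw [Measure.map_apply hT (measurableSet_cyl n p),
      Measure.restrict_apply (hT (measurableSet_cyl n p)), Measure.smul_apply, smul_eq_mul]
    let q : ℕ → Set (Word d) := fun k => if k = 0 then {b} else {p (k - 1)}
    have e1 : shiftSeq 1 ⁻¹' cyl n p ∩ {ω : ℕ → Word d | ω 0 = b} =
        Set.pi (Finset.range (n + 1) : Set ℕ) q := by
      ext ω
      simp only [mem_inter_iff, mem_preimage, cyl, mem_ofPred_eq, Set.mem_pi, Finset.mem_coe,
        Finset.mem_range, q]
      constructor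
      · rintro ⟨h1, h2⟩ k hk
        cases k with
        | zero => simpa using h2
        | succ k => simpa [shiftSeq, Nat.add_comm] using h1 k (by omega)
      · intro h
        refine ⟨fun k hk => ?_, by simpa using h 0 (by omega)⟩
        simpa [shiftSeq, Nat.add_comm] using h (k + 1) (by omega)
    have e2 : cyl n p = Set.pi (Finset.range n : Set ℕ) fun k => ({p k} : Set (Word d)) := by
      ext ω; simp [cyl, Set.mem_pi]
    rw [e1, e2, blocksLaw, Measure.infinitePi_pi _ (fun _ _ => MeasurableSet.of_discrete),
      Measure.infinitePi_pi _ (fun _ _ => MeasurableSet.of_discrete), Finset.prod_range_succ',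
      mul_comm]
    congr 1
  have := congrArg (fun m : Measure (ℕ → Word d) => m S) key
  rw [Measure.map_apply hT hS, Measure.restrict_apply (hT hS), Measure.smul_apply, smul_eq_mul,
    inter_comm] at this
  exact this

omit [NeZero d] [IsProbabilityMeasure μ] in
theorem blocks_allPos [IsProbabilityMeasure (blockLaw μ φ)] :
    ∀ᵐ ω ∂blocksLaw μ φ, AllPos ω ∧ ∀ i, IsBlock φ (ω i) := by
  have h : ∀ i, ∀ᵐ ω ∂blocksLaw μ φ, IsBlock φ (ω i) := fun i =>
    (measurePreserving_eval_infinitePi (fun _ : ℕ => blockLaw μ φ) i).quasiMeasurePreserving.ae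
      (blockLaw_ae μ φ)
  filter_upwards [ae_all_iff.2 h] with ω hω
  exact ⟨fun i => List.length_pos_iff.1 (hω i).1.1, hω⟩

theorem glue_cyl (hell : IsElliptic μ) (ha : 0 < aUp μ φ)
    [IsProbabilityMeasure (blockLaw μ φ)] (n : ℕ) : ∀ t : ℕ → Step d,
    annM μ (Up φ ∩ cyl n t) = aUp μ φ * blocksLaw μ φ (glue ⁻¹' cyl n t) := by
  induction n using Nat.strong_induction_on with
  | _ n ih =>
    intro t
    have : IsProbabilityMeasure (blocksLaw μ φ) := by unfold blocksLaw; infer_instance
    rcases Nat.eq_zero_or_pos n with rfl | hn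
    · have : (cyl 0 t : Set (ℕ → Step d)) = univ := by ext; simp [cyl]
      rw [this, inter_univ, preimage_univ, measure_univ, mul_one, aUp_eq]
    rw [Up_decomp μ hell ha (measurableSet_cyl n t)]
    classical
    let good : Word d → Prop := fun b => ∀ k (hk : k < b.length), k < n → b[k] = t k
    let tail : Word d → Set (ℕ → Step d) := fun b =>
      cyl (n - b.length) (shiftSeq b.length t)
    have hlhs : ∀ b : {b : Word d // IsBlock φ b}, annM μ (FirstCut φ b ∩ cyl n t) =
        if good b.1 then wt μ b.1 * (aUp μ φ * blocksLaw μ φ (glue ⁻¹' tail b.1)) else 0 := by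
      intro b
      split_ifs with hg
      · have hlen := b.2.1.1
        have e : FirstCut φ b ∩ cyl n t =
            Pre b.1 ∩ shiftSeq b.1.length ⁻¹' (Up φ ∩ tail b.1) := by
          ext u
          simp only [FirstCut, mem_inter_iff, mem_preimage, tail]
          constructor
          · rintro ⟨⟨h1, h2⟩, h3⟩; exact ⟨h1, h2, ((cyl_split h1 n t).1 h3).2⟩
          · rintro ⟨h1, h2, h3⟩; exact ⟨⟨h1, h2⟩, (cyl_split h1 n t).2 ⟨hg, h3⟩⟩
        rw [e, annM_rec_inter μ hell (isRec_of_pseg (pseg_of_seg b.2.1))
          ((measurableSet_UpAux φ).inter (measurableSet_cyl _ _))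
          (inter_subset_left.trans (Up_subset_NB φ)), ih _ (by omega)]
      · convert measure_empty (μ := annM μ) using 2
        exact eq_empty_iff_forall_notMem.2 fun u hu => hg ((cyl_split hu.1.1 n t).1 hu.2).1
    rw [tsum_congr hlhs]
    have hmeas : ∀ b : {b : Word d // IsBlock φ b},
        MeasurableSet ({ω : ℕ → Word d | ω 0 = b.1} ∩ glue ⁻¹' cyl n t) := fun b =>
      ((measurable_pi_apply (X := fun _ : ℕ => Word d) 0) (measurableSet_singleton b.1)).inter
        (measurable_glue (measurableSet_cyl n t))
    have hrhs : blocksLaw μ φ (glue ⁻¹' cyl n t) =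
        ∑' b : {b : Word d // IsBlock φ b},
          blocksLaw μ φ ({ω : ℕ → Word d | ω 0 = b.1} ∩ glue ⁻¹' cyl n t) := by
      rw [← measure_iUnion (fun b b' hne => disjoint_left.2 fun ω h1 h2 =>
        hne (Subtype.ext (h1.1.symm.trans h2.1))) hmeas, ← iUnion_inter]
      refine measure_congr ?_
      filter_upwards [blocks_allPos μ (φ := φ)] with ω hω
      exact propext ⟨fun h => ⟨mem_iUnion.2 ⟨⟨ω 0, hω.2 0⟩, rfl⟩, h⟩, fun h => h.2⟩
    rw [hrhs, ← ENNReal.tsum_mul_left]
    refine tsum_congr fun b => ?_
    split_ifs with hg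
    · rw [show blocksLaw μ φ ({ω : ℕ → Word d | ω 0 = b.1} ∩ glue ⁻¹' cyl n t) =
        blocksLaw μ φ ({ω : ℕ → Word d | ω 0 = b.1} ∩ shiftSeq 1 ⁻¹' (glue ⁻¹' tail b.1)) from ?_,
        blocks_split μ b.1 (measurable_glue (measurableSet_cyl _ _)), blockLaw_one μ b.2]
      · ring
      refine measure_congr ?_
      filter_upwards [blocks_allPos μ (φ := φ)] with ω hω
      refine propext (and_congr_right fun h0 => ?_)
      have hP := glue_zero hω.1
      have hS := glue_shift hω.1
      rw [h0] at hP hS
      show glue ω ∈ cyl n t ↔ glue (shiftSeq 1 ω) ∈ tail b.1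
      rw [cyl_split hP, hS]
      exact and_iff_right hg
    · have h0 : blocksLaw μ φ ({ω : ℕ → Word d | ω 0 = b.1} ∩ glue ⁻¹' cyl n t) = 0 := by
        have hnull : blocksLaw μ φ {ω | ¬(AllPos ω ∧ ∀ i, IsBlock φ (ω i))} = 0 :=
          blocks_allPos μ (φ := φ)
        refine measure_mono_null ?_ hnull
        intro ω hω hpos
        refine hg ?_
        have hP := glue_zero hpos.1
        rw [show ω 0 = b.1 from hω.1] at hP
        exact ((cyl_split hP n t).1 hω.2).1
      rw [h0, mul_zero]

theorem ann_Up_glue (hell : IsElliptic μ) (ha : 0 < aUp μ φ) {A : Set (ℕ → Step d)}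
    (hA : MeasurableSet A) :
    ann μ 0 (Up φ ∩ A) = aUp μ φ * blocksLaw μ φ (glue ⁻¹' A) := by
  have := isProb_blockLaw μ hell ha
  have : IsProbabilityMeasure (blocksLaw μ φ) := by unfold blocksLaw; infer_instance
  have key : (annM μ).restrict (Up φ) = aUp μ φ • (blocksLaw μ φ).map glue := by
    refine ext_cyls fun n t => ?_
    rw [Measure.restrict_apply (measurableSet_cyl n t), inter_comm, glue_cyl μ hell ha,
      Measure.smul_apply, smul_eq_mul, Measure.map_apply measurable_glue (measurableSet_cyl n t)]
  have := congrArg (fun m : Measure (ℕ → Step d) => m A) key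
  rw [Measure.restrict_apply hA, Measure.smul_apply, smul_eq_mul,
    Measure.map_apply measurable_glue hA, inter_comm,
    annM_apply μ ((measurableSet_UpAux φ).inter hA)] at this
  exact this

end SegAux

end Vale.Agent.P147.Regen
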