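import Vale.Agent.P147.Regen.Weight
import Vale.Agent.P147.Regen.Defs2

/-!
# Regeneration: words cut at record levels
-/

namespace Vale.Agent.P147.Regen

open MeasureTheory Set Filter

variable {d : ℕ}

namespace SegAux

/-- The level at time `n`. -/
def lev (φ : Site d →+ ℤ) (u : ℕ → Step d) (n : ℕ) : ℤ := φ (path 0 u n)

/-- The prefix of length `n`. -/
def pref (u : ℕ → Step d) (n : ℕ) : Word d := List.ofFn fun i : Fin n => u i

/-- The final level is a strict record. -/
def IsRec (φ : Site d →+ ℤ) (s : Word d) : Prop :=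
  ∀ k < s.length, φ (disp (s.take k)) < φ (disp s)

/-- A segment or the empty word. -/
def IsPSeg (φ : Site d →+ ℤ) (s : Word d) : Prop :=
  ∀ k < s.length, 0 ≤ φ (disp (s.take k)) ∧ φ (disp (s.take k)) < φ (disp s)

/-- No backtracking. -/
def NB (φ : Site d →+ ℤ) : Set (ℕ → Step d) := {u | ∀ n, 0 ≤ φ (path 0 u n)}

/-- Minimal words with a property. -/
def Stops (P : Word d → Prop) : Set (Word d) := {s | P s ∧ ∀ k < s.length, ¬ P (s.take k)}

variable {φ : Site d →+ ℤ} {u : ℕ → Step d} {s t : Word d}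

@[simp] theorem pref_length (u : ℕ → Step d) (n : ℕ) : (pref u n).length = n := by simp [pref]

theorem pref_mem (u : ℕ → Step d) (n : ℕ) : u ∈ Pre (pref u n) := fun k hk => by simp [pref]

theorem pref_eq (h : u ∈ Pre s) : pref u s.length = s :=
  List.ext_getElem (by simp) fun k _ hk => by simp [pref, h k hk]

theorem take_pref (u : ℕ → Step d) {k n : ℕ} (h : k ≤ n) : (pref u n).take k = pref u k :=
  List.ext_getElem (by simp; omega) fun i _ _ => by simp [pref]

theorem take_eq_pref (h : u ∈ Pre s) {k : ℕ} (hk : k ≤ s.length) : s.take k = pref u k := by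
  conv_lhs => rw [← pref_eq h]
  exact take_pref u hk

theorem lev_zero (φ : Site d →+ ℤ) (u : ℕ → Step d) : lev φ u 0 = 0 := by
  simp [lev, path_zero]

theorem lev_pref (φ : Site d →+ ℤ) (u : ℕ → Step d) (n : ℕ) :
    φ (disp (pref u n)) = lev φ u n := by
  have h := path_pre (pref_mem u n) 0 (k := n) (by simp)
  rw [show (pref u n).take n = pref u n from List.take_of_length_le (by simp), zero_add] at h
  rw [lev, h]

theorem lev_take (φ : Site d →+ ℤ) (h : u ∈ Pre s) {k : ℕ} (hk : k ≤ s.length) :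
    φ (disp (s.take k)) = lev φ u k := by
  rw [take_eq_pref h hk, lev_pref]

theorem lev_end (φ : Site d →+ ℤ) (h : u ∈ Pre s) : φ (disp s) = lev φ u s.length := by
  conv_lhs => rw [← pref_eq h]
  rw [lev_pref]

theorem lev_add (φ : Site d →+ ℤ) (u : ℕ → Step d) (n k : ℕ) :
    lev φ u (n + k) = lev φ u n + lev φ (shiftSeq n u) k := by
  have h := path_shiftSeq (pref_mem u n) 0 k
  rw [pref_length, zero_add] at h
  rw [lev, h, path_eq_add, map_add, lev_pref]
  rfl

theorem mem_NB : u ∈ NB φ ↔ ∀ n, 0 ≤ lev φ u n := Iff.rfl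

theorem mem_NB_shift {n : ℕ} :
    shiftSeq n u ∈ NB φ ↔ ∀ m, n ≤ m → lev φ u n ≤ lev φ u m := by
  rw [mem_NB]
  constructor
  · intro h m hm
    obtain ⟨k, rfl⟩ := Nat.exists_eq_add_of_le hm
    rw [lev_add]; linarith [h k]
  · intro h k
    have := h (n + k) (Nat.le_add_right n k)
    rw [lev_add] at this; linarith

theorem mem_Esc : u ∈ Esc φ ↔ Tendsto (fun n => lev φ u n) atTop atTop := Iff.rfl

theorem mem_Esc_shift {n : ℕ} : shiftSeq n u ∈ Esc φ ↔ u ∈ Esc φ := by
  rw [mem_Esc, mem_Esc, tendsto_atTop, tendsto_atTop]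
  constructor
  · intro h b
    obtain ⟨N, hN⟩ := eventually_atTop.1 (h (b - lev φ u n))
    refine eventually_atTop.2 ⟨n + N, fun m hm => ?_⟩
    obtain ⟨k, rfl⟩ := Nat.exists_eq_add_of_le (le_of_add_le_left hm)
    rw [lev_add]; linarith [hN k (by omega)]
  · intro h b
    obtain ⟨N, hN⟩ := eventually_atTop.1 (h (b + lev φ u n))
    refine eventually_atTop.2 ⟨N, fun k hk => ?_⟩
    have := hN (n + k) (by omega)
    rw [lev_add] at this; linarith

theorem mem_Up_shift {n : ℕ} :
    shiftSeq n u ∈ Up φ ↔ (∀ m, n ≤ m → lev φ u n ≤ lev φ u m) ∧ u ∈ Esc φ := by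
  rw [← mem_NB_shift, ← mem_Esc_shift (n := n)]; rfl

theorem mem_Up : u ∈ Up φ ↔ (∀ m, 0 ≤ lev φ u m) ∧ u ∈ Esc φ := Iff.rfl

theorem Esc_subset_Unb : Esc φ ⊆ Unb φ := fun u hu M => by
  obtain ⟨n, hn⟩ := eventually_atTop.1 (tendsto_atTop.1 (mem_Esc.1 hu) M)
  exact ⟨n, hn n le_rfl⟩

theorem isRec_of_pseg (h : IsPSeg φ s) : IsRec φ s := fun k hk => (h k hk).2

theorem pseg_of_seg (h : IsSeg φ s) : IsPSeg φ s := h.2

theorem pseg_nil (φ : Site d →+ ℤ) : IsPSeg φ ([] : Word d) := fun k hk => by simp at hk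

theorem isRec_iff (h : u ∈ Pre s) :
    IsRec φ s ↔ ∀ k < s.length, lev φ u k < lev φ u s.length := by
  refine forall₂_congr fun k hk => ?_
  rw [lev_take φ h hk.le, lev_end φ h]

theorem isPSeg_iff (h : u ∈ Pre s) :
    IsPSeg φ s ↔ ∀ k < s.length, 0 ≤ lev φ u k ∧ lev φ u k < lev φ u s.length := by
  refine forall₂_congr fun k hk => ?_
  rw [lev_take φ h hk.le, lev_end φ h]

theorem isSeg_iff (h : u ∈ Pre s) :
    IsSeg φ s ↔ 0 < s.length ∧ ∀ k < s.length, 0 ≤ lev φ u k ∧ lev φ u k < lev φ u s.length :=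
  and_congr_right fun _ => isPSeg_iff h

theorem mem_Stops_pref {P : Word d → Prop} {n : ℕ} (hn : P (pref u n))
    (hmin : ∀ k < n, ¬ P (pref u k)) : pref u n ∈ Stops P :=
  ⟨hn, fun k hk => by
    simp only [pref_length] at hk
    rw [take_pref u hk.le]; exact hmin k hk⟩

theorem exists_stop {P : Word d → Prop} (h : ∃ n, P (pref u n)) :
    ∃ s ∈ Stops P, u ∈ Pre s := by
  classical
  exact ⟨_, mem_Stops_pref (Nat.find_spec h) (fun k hk => Nat.find_min h hk), pref_mem u _⟩

theorem eq_of_Stops {P : Word d → Prop} (hs : s ∈ Stops P) (ht : t ∈ Stops P) (h1 : u ∈ Pre s)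
    (h2 : u ∈ Pre t) : s = t := by
  rcases lt_trichotomy s.length t.length with hlt | heq | hlt
  · exact absurd (by rw [take_eq_pref h2 hlt.le, pref_eq h1]; exact hs.1) (ht.2 _ hlt)
  · rw [← pref_eq h1, ← pref_eq h2, heq]
  · exact absurd (by rw [take_eq_pref h1 hlt.le, pref_eq h2]; exact ht.1) (hs.2 _ hlt)

theorem eq_of_isRec (hs : IsRec φ s) (ht : IsRec φ t) (h1 : u ∈ Pre s) (h2 : u ∈ Pre t)
    (hh : φ (disp s) = φ (disp t)) : s = t := by
  have a := (isRec_iff h1).1 hs
  have b := (isRec_iff h2).1 ht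
  rw [lev_end φ h1, lev_end φ h2] at hh
  rcases lt_trichotomy s.length t.length with hlt | heq | hlt
  · exact absurd hh (b _ hlt).ne
  · rw [← pref_eq h1, ← pref_eq h2, heq]
  · exact absurd hh.symm (a _ hlt).ne

theorem Pre_append (h : u ∈ Pre (s ++ t)) : u ∈ Pre s ∧ shiftSeq s.length u ∈ Pre t := by
  refine ⟨fun k hk => ?_, fun k hk => ?_⟩
  · rw [h k (by simp; omega), List.getElem_append_left]
  · simp only [shiftSeq]
    rw [h (s.length + k) (by simp; omega), List.getElem_append_right (by omega)]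
    simp

/-- Levels of a concatenation. -/
theorem level_append (φ : Site d →+ ℤ) (s t : Word d) (k : ℕ) :
    φ (disp ((s ++ t).take k)) =
      if k ≤ s.length then φ (disp (s.take k))
      else φ (disp s) + φ (disp (t.take (k - s.length))) := by
  split_ifs with h
  · rw [List.take_append_of_le_length h]
  · rw [List.take_append, List.take_of_length_le (by omega), disp_append, map_add]

theorem pseg_height_nonneg (h : IsPSeg φ s) : 0 ≤ φ (disp s) := by
  rcases s.length.eq_zero_or_pos with h0 | h0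
  · rw [List.length_eq_zero_iff.1 h0, disp_nil, map_zero]
  · have := h 0 h0
    simp [disp_nil] at this
    exact this.le

theorem isPSeg_append (hs : IsPSeg φ s) (ht : IsPSeg φ t) : IsPSeg φ (s ++ t) := by
  intro k hk
  rw [level_append, disp_append, map_add]
  have hs0 := pseg_height_nonneg hs
  have ht0 := pseg_height_nonneg ht
  split_ifs with h
  · rcases h.eq_or_lt with rfl | hlt
    · have hlen : 0 < t.length := by simp at hk; omega
      have := ht 0 hlen
      simp [disp_nil] at this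
      rw [List.take_length]
      omega
    · have := hs k hlt
      omega
  · have := ht (k - s.length) (by simp at hk; omega)
    omega

theorem pseg_flatten {L : List (Word d)} (hL : ∀ b ∈ L, IsSeg φ b) : IsPSeg φ L.flatten := by
  induction L with
  | nil => exact pseg_nil φ
  | cons b L ih =>
    rw [List.flatten_cons]
    exact isPSeg_append (pseg_of_seg (hL b (List.mem_cons_self ..)))
      (ih fun c hc => hL c (List.mem_cons_of_mem _ hc))

theorem pseg_level_le (h : IsPSeg φ s) (k : ℕ) :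
    0 ≤ φ (disp (s.take k)) ∧ φ (disp (s.take k)) ≤ φ (disp s) := by
  rcases lt_or_ge k s.length with hk | hk
  · exact ⟨(h k hk).1, (h k hk).2.le⟩
  · rw [List.take_of_length_le hk]; exact ⟨pseg_height_nonneg h, le_rfl⟩

theorem trace_disjoint (hs : IsRec φ s) (ht : IsPSeg φ t) :
    Disjoint (trace 0 s) (trace (disp s) t) := by
  rw [Finset.disjoint_left]
  intro z hz hz'
  obtain ⟨i, hi, rfl⟩ := mem_trace.1 hz
  obtain ⟨j, hj, he⟩ := mem_trace.1 hz'
  have := congrArg φ he
  rw [zero_add, map_add] at this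
  have := hs i hi
  have := (ht j hj).1
  omega

theorem wt_append_pseg [NeZero d] (μ : Measure (Step d → ℝ)) [IsProbabilityMeasure μ]
    (hs : IsRec φ s) (ht : IsPSeg φ t) : wt μ (s ++ t) = wt μ s * wt μ t :=
  Regen.wt_append s t (trace_disjoint hs ht)

/-- The first regeneration time of a block is its end. -/
theorem block_no_cut (h : IsBlock φ s) (hu : u ∈ Pre s) {j : ℕ} (hj0 : 0 < j) (hj : j < s.length)
    (hrec : ∀ i < j, lev φ u i < lev φ u j)
    (hcut : ∀ m, j ≤ m → lev φ u j ≤ lev φ u m) : False := by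
  have hseg := (isSeg_iff hu).1 h.1
  have hsplit : s = s.take j ++ s.drop j := (List.take_append_drop j s).symm
  refine h.2 (s.take j) (s.drop j) ?_ ?_ hsplit
  · refine ⟨by simp; omega, fun k hk => ?_⟩
    simp only [List.length_take] at hk
    rw [List.take_take, min_eq_left (by omega), lev_take φ hu (by omega), lev_take φ hu hj.le]
    exact ⟨(hseg.2 k (by omega)).1, hrec k (by omega)⟩
  · refine ⟨by simp; omega, fun k hk => ?_⟩
    simp only [List.length_drop] at hk
    have hsum : φ (disp s) = φ (disp (s.take j)) + φ (disp (s.drop j)) := by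
      conv_lhs => rw [hsplit]
      rw [disp_append, map_add]
    have hpart : φ (disp (s.take (j + k))) =
        φ (disp (s.take j)) + φ (disp ((s.drop j).take k)) := by
      rw [List.take_add, disp_append, map_add]
    have h1 := hseg.2 (j + k) (by omega)
    have h2 := hcut (j + k) (by omega)
    rw [lev_take φ hu (by omega), lev_take φ hu hj.le] at hpart
    rw [lev_take φ hu hj.le, lev_end φ hu] at hsum
    omega

theorem eq_of_blocks {t : Word d} (hs : IsBlock φ s) (ht : IsBlock φ t) (h1 : u ∈ Pre s)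
    (h2 : u ∈ Pre t) (c1 : shiftSeq s.length u ∈ NB φ) (c2 : shiftSeq t.length u ∈ NB φ) :
    s = t := by
  rcases lt_trichotomy s.length t.length with hlt | heq | hlt
  · exact (block_no_cut ht h2 hs.1.1 hlt (fun i hi => (((isSeg_iff h1).1 hs.1).2 i hi).2)
      (mem_NB_shift.1 c1)).elim
  · rw [← pref_eq h1, ← pref_eq h2, heq]
  · exact (block_no_cut hs h1 ht.1.1 hlt (fun i hi => (((isSeg_iff h2).1 ht.1).2 i hi).2)
      (mem_NB_shift.1 c2)).elim

end SegAux

end Vale.Agent.P147.Regen
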