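import Vale.Agent.P147.Regen.Defs

/-!
# Annealed weights of words: Markov property, translation invariance and independence
-/

namespace Vale.Agent.P147.Regen

open MeasureTheory Set Filter ProbabilityTheory
open scoped ENNReal

variable {d : ℕ}

theorem disp_nil : disp ([] : Word d) = 0 := by simp [disp]

theorem disp_cons (e : Step d) (s : Word d) : disp (e :: s) = stp e + disp s := by simp [disp]

theorem disp_append (s t : Word d) : disp (s ++ t) = disp s + disp t := by simp [disp]

theorem trace_append (x : Site d) (s t : Word d) :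
    trace x (s ++ t) = trace x s ∪ trace (x + disp s) t := by
  induction s generalizing x with
  | nil => simp [trace, disp]
  | cons e s ih => simp [trace, disp_cons, ih, Finset.insert_union, add_assoc]

theorem mem_trace {x z : Site d} {s : Word d} :
    z ∈ trace x s ↔ ∃ k < s.length, z = x + disp (s.take k) := by
  induction s generalizing x with
  | nil => simp [trace]
  | cons e s ih =>
    simp only [trace, Finset.mem_insert, ih, List.length_cons]
    constructor
    · rintro (rfl | ⟨k, hk, rfl⟩)
      · exact ⟨0, by omega, by simp [disp]⟩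
      · exact ⟨k + 1, by omega, by simp [disp_cons, add_assoc]⟩
    · rintro ⟨k, hk, rfl⟩
      cases k with
      | zero => left; simp [disp]
      | succ k => exact Or.inr ⟨k, by omega, by simp [disp_cons, add_assoc]⟩

theorem trace_translate (x a : Site d) (s : Word d) :
    trace (a + x) s = (trace x s).image (a + ·) := by
  ext z
  simp only [mem_trace, Finset.mem_image]
  constructor
  · rintro ⟨k, hk, rfl⟩; exact ⟨_, ⟨k, hk, rfl⟩, by abel⟩
  · rintro ⟨z', ⟨k, hk, rfl⟩, rfl⟩; exact ⟨k, hk, by abel⟩

theorem path_eq_add (x : Site d) (u : ℕ → Step d) (n : ℕ) : path x u n = x + path 0 u n := by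
  simp [path]

theorem Pre_nil : Pre ([] : Word d) = univ := by ext u; simp [Pre]

theorem Pre_cons (e : Step d) (s : Word d) :
    Pre (e :: s) = {u | u 0 = e} ∩ (fun u k => u (k + 1)) ⁻¹' Pre s := by
  ext u
  simp only [Pre, mem_inter_iff, mem_preimage, mem_ofPred_eq, List.length_cons]
  constructor
  · intro h
    exact ⟨h 0 (by omega), fun k hk => h (k + 1) (by omega)⟩
  · rintro ⟨h0, h⟩ k hk
    cases k with
    | zero => exact h0
    | succ k => exact h k (by omega)

theorem measurableSet_Pre (s : Word d) : MeasurableSet (Pre s) := by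
  have : Pre s = ⋂ k : Fin s.length, (fun u : ℕ → Step d => u k) ⁻¹' {s[k]} := by
    ext u
    simp only [Pre, mem_ofPred_eq, mem_iInter, mem_preimage, mem_singleton_iff]
    exact ⟨fun h k => h k k.2, fun h k hk => h ⟨k, hk⟩⟩
  rw [this]
  exact MeasurableSet.iInter fun k => measurable_pi_apply _ (measurableSet_singleton _)

theorem measurable_shiftSeq {α : Type*} [MeasurableSpace α] (n : ℕ) :
    Measurable (shiftSeq n : (ℕ → α) → ℕ → α) :=
  measurable_pi_lambda _ fun k => measurable_pi_apply (n + k)

theorem shiftSeq_succ {α : Type*} (n : ℕ) :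
    (shiftSeq (n + 1) : (ℕ → α) → ℕ → α) = shiftSeq n ∘ fun u k => u (k + 1) := by
  funext u k; simp [shiftSeq, Nat.add_right_comm]

theorem path_pre {s : Word d} {u : ℕ → Step d} (h : u ∈ Pre s) (x : Site d) {k : ℕ}
    (hk : k ≤ s.length) : path x u k = x + disp (s.take k) := by
  induction k with
  | zero => simp [path_zero, disp]
  | succ k ih =>
    rw [path_succ, ih (by omega), h k (by omega), List.take_succ_eq_append_getElem (by omega),
      disp_append]
    simp [disp, add_assoc]

theorem path_shiftSeq {s : Word d} {u : ℕ → Step d} (h : u ∈ Pre s) (x : Site d) (k : ℕ) :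
    path x u (s.length + k) = path (x + disp s) (shiftSeq s.length u) k := by
  induction k with
  | zero => simp [path_zero, path_pre h x le_rfl]
  | succ k ih => rw [← add_assoc, path_succ, path_succ, ih]; rfl

section Quenched
variable [NeZero d]

/-- Markov property at a deterministic word. -/
theorem W_Pre_inter {w : Env d} (hw : IsEnv w) (x : Site d) (s : Word d)
    {A : Set (ℕ → Step d)} (hA : MeasurableSet A) :
    W w x (Pre s ∩ shiftSeq s.length ⁻¹' A) = qw w x s * W w (x + disp s) A := by
  induction s generalizing x with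
  | nil =>
    have h : (shiftSeq 0 : (ℕ → Step d) → ℕ → Step d) = id := by funext u k; simp [shiftSeq]
    simp [Pre_nil, qw, disp, h]
  | cons e s ih =>
    have hm : MeasurableSet (Pre s ∩ shiftSeq s.length ⁻¹' A) :=
      (measurableSet_Pre s).inter (measurable_shiftSeq _ hA)
    have heq : Pre (e :: s) ∩ shiftSeq (e :: s).length ⁻¹' A =
        {u | u 0 = e} ∩ (fun u k => u (k + 1)) ⁻¹' (Pre s ∩ shiftSeq s.length ⁻¹' A) := by
      rw [Pre_cons, List.length_cons, shiftSeq_succ, preimage_comp, preimage_inter,
        inter_assoc]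
    rw [heq, W_step hw x e hm, ih, qw, disp_cons, ← add_assoc, mul_assoc]

theorem W_Pre {w : Env d} (hw : IsEnv w) (x : Site d) (s : Word d) :
    W w x (Pre s) = qw w x s := by
  simpa using W_Pre_inter hw x s MeasurableSet.univ

/-- Steps which avoid a set only see the environment outside it. -/
theorem stepSeq_congr_of_avoid {S : Set (Site d)} {w w' : Env d}
    (h : ∀ y ∉ S, w y = w' y) {x : Site d} {u : ℕ → ℝ}
    (hav : ∀ n, path x (stepSeq w x u) n ∉ S) : stepSeq w' x u = stepSeq w x u := by
  have hpos : ∀ n, pos w' x u n = pos w x u n := by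
    intro n
    induction n with
    | zero => rfl
    | succ n ih =>
      have hn : pos w x u n ∉ S := by rw [pos_eq_path]; exact hav n
      simp only [pos, ih, h _ hn]
  funext n
  have hn : pos w x u n ∉ S := by rw [pos_eq_path]; exact hav n
  simp only [stepSeq, hpos, h _ hn]

/-- An event which forces avoidance of `S` does not depend on the rows in `S`. -/
theorem dependsOn_W {S : Set (Site d)} (x : Site d) {A : Set (ℕ → Step d)} (hA : MeasurableSet A)
    (hav : ∀ v ∈ A, ∀ n, path x v n ∉ S) : DependsOn (fun w : Env d => W w x A) Sᶜ := by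
  intro w w' h
  have h' : ∀ y ∉ S, w y = w' y := fun y hy => h y hy
  simp only [W, Measure.map_apply (measurable_stepSeq _ x) hA]
  congr 1
  ext u
  constructor
  · intro hu
    show stepSeq w' x u ∈ A
    rw [stepSeq_congr_of_avoid h' fun n => hav _ hu n]
    exact hu
  · intro hu
    show stepSeq w x u ∈ A
    rw [stepSeq_congr_of_avoid (fun y hy => (h' y hy).symm) fun n => hav _ hu n]
    exact hu

end Quenched

theorem dependsOn_qw (x : Site d) (s : Word d) :
    DependsOn (fun w : Env d => qw w x s) (↑(trace x s)) := by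
  induction s generalizing x with
  | nil => intro w w' _; simp [qw]
  | cons e s ih =>
    intro w w' h
    have h1 : w x = w' x := h x (by simp [trace])
    have h2 := ih (x + stp e) (fun y hy => h y (by simp [trace]; exact Or.inr hy))
    simp only [qw, h1]
    exact congrArg _ h2

theorem measurable_qw (x : Site d) (s : Word d) : Measurable fun w : Env d => qw w x s := by
  induction s generalizing x with
  | nil => exact measurable_const
  | cons e s ih =>
    exact (ENNReal.measurable_ofReal.comp
      ((measurable_pi_apply e).comp (measurable_pi_apply x))).mul (ih _)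

variable (μ : Measure (Step d → ℝ)) [IsProbabilityMeasure μ]

instance : IsProbabilityMeasure (envLaw μ) := by rw [envLaw]; infer_instance

/-- Functions of disjoint sets of rows are independent. -/
theorem lintegral_mul_dependsOn {S T : Set (Site d)} (hST : Disjoint S T) {f g : Env d → ℝ≥0∞}
    (hf : Measurable f) (hg : Measurable g) (hfS : DependsOn f S) (hgT : DependsOn g T) :
    ∫⁻ w, f w * g w ∂envLaw μ = (∫⁻ w, f w ∂envLaw μ) * ∫⁻ w, g w ∂envLaw μ := by
  classical
  let m : Site d → MeasurableSpace (Env d) := fun y =>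
    MeasurableSpace.comap (fun w : Env d => w y) inferInstance
  have hle : ∀ y, m y ≤ (MeasurableSpace.pi : MeasurableSpace (Env d)) := fun y =>
    (measurable_pi_apply y).comap_le
  have hind : iIndep m (envLaw μ) :=
    iIndepFun_infinitePi (P := fun _ : Site d => μ) (X := fun _ p => p) fun _ => measurable_id
  have hmeas : ∀ {U : Set (Site d)} {h : Env d → ℝ≥0∞}, Measurable h → DependsOn h U →
      @Measurable _ _ (⨆ y ∈ U, m y) _ h := by
    intro U h hh hU
    let Φ : Env d → Env d := fun w y => if y ∈ U then w y else fun _ => 0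
    have heq : h = h ∘ Φ := funext fun w => hU fun y hy => by simp [Φ, hy]
    rw [heq]
    refine @Measurable.comp _ _ _ (⨆ y ∈ U, m y) _ _ h Φ hh ?_
    refine @measurable_pi_lambda _ _ _ (⨆ y ∈ U, m y) _ Φ fun y => ?_
    by_cases hy : y ∈ U
    · simp only [Φ, hy, if_true]
      exact Measurable.of_comap_le (le_iSup₂_of_le y hy le_rfl)
    · simp only [Φ, hy, if_false]
      exact measurable_const
  exact lintegral_mul_eq_lintegral_mul_lintegral_of_independent_measurableSpace
    (iSup₂_le fun y _ => hle y) (iSup₂_le fun y _ => hle y)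
    (indep_iSup_of_disjoint hle hind hST) (hmeas hf hfS) (hmeas hg hgT)

theorem qw_shift (w : Env d) (a x : Site d) (s : Word d) :
    qw (shiftEnv a w) x s = qw w (a + x) s := by
  induction s generalizing x with
  | nil => rfl
  | cons e s ih => simp [qw, shiftEnv, ih, add_assoc]

theorem lintegral_qw (x : Site d) (s : Word d) : ∫⁻ w, qw w x s ∂envLaw μ = wt μ s := by
  have h := (measurePreserving_shiftEnv μ x).lintegral_comp (measurable_qw 0 s)
  simp only [qw_shift, add_zero] at h
  exact h

section Annealed
variable [NeZero d] {μ}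

theorem ann_translate (x : Site d) {A : Set (ℕ → Step d)} (hA : MeasurableSet A) :
    ann μ x A = ann μ 0 A := by
  simp only [ann]
  rw [show (fun w : Env d => W w x A) = fun w => W (shiftEnv x w) 0 A from
    funext fun w => by rw [W_shift w x]]
  exact (measurePreserving_shiftEnv μ x).lintegral_comp (measurable_W 0 hA)

theorem ann_mono (x : Site d) {A B : Set (ℕ → Step d)} (h : A ⊆ B) : ann μ x A ≤ ann μ x B :=
  lintegral_mono fun _ => measure_mono h

theorem ann_le_one (x : Site d) (A : Set (ℕ → Step d)) : ann μ x A ≤ 1 :=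
  le_trans (lintegral_mono fun _ => prob_le_one) (by simp)

theorem ann_univ (x : Site d) : ann μ x univ = 1 := by simp [ann]

theorem ann_iUnion {ι : Type*} [Countable ι] (x : Site d) {A : ι → Set (ℕ → Step d)}
    (hA : ∀ i, MeasurableSet (A i)) (hd : Pairwise (Function.onFun Disjoint A)) :
    ann μ x (⋃ i, A i) = ∑' i, ann μ x (A i) := by
  simp only [ann]
  rw [← lintegral_tsum fun i => (measurable_W x (hA i)).aemeasurable]
  exact lintegral_congr fun w => measure_iUnion hd hA

theorem ann_iUnion_le {ι : Type*} [Countable ι] (x : Site d) {A : ι → Set (ℕ → Step d)}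
    (hA : ∀ i, MeasurableSet (A i)) : ann μ x (⋃ i, A i) ≤ ∑' i, ann μ x (A i) := by
  simp only [ann]
  rw [← lintegral_tsum fun i => (measurable_W x (hA i)).aemeasurable]
  exact lintegral_mono fun w => measure_iUnion_le _

theorem ann_compl (x : Site d) {A : Set (ℕ → Step d)} (hA : MeasurableSet A) :
    ann μ x Aᶜ = 1 - ann μ x A := by
  simp only [ann]
  have h : ∀ w : Env d, W w x Aᶜ = 1 - W w x A := fun w => prob_compl_eq_one_sub hA
  simp only [h]
  rw [lintegral_sub (measurable_W x hA) (ne_top_of_le_ne_top ENNReal.one_ne_top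
    (ann_le_one (μ := μ) x A)) (Eventually.of_forall fun w => prob_le_one)]
  simp

theorem wt_le_one (hμ : ∀ᵐ w ∂envLaw μ, IsEnv w) (s : Word d) : wt μ s ≤ 1 := by
  rw [wt, lintegral_congr_ae (hμ.mono fun w hw => (W_Pre hw 0 s).symm)]
  exact ann_le_one 0 _

/-- Annealed Markov property across disjoint sets of rows. -/
theorem ann_Pre_inter (hμ : ∀ᵐ w ∂envLaw μ, IsEnv w) (x : Site d) (s : Word d)
    {A : Set (ℕ → Step d)} (hA : MeasurableSet A)
    (hav : ∀ v ∈ A, ∀ n, path (x + disp s) v n ∉ trace x s) :
    ann μ x (Pre s ∩ shiftSeq s.length ⁻¹' A) = wt μ s * ann μ (x + disp s) A := by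
  rw [ann, lintegral_congr_ae (hμ.mono fun w hw => W_Pre_inter hw x s hA),
    lintegral_mul_dependsOn μ (disjoint_compl_right (a := (↑(trace x s) : Set (Site d))))
      (measurable_qw x s) (measurable_W _ hA) (dependsOn_qw x s)
      (dependsOn_W _ hA fun v hv n h => hav v hv n h), lintegral_qw]
  rfl

theorem ann_Pre (hμ : ∀ᵐ w ∂envLaw μ, IsEnv w) (x : Site d) (s : Word d) :
    ann μ x (Pre s) = wt μ s := by
  rw [ann, lintegral_congr_ae (hμ.mono fun w hw => W_Pre hw x s), lintegral_qw]

theorem wt_append (s t : Word d) (h : Disjoint (trace 0 s) (trace (disp s) t)) :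
    wt μ (s ++ t) = wt μ s * wt μ t := by
  have hq : ∀ (w : Env d) (x : Site d), qw w x (s ++ t) = qw w x s * qw w (x + disp s) t := by
    intro w
    clear h
    induction s with
    | nil => simp [qw, disp]
    | cons e s ih =>
      intro x
      simp only [List.cons_append, qw, disp_cons, ← add_assoc, mul_assoc, ih]
  simp only [wt, hq, zero_add]
  rw [lintegral_mul_dependsOn μ (Finset.disjoint_coe.2 h) (measurable_qw 0 s)
    (measurable_qw _ t) (dependsOn_qw 0 s) (dependsOn_qw _ t), lintegral_qw, lintegral_qw]
  rfl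

end Annealed

theorem ae_isEnv (hell : IsElliptic μ) : ∀ᵐ w ∂envLaw μ, IsEnv w :=
  (ae_all_rows' μ hell).mono fun _ hw =>
    ⟨fun y e => ((hw y).1 e).le, fun y => (hw y).2⟩
where
  ae_all_rows' (μ : Measure (Step d → ℝ)) [IsProbabilityMeasure μ] (hell : IsElliptic μ) :
      ∀ᵐ w ∂envLaw μ, ∀ y, (∀ e, 0 < w y e) ∧ ∑ e, w y e = 1 :=
    ae_all_iff.2 fun y =>
      (measurePreserving_eval_infinitePi (fun _ : Site d => μ) y).quasiMeasurePreserving.ae hell

theorem wt_pos (hell : IsElliptic μ) (s : Word d) : 0 < wt μ s := by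
  refine pos_iff_ne_zero.2 fun h => ?_
  rw [wt, lintegral_eq_zero_iff (measurable_qw 0 s)] at h
  obtain ⟨w, hw, h0⟩ := ((ae_isEnv.ae_all_rows' μ hell).and h).exists
  refine (?_ : qw w 0 s ≠ 0) h0
  have key : ∀ x, qw w x s ≠ 0 := by
    clear h h0
    induction s with
    | nil => simp [qw]
    | cons e s ih =>
      intro x
      exact mul_ne_zero (by simpa using (hw x).1 e) (ih _)
  exact key 0

end Vale.Agent.P147.Regen
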